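import Vale.Agent.P362.Basic

/-! The adversary method, pointwise form. -/

namespace Vale.Agent.P362

open Matrix Finset

theorem adv_unit {P : Type} [Fintype P] [DecidableEq P] {U : Matrix P P ℂ}
    (hU : U ∈ Matrix.unitaryGroup P ℂ) (v w : P → ℂ) :
    star (U *ᵥ v) ⬝ᵥ (U *ᵥ w) = star v ⬝ᵥ w := by
  have h : Uᴴ * U = 1 := Matrix.mem_unitaryGroup_iff'.1 hU
  rw [Matrix.star_mulVec, Matrix.dotProduct_mulVec, Matrix.vecMul_vecMul, h, Matrix.vecMul_one]

theorem adv_oracle {n m : ℕ} (x : Fin n → Bool) (v : Fin n × Bool × Fin m → ℂ)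
    (p : Fin n × Bool × Fin m) : (oracle x *ᵥ v) p = v (p.1, xor p.2.1 (x p.1), p.2.2) := by
  obtain ⟨i, c, z⟩ := p
  rw [Matrix.mulVec, dotProduct, sum_eq_single (i, xor c (x i), z)]
  · simp [oracle]
  · rintro ⟨i', c', z'⟩ _ h
    rw [oracle, Matrix.of_apply, if_neg, zero_mul]
    intro e
    simp only [Prod.mk.injEq] at e
    obtain ⟨rfl, rfl, rfl⟩ := e
    simp at h
  · simp

theorem adv_xor {M : Type} [AddCommMonoid M] {m : ℕ} (b : Bool) (F : Bool × Fin m → M) :
    ∑ q : Bool × Fin m, F (xor q.1 b, q.2) = ∑ q, F q := by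
  cases b
  · simp
  · simp [Fintype.sum_prod_type, add_comm]

theorem adv_norm {P : Type} [Fintype P] (v : P → ℂ) :
    star v ⬝ᵥ v = ((∑ p, ‖v p‖ ^ 2 : ℝ) : ℂ) := by
  rw [dotProduct, Complex.ofReal_sum]
  refine sum_congr rfl fun p _ => ?_
  rw [Pi.star_apply, Complex.star_def, Complex.conj_mul', Complex.ofReal_pow]

theorem adv_cs {P : Type} [Fintype P] (v w : P → ℂ) :
    ‖∑ p, star (v p) * w p‖ ≤ √(∑ p, ‖v p‖ ^ 2) * √(∑ p, ‖w p‖ ^ 2) := by
  refine (norm_sum_le _ _).trans ?_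
  simp only [norm_mul, norm_star]
  exact Real.sum_mul_le_sqrt_mul_sqrt _ _ _

theorem adv_step {n m : ℕ} (x y : Fin n → Bool) (v w : Fin n × Bool × Fin m → ℂ) :
    ‖star (oracle x *ᵥ v) ⬝ᵥ (oracle y *ᵥ w) - star v ⬝ᵥ w‖ ≤ 2 * ∑ i, if x i ≠ y i then
      √(∑ q, ‖v (i, q)‖ ^ 2) * √(∑ q, ‖w (i, q)‖ ^ 2) else 0 := by
  simp only [dotProduct, Pi.star_apply, adv_oracle]
  rw [Fintype.sum_prod_type, Fintype.sum_prod_type, ← sum_sub_distrib, mul_sum]
  refine (norm_sum_le _ _).trans (sum_le_sum fun i _ => ?_)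
  split_ifs with h
  · refine (norm_sub_le _ _).trans ?_
    have h1 := adv_cs (fun q : Bool × Fin m => v (i, xor q.1 (x i), q.2))
      (fun q => w (i, xor q.1 (y i), q.2))
    rw [adv_xor (x i) fun q => ‖v (i, q)‖ ^ 2, adv_xor (y i) fun q => ‖w (i, q)‖ ^ 2] at h1
    have h2 := adv_cs (fun q : Bool × Fin m => v (i, q)) (fun q => w (i, q))
    linarith
  · dsimp only
    rw [not_not.1 h, adv_xor (y i) fun q => star (v (i, q)) * w (i, q)]
    simp

theorem adv {n T : ℕ} {f : (Fin n → Bool) → Bool} (h : QAlg f T) :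
    ∃ a : ℕ → (Fin n → Bool) → Fin n → ℝ, (∀ t x i, 0 ≤ a t x i) ∧
      (∀ t x, ∑ i, a t x i ^ 2 ≤ 1) ∧
      ∀ x y, f x ≠ f y →
        1 / 36 ≤ ∑ t ∈ range T, ∑ i, if x i ≠ y i then a t x i * a t y i else 0 := by
  obtain ⟨m, U, p0, out, hU, hf⟩ := h
  have h0 : ∀ x y, star (state U p0 x 0) ⬝ᵥ state U p0 y 0 = 1 := by
    intro x y
    simp only [state]
    rw [adv_unit (hU 0)]
    simp [dotProduct, Pi.single_apply]
  have hs : ∀ x y t, ‖star (state U p0 x t) ⬝ᵥ state U p0 y t - 1‖ ≤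
      2 * ∑ s ∈ range t, ∑ i, if x i ≠ y i then √(∑ q, ‖state U p0 x s (i, q)‖ ^ 2) *
        √(∑ q, ‖state U p0 y s (i, q)‖ ^ 2) else 0 := by
    intro x y t
    induction t with
    | zero => simp [h0]
    | succ t ih =>
      rw [sum_range_succ, mul_add]
      simp only [state]
      rw [adv_unit (hU _)]
      have := adv_step x y (state U p0 x t) (state U p0 y t)
      refine le_trans ?_ (add_le_add ih this)
      refine le_trans (le_of_eq ?_) (norm_add_le _ _)
      congr 1; ring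
  have hn : ∀ x t, ∑ p, ‖state U p0 x t p‖ ^ 2 = 1 := by
    intro x t
    have := hs x x t
    simp only [ne_eq, not_true_eq_false, if_false, sum_const_zero, mul_zero, norm_le_zero_iff,
      sub_eq_zero, adv_norm] at this
    exact_mod_cast this
  refine ⟨fun t x i => √(∑ q, ‖state U p0 x t (i, q)‖ ^ 2), fun t x i => Real.sqrt_nonneg _,
    fun t x => ?_, fun x y hxy => ?_⟩
  · rw [← hn x t, Fintype.sum_prod_type]
    exact (sum_congr rfl fun i _ => Real.sq_sqrt (sum_nonneg fun _ _ => sq_nonneg _)).le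
  · have h1 := hs x y T
    have h2 : ‖star (state U p0 x T) ⬝ᵥ state U p0 y T‖ ≤ 17 / 18 := by
      have hx := hf x
      have hy := hf y
      have nx := hn x T
      have ny := hn y T
      generalize state U p0 x T = v at *
      generalize state U p0 y T = w at *
      have key : ∀ p, ‖star v p * w p‖ ≤ (5 / 7 * ‖v p‖ ^ 2 + 5 / 7 * ‖w p‖ ^ 2) -
          (51 / 140 * (if out p = f x then ‖v p‖ ^ 2 else 0) +
            51 / 140 * (if out p = f y then ‖w p‖ ^ 2 else 0)) := by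
        intro p
        rw [norm_mul, Pi.star_apply, norm_star]
        by_cases h3 : out p = f x
        · rw [if_pos h3, if_neg (h3 ▸ hxy)]
          nlinarith [sq_nonneg (7 * ‖v p‖ - 10 * ‖w p‖)]
        · have h4 : out p = f y := by
            revert h3 hxy
            cases out p <;> cases f x <;> cases f y <;> simp
          rw [if_neg h3, if_pos h4]
          nlinarith [sq_nonneg (10 * ‖v p‖ - 7 * ‖w p‖)]
      refine (norm_sum_le _ _).trans ((sum_le_sum fun p _ => key p).trans ?_)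
      simp only [sum_sub_distrib, sum_add_distrib, ← mul_sum, nx, ny]
      linarith
    have h3 := norm_sub_norm_le (1 : ℂ) (star (state U p0 x T) ⬝ᵥ state U p0 y T)
    rw [norm_one, norm_sub_rev] at h3
    linarith

end Vale.Agent.P362
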