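import Vale.Agent.P362.QFrame

/-! Amplitude amplification with an unknown success probability. -/

namespace Vale.Agent.P362

open Matrix Finset

/-- the amplitudes after `j` Grover iterations -/
noncomputable def ampC (p : ℝ) : ℕ → ℝ × ℝ
  | 0 => (1, 1)
  | j + 1 => ((ampC p j).1 * (1 - 2 * p) + 2 * (ampC p j).2 * (1 - p),
      -2 * (ampC p j).1 * p + (ampC p j).2 * (1 - 2 * p))

theorem ampC_inv (p : ℝ) (j : ℕ) : (ampC p j).1 ^ 2 * p + (ampC p j).2 ^ 2 * (1 - p) = 1 := by
  induction j with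
  | zero => simp [ampC]
  | succ j ih => simp only [ampC]; linear_combination ih

theorem ampC_sum (p : ℝ) (M : ℕ) : ∑ j ∈ range M, (ampC p j).1 ^ 2 * p =
    M / 2 - ((ampC p M).1 * (ampC p M).2 * (1 - 2 * p) -
      ((ampC p M).2 ^ 2 * (1 - p) - (ampC p M).1 ^ 2 * p)) / 4 := by
  induction M with
  | zero => simp [ampC]; ring
  | succ M ih =>
    rw [sum_range_succ, ih]
    have := ampC_inv p M
    simp only [ampC]
    push_cast
    linear_combination (1 / 2) * this

theorem ampC_ge {p : ℝ} {M : ℕ} (hp : p ≤ 1 / 4) (hM : 1 ≤ (M : ℝ) ^ 2 * p) :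
    (M : ℝ) / 4 ≤ ∑ j ∈ range M, (ampC p j).1 ^ 2 * p := by
  rw [ampC_sum]
  have h := ampC_inv p M
  generalize (ampC p M).1 = a at *
  generalize (ampC p M).2 = b at *
  set e := a * b * (1 - 2 * p) - (b ^ 2 * (1 - p) - a ^ 2 * p) with he
  have h1 : 4 * p * (1 - p) * e ^ 2 + ((b ^ 2 * (1 - p) - a ^ 2 * p) * (1 - 2 * p) +
      4 * p * (1 - p) * a * b) ^ 2 = 1 := by
    rw [he]; linear_combination (a ^ 2 * p + b ^ 2 * (1 - p) + 1) * h
  have hM0 : (0 : ℝ) ≤ M := Nat.cast_nonneg M
  have hp0 : 0 < p := by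
    by_contra h0
    nlinarith [sq_nonneg (M : ℝ)]
  have h2 : p * e ^ 2 ≤ p * (M : ℝ) ^ 2 := by
    nlinarith [sq_nonneg ((b ^ 2 * (1 - p) - a ^ 2 * p) * (1 - 2 * p) + 4 * p * (1 - p) * a * b),
      mul_nonneg hp0.le (sq_nonneg e)]
  have h3 : e ≤ M := (abs_le_of_sq_le_sq' (le_of_mul_le_mul_left h2 hp0) hM0).2
  linarith

theorem amp_iter {ι B : Type} [Fintype B] [DecidableEq B] {T : ℕ} {U : (ι → Bool) → Matrix B B ℝ}
    (hU : OpQ T U) (b0 : B) (g : B → Bool) (j : ℕ) :
    ∃ V : (ι → Bool) → Matrix B B ℝ, OpQ ((2 * j + 1) * T) V ∧ ∀ x b, V x b b0 =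
      (if g b = true then (ampC (∑ c, if g c = true then U x c b0 ^ 2 else 0) j).1
        else (ampC (∑ c, if g c = true then U x c b0 ^ 2 else 0) j).2) * U x b b0 := by
  have hd : ∀ s : B → ℝ, (∀ b, s b * s b = 1) →
      Matrix.diagonal s * (Matrix.diagonal s)ᵀ = 1 := by
    intro s hs
    rw [Matrix.diagonal_transpose, Matrix.diagonal_mul_diagonal, ← Matrix.diagonal_one]
    congr 1; funext b; exact hs b
  induction j with
  | zero => exact ⟨U, by simpa using hU, fun x b => by simp [ampC]⟩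
  | succ j ih =>
    obtain ⟨V, hV, e⟩ := ih
    have h0 := hd (fun b => if b = b0 then 1 else -1) fun b => by split_ifs <;> norm_num
    have h1 := hd (fun b => sg (g b)) fun b => sg_sq _
    have h2 := (hU.mul (hU.transpose.const_mul h0)).mul (hV.const_mul h1)
    rw [show T + T + (2 * j + 1) * T = (2 * (j + 1) + 1) * T by ring] at h2
    refine ⟨_, h2, fun x b => ?_⟩
    have hr : ∀ c, (U x * (Matrix.diagonal (fun b => if b = b0 then (1 : ℝ) else -1) * (U x)ᵀ)) b c
        = 2 * U x b b0 * U x c b0 - if b = c then 1 else 0 := by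
      intro c
      have h3 := congrFun (congrFun (hU.orth x) b) c
      rw [Matrix.one_apply, Matrix.mul_apply] at h3
      rw [← h3, Matrix.mul_apply]
      have h4 : ∀ k, U x b k * (Matrix.diagonal (fun b => if b = b0 then (1 : ℝ) else -1) *
          (U x)ᵀ) k c = (if k = b0 then 2 * U x b k * U x c k else 0) - U x b k * (U x)ᵀ k c := by
        intro k
        rw [Matrix.diagonal_mul, Matrix.transpose_apply]
        split_ifs <;> ring
      simp only [h4, sum_sub_distrib, sum_ite_eq', mem_univ, if_true]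
    have h5 := col_sq (hU.orth x) b0
    rw [Matrix.mul_apply]
    simp only [hr, Matrix.diagonal_mul, e, ampC]
    set p := ∑ c, if g c = true then U x c b0 ^ 2 else 0 with hp
    generalize (ampC p j).1 = α
    generalize (ampC p j).2 = β
    have h6 : ∀ c, (2 * U x b b0 * U x c b0 - if b = c then 1 else 0) *
        (sg (g c) * ((if g c = true then α else β) * U x c b0)) =
        2 * U x b b0 * (β * U x c b0 ^ 2 - (α + β) * if g c = true then U x c b0 ^ 2 else 0) -
          if b = c then sg (g c) * ((if g c = true then α else β) * U x c b0) else 0 := by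
      intro c
      cases g c <;> split_ifs <;> simp_all <;> ring
    simp only [h6, sum_sub_distrib, ← mul_sum, h5, ← hp, sum_ite_eq, mem_univ, if_true]
    cases g b <;> simp <;> ring

theorem QSim.amp {ι α : Type} [Fintype α] {T : ℕ} {P : (ι → Bool) → α → ℝ} (h : QSim T P)
    (good : α → Bool) (M : ℕ) (hM : 0 < M) :
    ∃ P' : (ι → Bool) → α → ℝ, QSim ((2 * M + 1) * T) P' ∧ ∀ x, ∃ γ : ℝ, 0 ≤ γ ∧
      (∀ a, good a = true → P' x a = γ * P x a) ∧
      (1 ≤ (M : ℝ) ^ 2 * ∑ a, (if good a = true then P x a else 0) →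
        1 / 8 ≤ γ * ∑ a, (if good a = true then P x a else 0)) := by
  classical
  have hD := h.isD
  obtain ⟨B, _, _, U, b0, o, hU, hP⟩ := h
  choose V hV e using amp_iter hU b0 fun b => good (o b)
  have hM' : (0 : ℝ) < M := by exact_mod_cast hM
  have hc : QSim 0 (fun (_ : ι → Bool) (_ : Bool × Fin M) => 1 / (2 * (M : ℝ))) :=
    QSim.const ⟨fun _ => by positivity, by simp; field_simp⟩
  have hb := hc.bind (T2 := (2 * M + 1) * T) (P2 := fun s x a =>
    ∑ b, if o b = a then V (if s.1 = true then s.2 else 0) x b b0 ^ 2 else 0) fun s =>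
      ⟨B, _, _, _, b0, o, (hV (if s.1 = true then s.2 else 0)).mono (Nat.mul_le_mul_right _ (by split_ifs <;> omega)),
        fun x a => by congr⟩
  rw [Nat.zero_add] at hb
  refine ⟨_, hb, fun x => ?_⟩
  have hp : ∑ a, (if good a = true then P x a else 0) =
      ∑ c, if good (o c) = true then U x c b0 ^ 2 else 0 := by
    have : ∀ a, (if good a = true then P x a else 0) =
        ∑ c, if o c = a then (if good (o c) = true then U x c b0 ^ 2 else 0) else 0 := by
      intro a
      rw [hP]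
      split_ifs with ha
      · exact sum_congr rfl fun c _ => by by_cases hc : o c = a <;> simp [hc, ha]
      · exact (sum_eq_zero fun c _ => by by_cases hc : o c = a <;> simp [hc, ha]).symm
    simp only [this]
    rw [sum_comm]
    simp
  have hp0 : 0 ≤ ∑ a, (if good a = true then P x a else 0) :=
    sum_nonneg fun a _ => by split_ifs; exacts [(hD x).1 a, le_rfl]
  rw [hp] at hp0 ⊢
  set p := ∑ c, if good (o c) = true then U x c b0 ^ 2 else 0 with hp'
  have hs : 0 ≤ ∑ j ∈ range M, (ampC p j).1 ^ 2 := sum_nonneg fun j _ => sq_nonneg _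
  refine ⟨1 / 2 + (∑ j ∈ range M, (ampC p j).1 ^ 2) / (2 * M), by positivity, fun a ha => ?_,
    fun h1 => ?_⟩
  · have : ∀ j, (∑ b, if o b = a then V j x b b0 ^ 2 else 0) = (ampC p j).1 ^ 2 * P x a := by
      intro j
      rw [hP, mul_sum]
      refine sum_congr rfl fun b _ => ?_
      by_cases hb : o b = a
      · rw [if_pos hb, if_pos hb, e, hb, if_pos ha, mul_pow]
      · simp [hb]
    simp only [this, Fintype.sum_prod_type, Fintype.sum_bool, if_true, Bool.false_eq_true,
      if_false, ← mul_sum, ← sum_mul]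
    rw [Fin.sum_univ_eq_sum_range (fun j => (ampC p j).1 ^ 2)]
    simp [ampC]
    field_simp
    ring
  · by_cases h4 : p ≤ 1 / 4
    · have h2 := ampC_ge h4 h1
      rw [← sum_mul] at h2
      have h3 : 1 / 8 ≤ (∑ j ∈ range M, (ampC p j).1 ^ 2) / (2 * M) * p := by
        rw [div_mul_eq_mul_div, le_div_iff₀ (by positivity)]; linarith
      linarith [add_mul (1 / 2) ((∑ j ∈ range M, (ampC p j).1 ^ 2) / (2 * M)) p]
    · have h3 : 0 ≤ (∑ j ∈ range M, (ampC p j).1 ^ 2) / (2 * M) * p := by positivity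
      linarith [add_mul (1 / 2) ((∑ j ∈ range M, (ampC p j).1 ^ 2) / (2 * M)) p]

end Vale.Agent.P362
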