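import Vale.Agent.P362.Defs

/-! Shared auxiliary definitions for the proof of alpha_tot = 4. -/

namespace Vale.Agent.P362

open Matrix

/-- The sign of a bit. -/
def sg (b : Bool) : ℝ := if b = true then -1 else 1

@[simp] theorem sg_true : sg true = -1 := rfl
@[simp] theorem sg_false : sg false = 1 := rfl
theorem sg_sq (b : Bool) : sg b * sg b = 1 := by cases b <;> simp
theorem abs_sg (b : Bool) : |sg b| = 1 := by cases b <;> simp
theorem sg_not (b : Bool) : sg (!b) = - sg b := by cases b <;> simp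

/-- `g` is computed by a decision tree of depth at most `d`. -/
inductive Dep {ι α : Type} : ((ι → Bool) → α) → ℕ → Prop
  | const (a : α) (d : ℕ) : Dep (fun _ => a) d
  | node (i : ι) (g0 g1 : (ι → Bool) → α) (d : ℕ) :
      Dep g0 d → Dep g1 d → Dep (fun x => if x i = true then g1 x else g0 x) (d + 1)

/-- Probability vectors. -/
def IsD {α : Type} [Fintype α] (p : α → ℝ) : Prop := (∀ a, 0 ≤ p a) ∧ ∑ a, p a = 1

/-- Phase query: the basis vector `b` queries the bit `idx b` (or nothing). -/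
def ph {ι B : Type} [DecidableEq B] (idx : B → Option ι) (x : ι → Bool) : Matrix B B ℝ :=
  Matrix.diagonal fun b => (idx b).elim 1 fun i => sg (x i)

/-- Real orthogonal operators made with `T` phase queries. -/
def OpQ {ι B : Type} [Fintype B] [DecidableEq B] : ℕ → ((ι → Bool) → Matrix B B ℝ) → Prop
  | 0, U => ∃ W : Matrix B B ℝ, W * Wᵀ = 1 ∧ ∀ x, U x = W
  | T + 1, U => ∃ (W : Matrix B B ℝ) (idx : B → Option ι) (V : (ι → Bool) → Matrix B B ℝ),
      W * Wᵀ = 1 ∧ OpQ T V ∧ ∀ x, U x = W * ph idx x * V x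

open Classical in
/-- A quantum algorithm with `T` queries samples from `P x` on the input `x`. -/
def QSim {ι α : Type} (T : ℕ) (P : (ι → Bool) → α → ℝ) : Prop :=
  ∃ (B : Type) (_ : Fintype B) (_ : DecidableEq B) (U : (ι → Bool) → Matrix B B ℝ) (b0 : B)
    (o : B → α), OpQ T U ∧ ∀ x a, P x a = ∑ b, if o b = a then U x b b0 ^ 2 else 0

/-- Flip the bits in `T`. -/
def flp {ι : Type} [DecidableEq ι] (x : ι → Bool) (T : Finset ι) : ι → Bool :=
  fun i => if i ∈ T then !x i else x i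

/-- Alternating sum of `f` over the subcube through `x` with free coordinates `S`. -/
def alt {ι : Type} [DecidableEq ι] (f : (ι → Bool) → Bool) (S : Finset ι) (x : ι → Bool) : ℤ :=
  ∑ T ∈ S.powerset, (-1) ^ T.card * (if f (flp x T) = true then 1 else 0)

/-- The derivative in the directions `S` of the multilinear extension of `F`, at `z`. -/
noncomputable def pd {I : Type} [Fintype I] [DecidableEq I] (F : (I → Bool) → ℝ) (S : Finset I)
    (z : I → ℝ) : ℝ :=
  ∑ σ : I → Bool, F σ * ∏ i, if i ∈ S then sg (σ i) / 2 else (1 + sg (σ i) * z i) / 2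

/-- A gadget: a bit hidden from `h` classical queries, visible to `T` quantum queries, whose value
can be certified by a transcript with local checks. -/
structure Gad (I Tr G : Type) [Fintype I] [DecidableEq I] (T d h : ℕ) (δ ε : ℝ) : Type where
  Φ : (I → Bool) → ℝ
  π : Bool → (I → Bool) → ℝ
  chk : (I ⊕ Tr → Bool) → G → Bool
  val : (I ⊕ Tr → Bool) → ℝ
  sim : QSim T (fun z c => (1 + sg c * Φ z) / 2)
  isD : ∀ b, IsD (π b)
  mean : ∀ b, δ ≤ ∑ z, π b z * (sg b * Φ z)
  ind : ∀ F : (I → Bool) → ℝ, Dep F h → (∀ z, |F z| ≤ 1) →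
    |∑ z, π false z * F z - ∑ z, π true z * F z| ≤ ε
  chkDep : ∀ g, Dep (fun y => chk y g) d
  valDep : Dep val d
  sound : ∀ y, (∀ g, chk y g = true) → val y = Φ (fun i => y (Sum.inl i))
  complete : ∀ z, ∃ t : Tr → Bool, ∀ g, chk (Sum.elim z t) g = true

/-! Forrelation. -/

/-- The `±1` Hadamard matrix. -/
def Hd {ν : ℕ} (y y' : Fin ν → Bool) : ℝ := ∏ t, sg (y t && y' t)

/-- The square root of the dimension. -/
noncomputable def rho (ν : ℕ) : ℝ := Real.sqrt (2 ^ ν)

/-- The vector `H D_{b-1} H ⋯ H D_0 1`. -/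
def vec {ν : ℕ} (a : ℕ → (Fin ν → Bool) → ℝ) : ℕ → (Fin ν → Bool) → ℝ
  | 0 => fun _ => 1
  | b + 1 => fun y => ∑ y', Hd y y' * (a b y' * vec a b y')

/-- The signs of an instance. -/
def sgn {k ν : ℕ} (z : Fin (k + 1) × (Fin ν → Bool) → Bool) (b : ℕ) (y : Fin ν → Bool) : ℝ :=
  if h : b < k + 1 then sg (z (⟨b, h⟩, y)) else 1

/-- The `(k+1)`-fold Forrelation. -/
noncomputable def Phi {k ν : ℕ} (z : Fin (k + 1) × (Fin ν → Bool) → Bool) : ℝ :=
  vec (sgn z) (k + 1) (fun _ => false) / rho ν ^ (k + 2)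

/-- The left factor of the mean of a bit. -/
noncomputable def Lf {k ν : ℕ} (l : ℝ) (u : Fin (k + 1) → (Fin ν → Bool) → ℝ) :
    Fin (k + 1) → (Fin ν → Bool) → ℝ :=
  Fin.cases (fun _ => l) fun b y => Real.sin ((∑ y', Hd y y' * u b.castSucc y') / rho ν)

/-- The means of the bits. -/
noncomputable def zpt {k ν : ℕ} (l : ℝ) (u : Fin (k + 1) → (Fin ν → Bool) → ℝ) :
    Fin (k + 1) × (Fin ν → Bool) → ℝ :=
  fun i => Lf l u i.1 i.2 * u i.1 i.2 / 2

/-- The sign vectors of `w`, followed by the all ones vector. -/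
def Uw {k ν : ℕ} (w : Fin k → (Fin ν → Bool) → Bool) : Fin (k + 1) → (Fin ν → Bool) → ℝ :=
  Fin.snoc (α := fun _ => (Fin ν → Bool) → ℝ) (fun b y => sg (w b y)) fun _ => 1

/-- The hard distributions. -/
noncomputable def piD (k ν : ℕ) (l : ℝ) (σ : Fin (k + 1) × (Fin ν → Bool) → Bool) : ℝ :=
  (∑ w : Fin k → (Fin ν → Bool) → Bool, ∏ i, (1 + sg (σ i) * zpt l (Uw w) i) / 2) /
    Fintype.card (Fin k → (Fin ν → Bool) → Bool)

end Vale.Agent.P362
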