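import Vale.Agent.P362.Prob

/-! The randomized lower bound for the pointer function, abstractly. -/

namespace Vale.Agent.P362

open Finset

namespace CLow

variable {ι : Type}

/-- The queries of a tree on `x`, stopped before the `(h+1)`-th query satisfying `P`. -/
def tq (P : ι → Bool) (x : ι → Bool) : DT ι → ℕ → List ι
  | .leaf _, _ => []
  | .node i t0 t1, h =>
      if P i = true ∧ h = 0 then []
      else i :: (if x i = true then tq P x t1 (h - (P i).toNat) else tq P x t0 (h - (P i).toNat))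

/-- The number of queries satisfying `P`. -/
def cnt (P : ι → Bool) (x : ι → Bool) : DT ι → ℕ
  | .leaf _ => 0
  | .node i t0 t1 => (P i).toNat + (if x i = true then cnt P x t1 else cnt P x t0)

theorem length_tq (P x : ι → Bool) (t : DT ι) : ∀ h, (tq P x t h).length ≤ t.depth := by
  induction t with
  | leaf b => intro h; simp [tq]
  | node i t0 t1 ih0 ih1 =>
    intro h
    have a0 := ih0 (h - (P i).toNat)
    have a1 := ih1 (h - (P i).toNat)
    simp only [tq, DT.depth]
    split_ifs
    · simp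
    · simp only [List.length_cons]; omega
    · simp only [List.length_cons]; omega

theorem countP_tq (P x : ι → Bool) (t : DT ι) : ∀ h, (tq P x t h).countP P ≤ h := by
  induction t with
  | leaf b => intro h; simp [tq]
  | node i t0 t1 ih0 ih1 =>
    intro h
    have a0 := ih0 (h - (P i).toNat)
    have a1 := ih1 (h - (P i).toNat)
    simp only [tq]
    split_ifs with c1 c2
    · simp
    · rw [List.countP_cons]
      cases hP : P i <;> simp [hP] at a1 c1 ⊢ <;> omega
    · rw [List.countP_cons]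
      cases hP : P i <;> simp [hP] at a0 c1 ⊢ <;> omega

theorem agree (P x y : ι → Bool) (t : DT ι) : ∀ h, (∀ i ∈ tq P x t h, y i = x i) →
    (cnt P y t ≤ h → cnt P x t ≤ h) ∧ (cnt P x t ≤ h → t.eval y = t.eval x) := by
  induction t with
  | leaf b => intro h _; simp [cnt, DT.eval]
  | node i t0 t1 ih0 ih1 =>
    intro h H
    simp only [tq] at H
    simp only [cnt, DT.eval]
    by_cases c1 : P i = true ∧ h = 0
    · obtain ⟨c2, rfl⟩ := c1
      simp [c2]
    · rw [if_neg c1] at H
      have e : y i = x i := H i (by simp)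
      have c3 : (P i).toNat ≤ h := by
        cases hP : P i <;> simp [hP] at c1 ⊢
        omega
      rw [e]
      by_cases c2 : x i = true
      · simp only [c2, if_true] at H ⊢
        obtain ⟨a, b⟩ := ih1 _ fun k hk => H k (List.mem_cons_of_mem _ hk)
        exact ⟨fun u => by have := a (by omega); omega, fun u => b (by omega)⟩
      · simp only [c2] at H ⊢
        obtain ⟨a, b⟩ := ih0 _ fun k hk => H k (List.mem_cons_of_mem _ hk)
        simp only [Bool.false_eq_true, if_false]
        exact ⟨fun u => by have := a (by omega); omega, fun u => b (by omega)⟩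

theorem sum_toNat_le {K : Type} [Fintype K] (b : K → Bool)
    (hb : ∀ k k', b k = true → b k' = true → k = k') : ∑ k, (b k).toNat ≤ 1 := by
  classical
  have : ∑ k, (b k).toNat = (univ.filter fun k => b k = true).card := by
    rw [Finset.card_filter]
    exact Finset.sum_congr rfl fun k _ => by cases b k <;> rfl
  rw [this, Finset.card_le_one]
  intro k hk k' hk'
  exact hb k k' (Finset.mem_filter.1 hk).2 (Finset.mem_filter.1 hk').2

theorem sum_cnt {K : Type} [Fintype K] (P : K → ι → Bool)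
    (hP : ∀ i k k', P k i = true → P k' i = true → k = k') (x : ι → Bool) (t : DT ι) :
    ∑ k, cnt (P k) x t ≤ t.depth := by
  induction t with
  | leaf b => simp [cnt]
  | node i t0 t1 ih0 ih1 =>
    have a := sum_toNat_le (fun k => P k i) (hP i)
    simp only [cnt, DT.depth, Finset.sum_add_distrib]
    by_cases c : x i = true
    · simp only [c, if_true]; omega
    · simp only [c, Bool.false_eq_true, if_false]; omega

theorem dep_tq {Z : Type} (P : ι → Bool) (σ : (Z → Bool) → ι → Bool)
    (h1 : ∀ i, Dep (fun z => σ z i) 1) (h2 : ∀ i, P i = false → ∃ c, ∀ z, σ z i = c) (t : DT ι) :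
    ∀ h, Dep (fun z => tq P (σ z) t h) h := by
  induction t with
  | leaf b => intro h; exact Dep.const _ _
  | node i t0 t1 ih0 ih1 =>
    intro h
    by_cases c1 : P i = true ∧ h = 0
    · exact (Dep.const [] h).congr fun z => by simp only [tq, if_pos c1]
    · cases hP : P i with
      | false =>
        obtain ⟨c, hc⟩ := h2 i hP
        cases c with
        | false => exact ((ih0 h).map fun l => i :: l).congr fun z => by simp [tq, hP, hc]
        | true => exact ((ih1 h).map fun l => i :: l).congr fun z => by simp [tq, hP, hc]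
      | true =>
        obtain ⟨h', rfl⟩ : ∃ h', h = h' + 1 := ⟨h - 1, by simp [hP] at c1; omega⟩
        have := (h1 i).bind (h := fun c z => i :: (if c = true then tq P (σ z) t1 h'
          else tq P (σ z) t0 h')) (d2 := h') fun c => by
            cases c with
            | false => exact ((ih0 h').map fun l => i :: l).congr fun z => by simp
            | true => exact ((ih1 h').map fun l => i :: l).congr fun z => by simp
        rw [Nat.add_comm h' 1]
        exact this.congr fun z => by simp [tq, hP]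

open Classical in
/-- The indicator of a proposition. -/
noncomputable def ind (p : Prop) : ℝ := if p then 1 else 0

theorem ind_pos {p : Prop} (h : p) : ind p = 1 := if_pos h

theorem ind_neg {p : Prop} (h : ¬ p) : ind p = 0 := if_neg h

theorem ind_nonneg (p : Prop) : 0 ≤ ind p := by
  unfold ind; split_ifs <;> norm_num

theorem ind_le (p : Prop) : ind p ≤ 1 := by
  unfold ind; split_ifs <;> norm_num

theorem sum_mem_le {K : Type} [Fintype K] (R : K → ι → Prop) (P : ι → Bool)
    (hR : ∀ k k' i, R k i → R k' i → k = k') (hP : ∀ k i, R k i → P i = true) (L : List ι) :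
    ∑ k, ind (∃ i ∈ L, R k i) ≤ L.countP P := by
  induction L with
  | nil => simp [ind]
  | cons a L ih =>
    have a1 : ∑ k, ind (R k a) ≤ if P a = true then 1 else 0 := by
      by_cases c : ∃ k, R k a
      · obtain ⟨k, hk⟩ := c
        rw [if_pos (hP k a hk), Finset.sum_eq_single k (fun k' _ hk' =>
          ind_neg fun h => hk' (hR _ _ _ h hk)) (by simp), ind_pos hk]
      · rw [Finset.sum_eq_zero fun k _ => ind_neg fun h => c ⟨k, h⟩]
        split_ifs <;> norm_num
    have a2 : ∀ k, ind (∃ i ∈ a :: L, R k i) ≤ ind (R k a) + ind (∃ i ∈ L, R k i) := by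
      intro k
      by_cases c : R k a
      · rw [ind_pos c]
        linarith [ind_le (∃ i ∈ a :: L, R k i), ind_nonneg (∃ i ∈ L, R k i)]
      · rw [ind_neg c, zero_add]
        refine le_of_eq (congrArg ind ?_)
        simp [c]
    refine (Finset.sum_le_sum fun k _ => a2 k).trans ?_
    rw [Finset.sum_add_distrib, List.countP_cons]
    push_cast
    linarith

theorem marg {κ α : Type} [Fintype κ] [DecidableEq κ] [Fintype α] {p : α → ℝ} (hp : IsD p)
    (c : κ) (g : (κ → α) → ℝ) (B : ℝ)
    (h : ∀ v, ∑ a, p a * g (Function.update v c a) ≤ B) :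
    ∑ v : κ → α, (∏ c, p (v c)) * g v ≤ B := by
  have hW := IsD.pi (κ := κ) (p := fun _ => p) fun _ => hp
  rw [pi_resample (p := fun _ => p) (fun _ => hp) c g]
  refine (Finset.sum_le_sum fun v _ => mul_le_mul_of_nonneg_left (h v) (hW.1 v)).trans ?_
  rw [← Finset.sum_mul, hW.2, one_mul]

section Inst

variable {J S Z Cell : Type} [DecidableEq J] [DecidableEq S]

/-- The indices of the column `j`. -/
def col (j : J) : (J × Z) ⊕ (J × J) ⊕ (J × S × Cell) → Bool
  | .inl a => decide (a.1 = j)
  | .inr (.inl a) => decide (a.1 = j)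
  | .inr (.inr _) => false

/-- All columns are killed. -/
def xW (ω : J → S × (Z → Bool) × J) : (J × Z) ⊕ (J × J) ⊕ (J × S × Cell) → Bool :=
  Sum.elim (fun a => (ω a.1).2.1 a.2)
    (Sum.elim (fun a => decide (a.2 = (ω a.1).2.2)) fun _ => false)

/-- The column `j` is free. -/
def x0 (j : J) (ω : J → S × (Z → Bool) × J) : (J × Z) ⊕ (J × J) ⊕ (J × S × Cell) → Bool :=
  Sum.elim (fun a => (ω a.1).2.1 a.2)
    (Sum.elim (fun a => decide (a.1 ≠ j ∧ a.2 = (ω a.1).2.2)) fun _ => false)

/-- The column `j` is free and its table is filled. -/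
def x1 (j : J) (ω : J → S × (Z → Bool) × J) (tab : Cell → Bool) :
    (J × Z) ⊕ (J × J) ⊕ (J × S × Cell) → Bool :=
  Sum.elim (fun a => (ω a.1).2.1 a.2)
    (Sum.elim (fun a => decide (a.1 ≠ j ∧ a.2 = (ω a.1).2.2))
      fun a => decide (a.1 = j ∧ a.2.1 = (ω j).1) && tab a.2.2)

omit [DecidableEq S] in
theorem col_uniq (i : (J × Z) ⊕ (J × J) ⊕ (J × S × Cell)) (j j' : J) (h : col j i = true)
    (h' : col j' i = true) : j = j' := by
  rcases i with a | a | a <;> simp [col] at h h'
  · exact h.symm.trans h'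
  · exact h.symm.trans h'

theorem cases3 (t : DT ((J × Z) ⊕ (J × J) ⊕ (J × S × Cell))) (h : ℕ) (j : J)
    (ω : J → S × (Z → Bool) × J) (tab : Cell → Bool)
    (a1 : cnt (col j) (xW ω) t ≤ h)
    (a2 : ¬ ∃ i ∈ tq (col j) (x0 j ω) t h, i = .inr (.inl (j, (ω j).2.2)))
    (a3 : ¬ ∃ i ∈ tq (col j) (x0 j ω) t h, ∃ c, i = .inr (.inr (j, (ω j).1, c))) :
    t.eval (xW ω) = t.eval (x1 j ω tab) := by
  obtain ⟨b1, b2⟩ := agree (col j) (x0 j ω) (xW ω) t h fun i hi => by
    rcases i with a | ⟨j', q⟩ | a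
    · rfl
    · by_cases e : j' = j
      · subst e
        have : q ≠ (ω j').2.2 := fun e => a2 ⟨_, hi, by rw [e]⟩
        simp [xW, x0, this]
      · simp [xW, x0, e]
    · rfl
  obtain ⟨-, b3⟩ := agree (col j) (x0 j ω) (x1 j ω tab) t h fun i hi => by
    rcases i with a | a | ⟨j', s, c⟩
    · rfl
    · rfl
    · have : ¬ (j' = j ∧ s = (ω j).1) := fun e => a3 ⟨_, hi, c, by rw [e.1, e.2]⟩
      simp [x1, x0, this]
  rw [b2 (b1 a1), b3 (b1 a1)]

omit [DecidableEq S] in
theorem x0_update (j : J) (ω : J → S × (Z → Bool) × J) (a : S × (Z → Bool) × J) :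
    (x0 j (Function.update ω j a) : (J × Z) ⊕ (J × J) ⊕ (J × S × Cell) → Bool) =
      x0 j (Function.update ω j ((ω j).1, a.2.1, (ω j).2.2)) := by
  funext i
  rcases i with ⟨j', b⟩ | ⟨j', q⟩ | a
  · by_cases e : j' = j
    · subst e; simp [x0]
    · simp [x0, e]
  · by_cases e : j' = j
    · subst e; simp [x0]
    · simp [x0, e]
  · rfl

omit [DecidableEq S] in
theorem dep_x0 (t : DT ((J × Z) ⊕ (J × J) ⊕ (J × S × Cell))) (h : ℕ) (j : J)
    (ω : J → S × (Z → Bool) × J) :
    Dep (fun z => tq (col j) (x0 j (Function.update ω j ((ω j).1, z, (ω j).2.2))) t h) h := by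
  have key : ∀ i : (J × Z) ⊕ (J × J) ⊕ (J × S × Cell), (∃ b, i = .inl (j, b)) ∨
      ∃ c, ∀ z, x0 j (Function.update ω j ((ω j).1, z, (ω j).2.2)) i = c := by
    intro i
    rcases i with ⟨j', b⟩ | ⟨j', q⟩ | a
    · by_cases e : j' = j
      · exact Or.inl ⟨b, by rw [e]⟩
      · exact Or.inr ⟨(ω j').2.1 b, fun z => by simp [x0, e]⟩
    · by_cases e : j' = j
      · exact Or.inr ⟨false, fun z => by simp [x0, e]⟩
      · exact Or.inr ⟨decide (q = (ω j').2.2), fun z => by simp [x0, e]⟩
    · exact Or.inr ⟨false, fun z => rfl⟩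
  refine dep_tq (col j) (fun z => x0 j (Function.update ω j ((ω j).1, z, (ω j).2.2)))
    (fun i => ?_) (fun i hi => ?_) t h
  · rcases key i with ⟨b, rfl⟩ | ⟨c, hc⟩
    · exact (Dep.var b).congr fun z => by simp [x0]
    · exact (Dep.const c 1).congr hc
  · rcases key i with ⟨b, rfl⟩ | hc
    · simp [col] at hi
    · exact hc

variable [Fintype J] [Fintype S] [Fintype Z] [DecidableEq Z]

/-- The distribution of one column. -/
noncomputable def wt (J : Type) [Fintype J] (D : S → (Z → Bool) → ℝ) (a : S × (Z → Bool) × J) : ℝ :=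
  D a.1 a.2.1 / (Fintype.card S * Fintype.card J)

omit [DecidableEq J] [DecidableEq S] in
theorem sum_wt (D : S → (Z → Bool) → ℝ) (g : S × (Z → Bool) × J → ℝ) :
    ∑ a, wt J D a * g a =
      (∑ s, ∑ z, D s z * ∑ q, g (s, z, q)) / (Fintype.card S * Fintype.card J) := by
  simp only [Fintype.sum_prod_type, wt, Finset.sum_div, Finset.mul_sum]
  refine Finset.sum_congr rfl fun s _ => Finset.sum_congr rfl fun z _ =>
    Finset.sum_congr rfl fun q _ => by ring

omit [DecidableEq J] [DecidableEq S] in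
theorem sum_wt_le [Nonempty J] [Nonempty S] (D : S → (Z → Bool) → ℝ)
    (g : S × (Z → Bool) × J → ℝ) (B : ℝ)
    (h : ∑ s, ∑ z, D s z * ∑ q, g (s, z, q) ≤ Fintype.card S * Fintype.card J * B) :
    ∑ a, wt J D a * g a ≤ B := by
  have c1 : (0 : ℝ) < Fintype.card S := by exact_mod_cast Fintype.card_pos
  have c2 : (0 : ℝ) < Fintype.card J := by exact_mod_cast Fintype.card_pos
  rw [sum_wt, div_le_iff₀ (by positivity)]
  linarith

omit [DecidableEq J] [DecidableEq S] in
theorem wt_isD [Nonempty J] [Nonempty S] {D : S → (Z → Bool) → ℝ} (hD : ∀ s, IsD (D s)) :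
    IsD (wt J D) := by
  have c1 : (0 : ℝ) < Fintype.card S := by exact_mod_cast Fintype.card_pos
  have c2 : (0 : ℝ) < Fintype.card J := by exact_mod_cast Fintype.card_pos
  refine ⟨fun a => div_nonneg ((hD _).1 _) (by positivity), ?_⟩
  have := sum_wt (J := J) D fun _ => 1
  simp only [mul_one, Finset.sum_const, Finset.card_univ, nsmul_eq_mul, ← Finset.sum_mul,
    (hD _).2] at this
  rw [this]
  field_simp

open Classical in
theorem tree_bound [Nonempty J] [Nonempty S] (D : S → (Z → Bool) → ℝ) (h Dq : ℕ) (ε : ℝ)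
    (hh : 0 < h) (hD : ∀ s, IsD (D s))
    (hind : ∀ F : (Z → Bool) → ℝ, Dep F h → (∀ z, |F z| ≤ 1) → ∀ s s',
      |∑ z, D s z * F z - ∑ z, D s' z * F z| ≤ ε)
    (tab : J → (J → S × (Z → Bool) × J) → Cell → Bool)
    (t : DT ((J × Z) ⊕ (J × J) ⊕ (J × S × Cell))) (ht : t.depth ≤ Dq) :
    ∑ j, ∑ ω : J → S × (Z → Bool) × J, (∏ c, wt J D (ω c)) *
      (if t.eval (xW ω) = t.eval (x1 j ω (tab j ω)) then 0 else 1) ≤
      Fintype.card J * ((Dq : ℝ) / (h * Fintype.card J) + h / Fintype.card J +
        Dq / Fintype.card S + ε) := by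
  have c1 : (0 : ℝ) < Fintype.card S := by exact_mod_cast Fintype.card_pos
  have c2 : (0 : ℝ) < Fintype.card J := by exact_mod_cast Fintype.card_pos
  have c3 : (0 : ℝ) < h := by exact_mod_cast hh
  have hw := wt_isD (J := J) hD
  have hW := IsD.pi (κ := J) (p := fun _ => wt J D) fun _ => hw
  let A : J → (J → S × (Z → Bool) × J) → ℝ := fun j ω => (cnt (col j) (xW ω) t : ℝ) / h
  let B : J → (J → S × (Z → Bool) × J) → ℝ := fun j ω =>
    ind (∃ i ∈ tq (col j) (x0 j ω) t h, i = .inr (.inl (j, (ω j).2.2)))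
  let C : J → (J → S × (Z → Bool) × J) → ℝ := fun j ω =>
    ind (∃ i ∈ tq (col j) (x0 j ω) t h, ∃ c, i = .inr (.inr (j, (ω j).1, c)))
  have key : ∀ j ω, (if t.eval (xW ω) = t.eval (x1 j ω (tab j ω)) then (0 : ℝ) else 1) ≤
      A j ω + B j ω + C j ω := by
    intro j ω
    have pA : 0 ≤ A j ω := by positivity
    have pB : 0 ≤ B j ω := ind_nonneg _
    have pC : 0 ≤ C j ω := ind_nonneg _
    split_ifs with e
    · linarith
    · by_cases a1 : cnt (col j) (xW ω) t ≤ h
      · by_cases a2 : ∃ i ∈ tq (col j) (x0 j ω) t h, i = .inr (.inl (j, (ω j).2.2))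
        · have : B j ω = 1 := ind_pos a2
          linarith
        · by_cases a3 : ∃ i ∈ tq (col j) (x0 j ω) t h, ∃ c, i = .inr (.inr (j, (ω j).1, c))
          · have : C j ω = 1 := ind_pos a3
            linarith
          · exact absurd (cases3 t h j ω _ a1 a2 a3) e
      · have : 1 ≤ A j ω := by
          rw [le_div_iff₀ c3, one_mul]
          exact_mod_cast (not_le.1 a1).le
        linarith
  have bA : ∑ j, ∑ ω : J → S × (Z → Bool) × J, (∏ c, wt J D (ω c)) * A j ω ≤ Dq / h := by
    rw [Finset.sum_comm]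
    have : ∀ ω, ∑ j, A j ω ≤ Dq / h := fun ω => by
      simp only [A]
      rw [← Finset.sum_div]
      gcongr
      exact_mod_cast (sum_cnt col col_uniq (xW ω) t).trans ht
    simp only [← Finset.mul_sum]
    refine (Finset.sum_le_sum fun ω _ => mul_le_mul_of_nonneg_left (this ω) (hW.1 ω)).trans ?_
    rw [← Finset.sum_mul, hW.2, one_mul]
  have bB : ∀ j, ∑ ω : J → S × (Z → Bool) × J, (∏ c, wt J D (ω c)) * B j ω ≤
      h / Fintype.card J := fun j => marg hw j (B j) _ fun ω => sum_wt_le D _ _ (by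
    have a1 : ∀ s z, ∑ q, B j (Function.update ω j (s, z, q)) ≤ h := fun s z => by
      simp only [B, x0_update j ω, Function.update_self]
      refine (sum_mem_le (fun (q : J) (i : (J × Z) ⊕ (J × J) ⊕ (J × S × Cell)) =>
        i = .inr (.inl (j, q))) (col j) ?_ ?_ _).trans ?_
      · intro k k' i e e'
        simpa using e.symm.trans e'
      · rintro k i rfl
        simp [col]
      · exact_mod_cast countP_tq _ _ _ _
    refine (Finset.sum_le_sum fun s _ => Finset.sum_le_sum fun z _ =>
      mul_le_mul_of_nonneg_left (a1 s z) ((hD s).1 z)).trans (le_of_eq ?_)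
    simp only [← Finset.sum_mul, (hD _).2, Finset.sum_const, Finset.card_univ, nsmul_eq_mul]
    field_simp)
  have bC : ∀ j, ∑ ω : J → S × (Z → Bool) × J, (∏ c, wt J D (ω c)) * C j ω ≤
      Dq / Fintype.card S + ε := fun j => marg hw j (C j) _ fun ω => sum_wt_le D _ _ (by
    obtain ⟨s0⟩ := ‹Nonempty S›
    let F : S → (Z → Bool) → ℝ := fun s z => ind (∃ i ∈ tq (col j)
      (x0 j (Function.update ω j ((ω j).1, z, (ω j).2.2))) t h, ∃ c, i = .inr (.inr (j, s, c)))
    have a0 : ∀ s z, ∑ q, C j (Function.update ω j (s, z, q)) = Fintype.card J * F s z := by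
      intro s z
      simp only [C, F, x0_update j ω, Function.update_self, Finset.sum_const, Finset.card_univ,
        nsmul_eq_mul]
    have a1 : ∀ s, ∑ z, D s z * F s z ≤ ∑ z, D s0 z * F s z + ε := fun s => by
      have := hind (F s) ((dep_x0 t h j ω).map fun L =>
        ind (∃ i ∈ L, ∃ c, i = .inr (.inr (j, s, c))))
        (fun z => by rw [abs_of_nonneg (ind_nonneg _)]; exact ind_le _) s s0
      linarith [le_abs_self (∑ z, D s z * F s z - ∑ z, D s0 z * F s z)]
    have a2 : ∀ z, ∑ s, F s z ≤ Dq := fun z => by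
      refine (sum_mem_le (fun (s : S) (i : (J × Z) ⊕ (J × J) ⊕ (J × S × Cell)) =>
        ∃ c, i = .inr (.inr (j, s, c))) (fun _ => true) ?_ (fun _ _ _ => rfl) _).trans ?_
      · rintro k k' i ⟨c, rfl⟩ ⟨c', e⟩
        simp only [Sum.inr.injEq, Prod.mk.injEq] at e
        exact e.2.1
      · exact_mod_cast (List.countP_le_length.trans (length_tq _ _ _ _)).trans ht
    have a3 : ∑ s, ∑ z, D s0 z * F s z ≤ Dq := by
      rw [Finset.sum_comm]
      simp only [← Finset.mul_sum]
      refine (Finset.sum_le_sum fun z _ =>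
        mul_le_mul_of_nonneg_left (a2 z) ((hD s0).1 z)).trans ?_
      rw [← Finset.sum_mul, (hD s0).2, one_mul]
    have a4 : ∑ s, ∑ z, D s z * F s z ≤ Dq + Fintype.card S * ε := by
      refine (Finset.sum_le_sum fun s _ => a1 s).trans ?_
      rw [Finset.sum_add_distrib, Finset.sum_const, Finset.card_univ, nsmul_eq_mul]
      linarith
    have a5 : ∑ s, ∑ z, D s z * (Fintype.card J * F s z) =
        Fintype.card J * ∑ s, ∑ z, D s z * F s z := by
      simp only [Finset.mul_sum]
      exact Finset.sum_congr rfl fun s _ => Finset.sum_congr rfl fun z _ => by ring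
    simp only [a0]
    rw [a5]
    refine (mul_le_mul_of_nonneg_left a4 c2.le).trans (le_of_eq ?_)
    field_simp)
  refine (Finset.sum_le_sum fun j _ => Finset.sum_le_sum fun ω _ =>
    mul_le_mul_of_nonneg_left (key j ω) (hW.1 ω)).trans ?_
  simp only [mul_add, Finset.sum_add_distrib]
  have bB' := Finset.sum_le_sum fun j (_ : j ∈ univ) => bB j
  have bC' := Finset.sum_le_sum fun j (_ : j ∈ univ) => bC j
  rw [Finset.sum_const, Finset.card_univ, nsmul_eq_mul] at bB' bC'
  have e : (Fintype.card J : ℝ) * (Dq / (h * Fintype.card J)) = Dq / h := by field_simp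
  rw [e]
  linarith

end Inst

end CLow

open CLow

open Classical in
theorem clow {J S Z Cell : Type} [Fintype J] [DecidableEq J] [Nonempty J] [Fintype S]
    [DecidableEq S] [Nonempty S] [Fintype Z] [DecidableEq Z]
    (f : ((J × Z) ⊕ (J × J) ⊕ (J × S × Cell) → Bool) → Bool)
    (D : S → (Z → Bool) → ℝ) (valid : S → (Z → Bool) → Prop) (h Dq : ℕ) (ε : ℝ) (hh : 0 < h)
    (hD : ∀ s, IsD (D s))
    (hind : ∀ F : (Z → Bool) → ℝ, Dep F h → (∀ z, |F z| ≤ 1) → ∀ s s',
      |∑ z, D s z * F z - ∑ z, D s' z * F z| ≤ ε)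
    (hval : ∀ s, ∑ z, (if valid s z then 0 else D s z) ≤ 1 / 20)
    (h0 : ∀ x, (∀ j, ∃ q, x (Sum.inr (Sum.inl (j, q))) = true) → f x = false)
    (h1 : ∀ (j : J) (s : S) (zs : J → Z → Bool) (p : J → J), valid s (zs j) →
      ∃ tab : Cell → Bool, f (Sum.elim (fun a => zs a.1 a.2) (Sum.elim
        (fun a => decide (a.1 ≠ j ∧ a.2 = p a.1))
        (fun a => decide (a.1 = j ∧ a.2.1 = s) && tab a.2.2))) = true)
    (hpar : (Dq : ℝ) / (h * Fintype.card J) + h / Fintype.card J + Dq / Fintype.card S + ε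
      ≤ 1 / 5) :
    ¬ RandAlg f Dq := by
  rintro ⟨m, w, t, w0, w1, ht, hc⟩
  have c2 : (0 : ℝ) < Fintype.card J := by exact_mod_cast Fintype.card_pos
  have hw := wt_isD (J := J) hD
  have hW := IsD.pi (κ := J) (p := fun _ => wt J D) fun _ => hw
  have ex : ∀ (j : J) (ω : J → S × (Z → Bool) × J), ∃ tab : Cell → Bool,
      valid (ω j).1 (ω j).2.1 → f (x1 j ω tab) = true := by
    intro j ω
    by_cases hv : valid (ω j).1 (ω j).2.1
    · obtain ⟨tab, e⟩ := h1 j (ω j).1 (fun c => (ω c).2.1) (fun c => (ω c).2.2) hv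
      exact ⟨tab, fun _ => e⟩
    · exact ⟨fun _ => false, fun h => absurd h hv⟩
  choose tab htab using ex
  let N : Fin m → J → (J → S × (Z → Bool) × J) → ℝ := fun a j ω =>
    if (t a).eval (xW ω) = (t a).eval (x1 j ω (tab j ω)) then 0 else 1
  let V : J → (J → S × (Z → Bool) × J) → ℝ := fun j ω =>
    if valid (ω j).1 (ω j).2.1 then 0 else 1
  have k1 : ∀ j ω, 1 / 3 - 1 / 3 * V j ω ≤ ∑ a, w a * N a j ω := by
    intro j ω
    by_cases hv : valid (ω j).1 (ω j).2.1
    · have a1 := hc (xW ω)
      have a2 := hc (x1 j ω (tab j ω))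
      rw [h0 _ fun j => ⟨(ω j).2.2, by simp [xW]⟩] at a1
      rw [htab j ω hv] at a2
      have a3 : ∀ a, (if (t a).eval (xW ω) = false then w a else 0) +
          (if (t a).eval (x1 j ω (tab j ω)) = true then w a else 0) ≤ w a + w a * N a j ω := by
        intro a
        have := w0 a
        simp only [N]
        cases (t a).eval (xW ω) <;> cases (t a).eval (x1 j ω (tab j ω)) <;> simp [this]
      have a4 := Finset.sum_le_sum fun a (_ : a ∈ univ) => a3 a
      rw [Finset.sum_add_distrib, Finset.sum_add_distrib, w1] at a4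
      have : V j ω = 0 := if_pos hv
      rw [this]
      linarith
    · have : V j ω = 1 := if_neg hv
      rw [this]
      refine le_trans (by norm_num) (Finset.sum_nonneg fun a _ => mul_nonneg (w0 a) ?_)
      simp only [N]
      split_ifs <;> norm_num
  have k2 : ∀ j, ∑ ω : J → S × (Z → Bool) × J, (∏ c, wt J D (ω c)) * V j ω ≤ 1 / 20 :=
    fun j => marg hw j (V j) _ fun ω => sum_wt_le D _ _ (by
      have a0 : ∀ s, ∑ z, D s z * ∑ q, V j (Function.update ω j (s, z, q)) ≤
          Fintype.card J * (1 / 20) := fun s => by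
        refine le_trans (le_of_eq ?_) (mul_le_mul_of_nonneg_left (hval s) c2.le)
        rw [Finset.mul_sum]
        refine Finset.sum_congr rfl fun z _ => ?_
        simp only [V, Function.update_self, Finset.sum_const, Finset.card_univ, nsmul_eq_mul]
        split_ifs <;> ring
      refine (Finset.sum_le_sum fun s _ => a0 s).trans (le_of_eq ?_)
      rw [Finset.sum_const, Finset.card_univ, nsmul_eq_mul]
      ring)
  have k3 : ∀ j, (19 / 60 : ℝ) ≤
      ∑ ω : J → S × (Z → Bool) × J, (∏ c, wt J D (ω c)) * ∑ a, w a * N a j ω := by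
    intro j
    refine le_trans ?_ (Finset.sum_le_sum fun ω _ => mul_le_mul_of_nonneg_left (k1 j ω) (hW.1 ω))
    have e : ∑ ω : J → S × (Z → Bool) × J, (∏ c, wt J D (ω c)) * (1 / 3 - 1 / 3 * V j ω) =
        (∑ ω : J → S × (Z → Bool) × J, ∏ c, wt J D (ω c)) * (1 / 3) -
          1 / 3 * ∑ ω : J → S × (Z → Bool) × J, (∏ c, wt J D (ω c)) * V j ω := by
      rw [Finset.sum_mul, Finset.mul_sum, ← Finset.sum_sub_distrib]
      exact Finset.sum_congr rfl fun ω _ => by ring
    rw [e, hW.2]
    linarith [k2 j]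
  have k4 : ∑ j, ∑ ω : J → S × (Z → Bool) × J, (∏ c, wt J D (ω c)) * ∑ a, w a * N a j ω =
      ∑ a, w a * ∑ j, ∑ ω : J → S × (Z → Bool) × J, (∏ c, wt J D (ω c)) * N a j ω := by
    simp only [Finset.mul_sum]
    rw [Finset.sum_comm (s := (univ : Finset (Fin m)))]
    refine Finset.sum_congr rfl fun j _ => ?_
    rw [Finset.sum_comm]
    exact Finset.sum_congr rfl fun a _ => Finset.sum_congr rfl fun ω _ => by ring
  have k5 : ∀ a, ∑ j, ∑ ω : J → S × (Z → Bool) × J, (∏ c, wt J D (ω c)) * N a j ω ≤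
      Fintype.card J * (1 / 5) := fun a =>
    (tree_bound D h Dq ε hh hD hind tab (t a) (ht a)).trans (mul_le_mul_of_nonneg_left hpar c2.le)
  have k6 := Finset.sum_le_sum fun j (_ : j ∈ univ) => k3 j
  have k7 := Finset.sum_le_sum fun a (_ : a ∈ univ) => mul_le_mul_of_nonneg_left (k5 a) (w0 a)
  rw [← Finset.sum_mul, w1, ← k4] at k7
  rw [Finset.sum_const, Finset.card_univ, nsmul_eq_mul] at k6
  linarith

end Vale.Agent.P362
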