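import Vale.Agent.P362.Level

/-! Classical indistinguishability of the two Forrelation distributions. -/

namespace Vale.Agent.P362

open Finset

namespace ChainAux

variable {k ν : ℕ}

/-- The sign vectors with the path entries before `j` replaced by `τ`. -/
noncomputable def Up (j : Fin (k + 1)) (w : Fin k → (Fin ν → Bool) → Bool)
    (p : Fin (k + 1) → Fin ν → Bool) (τ : Fin (k + 1) → ℝ) : Fin (k + 1) → (Fin ν → Bool) → ℝ :=
  fun b y => if b < j ∧ y = p b then τ b else Uw w b y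

/-- The initial part of a path. -/
def Sp (j : Fin (k + 1)) (p : Fin (k + 1) → Fin ν → Bool) : Finset (Fin (k + 1) × (Fin ν → Bool)) :=
  univ.filter fun i => i.1 ≤ j ∧ i.2 = p i.1

/-- One factor of the coefficient. -/
noncomputable def cf (u : (Fin ν → Bool) → ℝ) (y y0 : Fin ν → Bool) : ℝ :=
  Real.cos ((∑ y', Hd y y' * u y') / rho ν) * Hd y y0

/-- The coefficient of a path. -/
noncomputable def ac (j : Fin (k + 1)) (w : Fin k → (Fin ν → Bool) → Bool)
    (p : Fin (k + 1) → Fin ν → Bool) (τ : Fin (k + 1) → ℝ) : ℝ :=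
  ∏ b : Fin k, if b.castSucc < j then cf (Up j w p τ b.castSucc) (p b.succ) (p b.castSucc) else 1

/-- The sum at stage `j`. -/
noncomputable def Gs (F : (Fin (k + 1) × (Fin ν → Bool) → Bool) → ℝ) (l : ℝ) (j : Fin (k + 1))
    (τ : Fin (k + 1) → ℝ) : ℝ :=
  ∑ p, ∑ w, ac j w p τ * Uw w j (p j) * pd F (Sp j p) (zpt l (Up j w p τ))

theorem rho_pos : 0 < rho ν := Real.sqrt_pos.2 (by positivity)

theorem rho_sq : rho ν * rho ν = 2 ^ ν := Real.mul_self_sqrt (by positivity)

theorem abs_Hd (y y' : Fin ν → Bool) : |Hd y y'| = 1 := by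
  simp [Hd, Finset.abs_prod, abs_sg]

theorem abs_Uw (w : Fin k → (Fin ν → Bool) → Bool) (b : Fin (k + 1)) (y : Fin ν → Bool) :
    |Uw w b y| = 1 := by
  refine Fin.lastCases ?_ (fun b => ?_) b <;> simp [Uw, abs_sg]

theorem Up_succ (j : Fin k) (w : Fin k → (Fin ν → Bool) → Bool) (p : Fin (k + 1) → Fin ν → Bool)
    (τ : Fin (k + 1) → ℝ) (t : ℝ) (b : Fin (k + 1)) (y : Fin ν → Bool) :
    Up j.succ w p (Function.update τ j.castSucc t) b y
      = if b = j.castSucc ∧ y = p j.castSucc then t else Up j.castSucc w p τ b y := by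
  by_cases hb : b = j.castSucc
  · subst hb
    simp [Up]
  · have : b < j.succ ↔ b < j.castSucc := by
      simp only [Fin.lt_def, Fin.ext_iff, Fin.val_succ, Fin.val_castSucc] at hb ⊢; omega
    simp [Up, hb, this]

theorem sum_flip (j : Fin k) (y0 : Fin ν → Bool) (g : ℝ → (Fin k → (Fin ν → Bool) → Bool) → ℝ)
    (hg : ∀ t w w', (∀ b y, ¬(b = j.castSucc ∧ y = y0) → Uw w b y = Uw w' b y) →
      g t w = g t w') :
    ∑ w, sg (w j y0) * g (sg (w j y0)) w = (∑ w, g 1 w - ∑ w, g (-1) w) / 2 := by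
  let fl : (Fin k → (Fin ν → Bool) → Bool) → Fin k → (Fin ν → Bool) → Bool :=
    fun w b y => if b = j ∧ y = y0 then !w b y else w b y
  have hi : Function.Involutive fl := fun w => by
    funext b y
    simp only [fl]
    split_ifs <;> simp
  have h1 := hi.bijective.sum_comp fun w => sg (w j y0) * g (sg (w j y0)) w
  have h2 : ∀ t w, g t (fl w) = g t w := fun t w => hg _ _ _ fun b y => by
    refine Fin.lastCases (fun _ => by simp [Uw]) (fun b h => ?_) b
    simp only [Fin.castSucc_inj] at h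
    simp [Uw, fl, h]
  rw [eq_div_iff two_ne_zero, mul_two]
  nth_rewrite 1 [← h1]
  rw [← Finset.sum_add_distrib, ← Finset.sum_sub_distrib]
  refine Finset.sum_congr rfl fun w _ => ?_
  rw [h2]
  cases h : w j y0 <;> simp [fl, h] <;> ring

theorem sum_path {Y : Type} [Fintype Y] [DecidableEq Y] (c : Fin (k + 1))
    (h : (Fin (k + 1) → Y) → Y → ℝ) (hh : ∀ p y y', h (Function.update p c y') y = h p y) :
    ∑ p, ∑ y, h p y = Fintype.card Y * ∑ p, h p (p c) := by
  let sw : (Fin (k + 1) → Y) × Y → (Fin (k + 1) → Y) × Y :=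
    fun x => (Function.update x.1 c x.2, x.1 c)
  have hi : Function.Involutive sw := fun x => by simp [sw]
  rw [← Fintype.sum_prod_type', ← hi.bijective.sum_comp, Fintype.sum_prod_type, Finset.mul_sum]
  simp [sw, hh]

theorem deriv_step (F : (Fin (k + 1) × (Fin ν → Bool) → Bool) → ℝ) (l : ℝ) (j : Fin k)
    (S : Finset (Fin (k + 1) × (Fin ν → Bool))) (y0 : Fin ν → Bool) (h0 : (j.castSucc, y0) ∈ S)
    (h1 : ∀ y, (j.succ, y) ∉ S) (u : Fin (k + 1) → (Fin ν → Bool) → ℝ)
    (U : ℝ → Fin (k + 1) → (Fin ν → Bool) → ℝ)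
    (hU : ∀ t b y, U t b y = if b = j.castSucc ∧ y = y0 then t else u b y) (t : ℝ) :
    HasDerivAt (fun t => pd F S (zpt l (U t))) (∑ y, cf (U t j.castSucc) y y0 * U t j.succ y *
      pd F (insert (j.succ, y) S) (zpt l (U t)) / (2 * rho ν)) t := by
  let U' : Fin (k + 1) → (Fin ν → Bool) → ℝ := fun b y => if b = j.castSucc ∧ y = y0 then 1 else 0
  have dU : ∀ b y, HasDerivAt (fun t => U t b y) (U' b y) t := fun b y => by
    simp only [hU, U']
    split_ifs
    exacts [hasDerivAt_id t, hasDerivAt_const _ _]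
  let L' : Fin (k + 1) → (Fin ν → Bool) → ℝ := Fin.cases (fun _ => 0) fun b y =>
    Real.cos ((∑ y', Hd y y' * U t b.castSucc y') / rho ν) *
      ((∑ y', Hd y y' * U' b.castSucc y') / rho ν)
  have dL : ∀ b y, HasDerivAt (fun t => Lf l (U t) b y) (L' b y) t := fun b y => by
    refine Fin.cases (hasDerivAt_const _ _) (fun b => ?_) b
    exact ((HasDerivAt.fun_sum fun y' _ => (dU _ y').const_mul (Hd y y')).div_const _).sin
  refine (pd_hasDerivAt F S (fun t => zpt l (U t)) _ t fun i =>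
    ((dL i.1 i.2).fun_mul (dU i.1 i.2)).div_const 2).congr_deriv ?_
  have hi : Function.Injective fun y : Fin ν → Bool => (j.succ, y) := Prod.mk_right_injective _
  rw [← Finset.sum_subset (s₁ := univ.map ⟨_, hi⟩), Finset.sum_map]
  · refine Finset.sum_congr rfl fun y _ => ?_
    simp [L', U', cf, Fin.castSucc_lt_succ.ne']
    ring
  · intro i hi
    obtain ⟨y, -, rfl⟩ := mem_map.1 hi
    exact mem_compl.2 (h1 y)
  · rintro ⟨b, y⟩ h2 h3
    have a1 : U' b y = 0 := if_neg fun h => mem_compl.1 h2 (by rw [h.1, h.2]; exact h0)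
    have a2 : L' b y = 0 := by
      revert h3
      refine Fin.cases (fun _ => rfl) (fun b h3 => ?_) b
      have : b ≠ j := fun h => h3 (by simp [h])
      simp [L', U', this]
    simp [a1, a2]

theorem step (F : (Fin (k + 1) × (Fin ν → Bool) → Bool) → ℝ) (l : ℝ) (j : Fin k)
    (τ : Fin (k + 1) → ℝ) : ∃ t, |t| ≤ 1 ∧
      Gs F l j.castSucc τ = rho ν / 2 * Gs F l j.succ (Function.update τ j.castSucc t) := by
  set c := j.castSucc with hc
  have hlt : c < j.succ := Fin.castSucc_lt_succ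
  let U := fun t w p => Up (ν := ν) j.succ w p (Function.update τ c t)
  let g := fun p t w => ac c w p τ * pd F (Sp c p) (zpt l (U t w p))
  let h := fun t w p y => ac c w p τ * (cf (U t w p c) y (p c) * U t w p j.succ y *
      pd F (insert (j.succ, y) (Sp c p)) (zpt l (U t w p)) / (2 * rho ν))
  have hd : ∀ t, HasDerivAt (fun t => ∑ p, ∑ w, g p t w) (∑ p, ∑ w, ∑ y, h t w p y) t := fun t =>
    HasDerivAt.fun_sum fun p _ => HasDerivAt.fun_sum fun w _ => by
      rw [← Finset.mul_sum]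
      exact (deriv_step F l j (Sp c p) (p c) (by simp [Sp, hc]) (fun y => by simp [Sp, hlt]) _
        (fun t => U t w p) (fun t => Up_succ j w p τ t) t).const_mul _
  obtain ⟨t, ht, e⟩ := exists_hasDerivAt_eq_slope _ _ (show (-1 : ℝ) < 1 by norm_num)
    (fun t _ => (hd t).continuousAt.continuousWithinAt) fun t _ => hd t
  refine ⟨t, (abs_lt.2 ht).le, ?_⟩
  have e1 : Gs F l c τ = (∑ p, ∑ w, g p 1 w - ∑ p, ∑ w, g p (-1) w) / (1 - -1) := by
    rw [← Finset.sum_sub_distrib, Finset.sum_div, Gs]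
    refine Finset.sum_congr rfl fun p _ => ?_
    rw [show (1 - -1 : ℝ) = 2 by norm_num, ← sum_flip j (p c) (g p)]
    · refine Finset.sum_congr rfl fun w _ => ?_
      have a1 : Uw w c (p c) = sg (w j (p c)) := by simp [Uw, hc]
      have a2 : U (sg (w j (p c))) w p = Up c w p τ := by
        funext b y
        rw [show U _ w p b y = _ from Up_succ j w p τ _ b y]
        split_ifs with h
        · rw [h.1, h.2, Up, if_neg (by simp [hc]), a1]
        · rfl
      simp only [g, a1, a2]; ring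
    · intro t w w' hw
      have a1 : ∀ b ≠ c, Up c w p τ b = Up c w' p τ b := fun b hb => funext fun y => by
        rw [Up, Up, hw b y fun h => hb h.1]
      have a2 : U t w p = U t w' p := by
        funext b y
        rw [show U _ w p b y = _ from Up_succ j w p τ _ b y,
          show U _ w' p b y = _ from Up_succ j w' p τ _ b y]
        split_ifs with h
        · rfl
        · rw [Up, Up, hw b y h]
      simp only [g, a2, ac]
      congr 1
      refine Finset.prod_congr rfl fun b _ => ?_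
      split_ifs with h
      · rw [a1 _ h.ne]
      · rfl
  rw [e1, ← e, Gs, Finset.sum_comm, Finset.sum_comm (γ := Fin (k + 1) → Fin ν → Bool),
    Finset.mul_sum]
  refine Finset.sum_congr rfl fun w _ => ?_
  rw [sum_path j.succ (h t w), Finset.mul_sum, Finset.mul_sum]
  · refine Finset.sum_congr rfl fun p _ => ?_
    have a1 : Sp j.succ p = insert (j.succ, p j.succ) (Sp c p) := by
      ext ⟨b, y⟩
      simp only [Sp, mem_filter, mem_univ, true_and, mem_insert, Prod.mk.injEq]
      constructor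
      · rintro ⟨h1, rfl⟩
        exact h1.eq_or_lt.imp (fun h => ⟨h, by rw [h]⟩) fun h => ⟨Fin.le_castSucc_iff.2 h, rfl⟩
      · rintro (⟨rfl, rfl⟩ | ⟨h1, rfl⟩)
        exacts [⟨le_rfl, rfl⟩, ⟨h1.trans hlt.le, rfl⟩]
    have a2 : ac j.succ w p (Function.update τ c t)
        = ac c w p τ * cf (U t w p c) (p j.succ) (p c) := by
      rw [ac, ac, ← Finset.mul_prod_erase univ _ (mem_univ j),
        ← Finset.mul_prod_erase univ _ (mem_univ j), if_pos hlt, if_neg (lt_irrefl _), one_mul,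
        mul_comm]
      congr 1
      refine Finset.prod_congr rfl fun b hb => ?_
      have hb' : b.castSucc ≠ c := fun h => ne_of_mem_erase hb (Fin.castSucc_inj.1 h)
      have : b.castSucc < j.succ ↔ b.castSucc < c := by
        rw [← Fin.le_castSucc_iff]; exact ⟨fun h => lt_of_le_of_ne h hb', le_of_lt⟩
      simp only [this]
      congr 2
      funext y
      rw [Up_succ, if_neg fun h => hb' h.1]
    have a3 : U t w p j.succ (p j.succ) = Uw w j.succ (p j.succ) := if_neg (by simp)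
    have a4 : (Fintype.card (Fin ν → Bool) : ℝ) = rho ν * rho ν := by simp [rho_sq]
    have := rho_pos (ν := ν)
    simp only [h, a1, a2, a3, a4, U]
    field_simp
  · intro p y y'
    have a0 : ∀ b < j.succ, Function.update p j.succ y' b = p b := fun b hb =>
      Function.update_of_ne hb.ne _ _
    have a1 : ∀ d ≤ j.succ, ∀ τ, Up d w (Function.update p j.succ y') τ = Up d w p τ :=
      fun d hd τ => by
        funext b y
        by_cases hb : b < d
        · rw [Up, Up, a0 b (hb.trans_le hd)]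
        · simp [Up, hb]
    have a2 : Sp c (Function.update p j.succ y') = Sp c p :=
      Finset.filter_congr fun i _ => and_congr_right fun hi => by rw [a0 _ (hi.trans_lt hlt)]
    have a3 : ac c w (Function.update p j.succ y') τ = ac c w p τ := by
      rw [ac, ac, a1 c hlt.le]
      refine Finset.prod_congr rfl fun b _ => ?_
      split_ifs with h
      · rw [a0 _ (h.trans hlt), a0 _ ((Fin.castSucc_lt_iff_succ_le.1 h).trans_lt hlt)]
      · rfl
    simp only [h, U, a1 j.succ le_rfl, a2, a3, a0 c hlt]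

theorem abs_zpt {l : ℝ} (hl : |l| ≤ 1) (w : Fin k → (Fin ν → Bool) → Bool)
    (i : Fin (k + 1) × (Fin ν → Bool)) : |zpt l (Uw w) i| ≤ 1 / 2 := by
  have : |Lf l (Uw w) i.1 i.2| ≤ 1 := Fin.cases hl (fun b => Real.abs_sin_le_one _) i.1
  rw [zpt, abs_div, abs_mul, abs_Uw, abs_two]
  linarith

theorem zpt_close (l : ℝ) (w : Fin k → (Fin ν → Bool) → Bool) (p : Fin (k + 1) → Fin ν → Bool)
    {τ : Fin (k + 1) → ℝ} (hτ : ∀ b, |τ b| ≤ 1) (i : Fin (k + 1) × (Fin ν → Bool))
    (hi : i ∉ Sp (Fin.last k) p) :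
    |zpt l (Up (Fin.last k) w p τ) i - zpt l (Uw w) i| ≤ (rho ν)⁻¹ := by
  have h0 := rho_pos (ν := ν)
  have a1 : Up (Fin.last k) w p τ i.1 i.2 = Uw w i.1 i.2 :=
    if_neg fun h => hi (by simp [Sp, Fin.le_last, h.2])
  have a2 : |Lf l (Up (Fin.last k) w p τ) i.1 i.2 - Lf l (Uw w) i.1 i.2| ≤ 2 * (rho ν)⁻¹ := by
    refine Fin.cases (by simp [Lf, h0.le]) (fun b => ?_) i.1
    refine (Real.abs_sin_sub_sin_le _ _).trans ?_
    rw [← sub_div, ← Finset.sum_sub_distrib, Finset.sum_eq_single (p b.castSucc)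
      (fun y _ hy => by simp [Up, hy]) (by simp), ← mul_sub, abs_div, abs_mul, abs_Hd, one_mul,
      abs_of_pos h0, div_eq_mul_inv]
    refine mul_le_mul_of_nonneg_right ((abs_sub _ _).trans ?_) (by positivity)
    rw [abs_Uw, Up, if_pos ⟨Fin.castSucc_lt_last b, rfl⟩]
    linarith [hτ b.castSucc]
  rw [zpt, zpt, a1, ← sub_div, ← sub_mul, abs_div, abs_mul, abs_Uw, abs_two]
  linarith

theorem abs_ac (j : Fin (k + 1)) (w : Fin k → (Fin ν → Bool) → Bool)
    (p : Fin (k + 1) → Fin ν → Bool) (τ : Fin (k + 1) → ℝ) : |ac j w p τ| ≤ 1 := by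
  rw [ac, Finset.abs_prod]
  refine Finset.prod_le_one (fun _ _ => abs_nonneg _) fun b _ => ?_
  split_ifs
  · rw [cf, abs_mul, abs_Hd, mul_one]; exact Real.abs_cos_le_one _
  · simp

theorem Sp_last (p : Fin (k + 1) → Fin ν → Bool) :
    Sp (Fin.last k) p = univ.map ⟨fun b => (b, p b), fun _ _ h => (Prod.ext_iff.1 h).1⟩ := by
  ext ⟨b, y⟩
  simp only [Sp, Fin.le_last, mem_filter, mem_univ, true_and, mem_map]
  exact ⟨fun h => ⟨b, Prod.ext rfl h.symm⟩, fun ⟨a, h⟩ => by cases h; rfl⟩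

end ChainAux

open ChainAux in
theorem chain {k ν : ℕ} (F : (Fin (k + 1) × (Fin ν → Bool) → Bool) → ℝ) (s q : ℕ) (θ : ℝ)
    (hF : Dep F (s ^ 2)) (hF1 : ∀ σ, |F σ| ≤ 1) (hs : 1 ≤ s) (hq : 1 ≤ q) (hθ0 : 0 ≤ θ)
    (hθ : 6 * (((k + 1) * 2 ^ ν : ℕ) : ℝ) * (8 * q * s) ^ q ≤ θ ^ q) (hθδ : θ ≤ rho ν) :
    |∑ σ, piD k ν 1 σ * F σ - ∑ σ, piD k ν (-1) σ * F σ| ≤ θ ^ (k + 1) / rho ν ^ k := by
  have h0 := rho_pos (ν := ν)
  set C : ℝ := (Fintype.card (Fin k → (Fin ν → Bool) → Bool) : ℝ) with hC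
  have hC0 : 0 < C := Nat.cast_pos.2 Fintype.card_pos
  have e0 : ∀ l, ∑ σ, piD k ν l σ * F σ = (∑ w, pd F ∅ (zpt l (Uw w))) / C := fun l => by
    simp only [piD, pd, div_mul_eq_mul_div, ← Finset.sum_div, Finset.sum_mul, notMem_empty,
      if_false]
    rw [Finset.sum_comm]
    simp only [mul_comm (F _), hC]
  have hd : ∀ l, HasDerivAt (fun l => ∑ w, pd F ∅ (zpt l (Uw w)))
      (∑ w, ∑ y, Uw w 0 y * pd F {(0, y)} (zpt l (Uw w)) / 2) l := fun l =>
    HasDerivAt.fun_sum fun w _ => by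
      refine (pd_hasDerivAt F ∅ (fun l => zpt l (Uw w))
        (fun i => (if i.1 = 0 then 1 else 0) * Uw w i.1 i.2 / 2) l fun i => ?_).congr_deriv ?_
      · refine (HasDerivAt.mul_const ?_ _).div_const 2
        exact Fin.cases (by simpa [Lf] using hasDerivAt_id' l)
          (fun b => by simpa [Lf] using hasDerivAt_const l _) i.1
      · rw [compl_empty, Fintype.sum_prod_type, Fin.sum_univ_succ]
        simp [div_mul_eq_mul_div]
  obtain ⟨l, hl, e⟩ := exists_hasDerivAt_eq_slope _ _ (show (-1 : ℝ) < 1 by norm_num)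
    (fun t _ => (hd t).continuousAt.continuousWithinAt) fun t _ => hd t
  have key : ∀ j : Fin (k + 1), ∀ τ : Fin (k + 1) → ℝ, (∀ b, |τ b| ≤ 1) →
      |Gs F l j τ| ≤ rho ν ^ (k - j) * (C * θ ^ (k + 1)) := by
    intro j
    refine Fin.reverseInduction (fun τ hτ => ?_) (fun j ih τ hτ => ?_) j
    · rw [Gs, Finset.sum_comm, Fin.val_last, Nat.sub_self, pow_zero, one_mul, hC, ← nsmul_eq_mul,
        ← card_univ, ← Finset.sum_const]
      refine (Finset.abs_sum_le_sum_abs _ _).trans (Finset.sum_le_sum fun w _ => ?_)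
      refine level F s q (k + 1) θ (rho ν)⁻¹ hF hF1 hs hq (by omega) hθ0 (by simpa using hθ)
        (by positivity) (by rwa [mul_inv_le_iff₀ h0, one_mul]) _ (abs_zpt (abs_lt.2 hl).le w) _
        (fun p p' h => funext fun b => ?_) (fun p => by simp [Sp_last]) _ (fun p => ?_) _
        fun p => zpt_close l w p hτ
      · have : (b, p b) ∈ Sp (Fin.last k) p' := h ▸ by simp [Sp, Fin.le_last]
        simpa [Sp, Fin.le_last] using this
      · rw [abs_mul, abs_Uw, mul_one]; exact abs_ac _ _ _ _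
    · obtain ⟨t, ht, e⟩ := step F l j τ
      have := ih (Function.update τ j.castSucc t) fun b => by
        rcases eq_or_ne b j.castSucc with rfl | h
        · simpa using ht
        · simpa [h] using hτ b
      rw [e, abs_mul, abs_of_pos (by positivity), Fin.val_castSucc,
        show k - j = k - j.succ + 1 by have := j.2; simp; omega, pow_succ', mul_assoc]
      exact mul_le_mul (by linarith) this (abs_nonneg _) h0.le
  have e1 : Gs F l 0 0
      = rho ν ^ k * rho ν ^ k * ∑ w, ∑ y, Uw w 0 y * pd F {(0, y)} (zpt l (Uw w)) := by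
    have a1 : ∀ p : Fin (k + 1) → Fin ν → Bool, Sp 0 p = {(0, p 0)} := fun p => by
      ext ⟨b, y⟩
      simp only [Sp, mem_filter, mem_univ, true_and, mem_singleton, Prod.mk.injEq, Fin.le_zero_iff]
      exact and_congr_right fun h => by rw [h]
    have a2 : ∀ w (p : Fin (k + 1) → Fin ν → Bool), Up 0 w p 0 = Uw w := fun w p => by
      funext b y; simp [Up]
    rw [Gs, ← (Fin.consEquiv fun _ => Fin ν → Bool).sum_comp, Fintype.sum_prod_type,
      Finset.sum_comm (γ := Fin k → (Fin ν → Bool) → Bool), ← mul_pow, rho_sq, Finset.mul_sum]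
    simp [a1, a2, ac, Fin.consEquiv]
  have h1 := key 0 0 (by simp)
  simp only [← Finset.sum_div] at e
  rw [e1, Fin.val_zero, Nat.sub_zero, mul_assoc, abs_mul, abs_of_pos (pow_pos h0 k)] at h1
  have h2 := le_of_mul_le_mul_left h1 (pow_pos h0 k)
  rw [show (1 - -1 : ℝ) = 2 by norm_num, div_left_inj' two_ne_zero] at e
  rw [e0, e0, ← sub_div, ← e, abs_div, abs_of_pos hC0, div_le_div_iff₀ hC0 (pow_pos h0 k)]
  rw [abs_mul, abs_of_pos (pow_pos h0 k)] at h2
  linarith

end Vale.Agent.P362
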