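import Mathlib

/-! Query complexity: randomized and quantum query algorithms, and the exponent alpha_tot. -/

namespace Vale.Agent.P362

open Matrix

/-- Deterministic decision trees querying the bits of an input `x : ι → Bool`. -/
inductive DT (ι : Type) : Type
  | leaf (b : Bool) : DT ι
  | node (i : ι) (t0 t1 : DT ι) : DT ι

/-- The output of a decision tree on the input `x`. -/
def DT.eval {ι : Type} : DT ι → (ι → Bool) → Bool
  | .leaf b, _ => b
  | .node i t0 t1, x => if x i = true then t1.eval x else t0.eval x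

/-- The depth (worst-case number of queries) of a decision tree. -/
def DT.depth {ι : Type} : DT ι → ℕ
  | .leaf _ => 0
  | .node _ t0 t1 => max t0.depth t1.depth + 1

/-- A randomized algorithm with at most `d` queries computes `f` with probability at least 2/3 on
every input: a probability distribution `w` on decision trees `t a` of depth at most `d`. -/
def RandAlg {ι : Type} (f : (ι → Bool) → Bool) (d : ℕ) : Prop :=
  ∃ (m : ℕ) (w : Fin m → ℝ) (t : Fin m → DT ι),
    (∀ a, 0 ≤ w a) ∧ ∑ a, w a = 1 ∧ (∀ a, (t a).depth ≤ d) ∧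
      ∀ x, (2 / 3 : ℝ) ≤ ∑ a, if (t a).eval x = f x then w a else 0

/-- Bounded-error randomized query complexity. -/
noncomputable def R {n : ℕ} (f : (Fin n → Bool) → Bool) : ℕ := sInf {d | RandAlg f d}

/-- The query unitary `|i, b, z⟩ ↦ |i, b ⊕ x i, z⟩`. -/
def oracle {n m : ℕ} (x : Fin n → Bool) :
    Matrix (Fin n × Bool × Fin m) (Fin n × Bool × Fin m) ℂ :=
  Matrix.of fun p q => if p = (q.1, xor q.2.1 (x q.1), q.2.2) then 1 else 0

/-- The state `U t O U (t-1) O ⋯ U 1 O U 0 |p0⟩` after `t` queries. -/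
noncomputable def state {n m : ℕ}
    (U : ℕ → Matrix (Fin n × Bool × Fin m) (Fin n × Bool × Fin m) ℂ)
    (p0 : Fin n × Bool × Fin m) (x : Fin n → Bool) : ℕ → (Fin n × Bool × Fin m → ℂ)
  | 0 => U 0 *ᵥ Pi.single p0 1
  | t + 1 => U (t + 1) *ᵥ (oracle x *ᵥ state U p0 x t)

/-- A quantum algorithm with `T` queries computes `f` with probability at least 2/3 on every input:
workspace of any finite dimension `m`, input-independent unitaries `U t`, a measurement of the final
state in the computational basis, and the output `out p` on the outcome `p`. -/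
def QAlg {n : ℕ} (f : (Fin n → Bool) → Bool) (T : ℕ) : Prop :=
  ∃ (m : ℕ) (U : ℕ → Matrix (Fin n × Bool × Fin m) (Fin n × Bool × Fin m) ℂ)
    (p0 : Fin n × Bool × Fin m) (out : Fin n × Bool × Fin m → Bool),
    (∀ t, U t ∈ Matrix.unitaryGroup (Fin n × Bool × Fin m) ℂ) ∧
      ∀ x, (2 / 3 : ℝ) ≤ ∑ p, if out p = f x then ‖state U p0 x T p‖ ^ 2 else 0

/-- Bounded-error quantum query complexity. -/
noncomputable def Q {n : ℕ} (f : (Fin n → Bool) → Bool) : ℕ := sInf {T | QAlg f T}

/-- The exponents `α ≥ 0` with `R f ≤ C (1 + Q f) ^ α` for all total Boolean functions. -/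
def alphaSet : Set ℝ :=
  {α | 0 ≤ α ∧ ∃ C : ℝ, ∀ n : ℕ, 1 ≤ n → ∀ f : (Fin n → Bool) → Bool,
    (R f : ℝ) ≤ C * (1 + (Q f : ℝ)) ^ α}

/-- The optimal exponent. -/
noncomputable def alphaTot : ℝ := sInf alphaSet

end Vale.Agent.P362
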