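import Vale.Agent.P362.Basic

/-! Closure properties of `Dep`. -/

namespace Vale.Agent.P362

variable {ι ι' α β : Type}

theorem Dep.congr {g g' : (ι → Bool) → α} {d : ℕ} (h : Dep g d) (e : ∀ x, g' x = g x) :
    Dep g' d := by
  have : g' = g := funext e
  rw [this]; exact h

theorem Dep.mono {g : (ι → Bool) → α} {d d' : ℕ} (h : Dep g d) (hd : d ≤ d') : Dep g d' := by
  induction h generalizing d' with
  | const a d => exact Dep.const a d'
  | node i g0 g1 d _ _ ih0 ih1 =>
    obtain ⟨e, rfl⟩ : ∃ e, d' = e + 1 := ⟨d' - 1, by omega⟩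
    exact Dep.node i g0 g1 e (ih0 (by omega)) (ih1 (by omega))

theorem Dep.bind {g : (ι → Bool) → α} {h : α → (ι → Bool) → β} {d1 d2 : ℕ} (hg : Dep g d1)
    (hh : ∀ a, Dep (h a) d2) : Dep (fun x => h (g x) x) (d1 + d2) := by
  induction hg with
  | const a d => exact (hh a).mono (by omega)
  | node i g0 g1 d _ _ ih0 ih1 =>
    have := Dep.node i _ _ _ ih0 ih1
    rw [show d + 1 + d2 = d + d2 + 1 by omega]
    refine this.congr fun x => ?_
    by_cases hx : x i = true <;> simp [hx]

theorem Dep.map {g : (ι → Bool) → α} {d : ℕ} (hg : Dep g d) (φ : α → β) :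
    Dep (fun x => φ (g x)) d :=
  hg.bind (h := fun a _ => φ a) (d2 := 0) fun a => Dep.const (φ a) 0

theorem Dep.var (i : ι) : Dep (fun x : ι → Bool => x i) 1 := by
  refine (Dep.node i _ _ 0 (Dep.const false 0) (Dep.const true 0)).congr fun x => ?_
  by_cases hx : x i = true <;> simp [hx]

theorem Dep.pair {g : (ι → Bool) → α} {h : (ι → Bool) → β} {d1 d2 : ℕ} (hg : Dep g d1)
    (hh : Dep h d2) : Dep (fun x => (g x, h x)) (d1 + d2) :=
  hg.bind (h := fun a x => (a, h x)) fun a => hh.map fun b => (a, b)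

/-- Substituting constants or single bits for the variables. -/
theorem Dep.comp {g : (ι → Bool) → α} {d : ℕ} (hg : Dep g d) (σ : (ι' → Bool) → ι → Bool)
    (hσ : ∀ i, Dep (fun z => σ z i) 1) : Dep (fun z => g (σ z)) d := by
  induction hg with
  | const a d => exact Dep.const a d
  | node i g0 g1 d _ _ ih0 ih1 =>
    have := (hσ i).bind (h := fun c z => if c = true then g1 (σ z) else g0 (σ z)) (d2 := d)
      (fun c => by cases c <;> simpa)
    rw [Nat.add_comm d 1]
    exact this

theorem Dep.piFin {n d : ℕ} {g : Fin n → (ι → Bool) → α} (hg : ∀ c, Dep (g c) d) :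
    Dep (fun x c => g c x) (n * d) := by
  induction n with
  | zero => exact (Dep.const (fun c => c.elim0) _).congr fun x => funext fun c => c.elim0
  | succ n ih =>
    have := ((hg 0).pair (ih (g := fun c => g c.succ) fun c => hg c.succ)).map
      (fun p => (Fin.cons p.1 p.2 : Fin (n + 1) → α))
    rw [show (n + 1) * d = d + n * d by ring]
    refine this.congr fun x => funext fun c => ?_
    refine Fin.cases ?_ (fun c => ?_) c <;> simp

theorem Dep.pi {κ : Type} [Fintype κ] {d : ℕ} {g : κ → (ι → Bool) → α} (hg : ∀ c, Dep (g c) d) :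
    Dep (fun x c => g c x) (Fintype.card κ * d) := by
  have e := Fintype.equivFin κ
  have := (Dep.piFin (g := fun c => g (e.symm c)) fun c => hg _).map
    (fun v (c : κ) => v (e c))
  exact this.congr fun x => funext fun c => by simp

/-- Every function is computed by querying all bits. -/
theorem Dep.all [Fintype ι] (g : (ι → Bool) → α) : Dep g (Fintype.card ι) := by
  have := (Dep.pi (g := fun (c : ι) (x : ι → Bool) => x c) fun c => Dep.var c).map g
  simpa using this

theorem Dep.toDT {g : (ι → Bool) → Bool} {d : ℕ} (h : Dep g d) :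
    ∃ t : DT ι, t.depth ≤ d ∧ ∀ x, t.eval x = g x := by
  induction h with
  | const a d => exact ⟨.leaf a, Nat.zero_le _, fun _ => rfl⟩
  | node i g0 g1 d _ _ ih0 ih1 =>
    obtain ⟨t0, h0, e0⟩ := ih0
    obtain ⟨t1, h1, e1⟩ := ih1
    refine ⟨.node i t0 t1, ?_, fun x => ?_⟩
    · simp only [DT.depth]; omega
    · simp only [DT.eval, e0, e1]

theorem Dep.randAlg {g : (ι → Bool) → Bool} {d : ℕ} (h : Dep g d) : RandAlg g d := by
  obtain ⟨t, h1, h2⟩ := h.toDT
  refine ⟨1, fun _ => 1, fun _ => t, fun _ => zero_le_one, by simp, fun _ => h1, fun x => ?_⟩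
  simp only [h2, if_true, Finset.univ_unique, Finset.sum_singleton]; norm_num

theorem RandAlg.mono {g : (ι → Bool) → Bool} {d d' : ℕ} (h : RandAlg g d) (hd : d ≤ d') :
    RandAlg g d' := by
  obtain ⟨m, w, t, h1, h2, h3, h4⟩ := h
  exact ⟨m, w, t, h1, h2, fun a => (h3 a).trans hd, h4⟩

/-- Renaming the variables of a tree. -/
def DT.map (e : ι → ι') : DT ι → DT ι'
  | .leaf b => .leaf b
  | .node i t0 t1 => .node (e i) (t0.map e) (t1.map e)

theorem DT.map_depth (e : ι → ι') (t : DT ι) : (t.map e).depth = t.depth := by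
  induction t with
  | leaf b => rfl
  | node i t0 t1 h0 h1 => simp only [DT.map, DT.depth, h0, h1]

theorem DT.map_eval (e : ι → ι') (t : DT ι) (x : ι' → Bool) :
    (t.map e).eval x = t.eval fun i => x (e i) := by
  induction t with
  | leaf b => rfl
  | node i t0 t1 h0 h1 => simp only [DT.map, DT.eval, h0, h1]

theorem RandAlg.comp {g : (ι → Bool) → Bool} {d : ℕ} (h : RandAlg g d) (e : ι → ι') :
    RandAlg (fun x : ι' → Bool => g fun i => x (e i)) d := by
  obtain ⟨m, w, t, h1, h2, h3, h4⟩ := h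
  refine ⟨m, w, fun a => (t a).map e, h1, h2, fun a => ?_, fun x => ?_⟩
  · rw [DT.map_depth]; exact h3 a
  · simp only [DT.map_eval]; exact h4 _

end Vale.Agent.P362
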