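import Vale.Agent.P362.QFrame

/-! The quantum algorithm for Forrelation. -/

namespace Vale.Agent.P362

open Finset Matrix

theorem forrQ_rho_sq (ν : ℕ) : rho ν * rho ν = 2 ^ ν := Real.mul_self_sqrt (by positivity)

theorem forrQ_rho_pos (ν : ℕ) : 0 < rho ν := Real.sqrt_pos.2 (by positivity)

theorem forrQ_orth {ν : ℕ} (y y' : Fin ν → Bool) :
    ∑ w, Hd y w * Hd y' w = if y = y' then 2 ^ ν else 0 := by
  simp only [Hd, ← prod_mul_distrib]
  rw [← Fintype.prod_sum fun t c => sg (y t && c) * sg (y' t && c)]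
  have : ∀ t, ∑ c, sg (y t && c) * sg (y' t && c) = (if y t = y' t then 1 else 0) * 2 := fun t => by
    cases y t <;> cases y' t <;> norm_num
  simp only [this, prod_mul_distrib, prod_boole, mem_univ, true_implies, funext_iff]
  split_ifs <;> simp

/-- The normalised Hadamard matrix. -/
noncomputable def forrH (ν : ℕ) : Matrix (Fin ν → Bool) (Fin ν → Bool) ℝ :=
  Matrix.of fun y y' => Hd y y' / rho ν

theorem forrH_orth (ν : ℕ) : forrH ν * (forrH ν)ᵀ = 1 := by
  ext y y'
  simp only [forrH, Matrix.mul_apply, Matrix.transpose_apply, Matrix.of_apply, div_mul_div_comm,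
    ← sum_div, forrQ_orth, forrQ_rho_sq, Matrix.one_apply]
  split_ifs <;> simp

theorem forrQ_op (k ν b : ℕ) (hb : b ≤ k + 1) :
    ∃ V : (Fin (k + 1) × (Fin ν → Bool) → Bool) → Matrix (Fin ν → Bool) (Fin ν → Bool) ℝ,
      OpQ b V ∧ ∀ z y, V z y (fun _ => false) = vec (sgn z) b y / rho ν ^ (b + 1) := by
  induction b with
  | zero => exact ⟨_, OpQ.const (forrH_orth ν), fun z y => by simp [forrH, Hd, vec]⟩
  | succ b ih =>
    obtain ⟨V, h1, h2⟩ := ih (by omega)
    refine ⟨fun z => forrH ν * ph (fun y => some (⟨b, hb⟩, y)) z * V z,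
      ⟨_, _, V, forrH_orth ν, h1, fun _ => rfl⟩, fun z y => ?_⟩
    have h3 : b < k + 1 := hb
    dsimp only
    rw [Matrix.mul_apply]
    simp only [ph, Matrix.mul_diagonal, h2, vec, sum_div, forrH,
      Matrix.of_apply, Option.elim, sgn, dif_pos h3]
    refine sum_congr rfl fun w _ => ?_
    have := (forrQ_rho_pos ν).ne'
    field_simp
    ring

theorem forrQ (k ν : ℕ) :
    QSim (k + 1) (fun (z : Fin (k + 1) × (Fin ν → Bool) → Bool) (c : Bool) =>
      (1 + sg c * Phi z) / 2) := by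
  obtain ⟨V, h1, h2⟩ := forrQ_op k ν (k + 1) le_rfl
  exact (QSim.had h1 fun _ => false).congr fun z c => by rw [h2, Phi]

end Vale.Agent.P362
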