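import Vale.Agent.P362.Basic

/-! The mean of the Forrelation under the hard distributions. -/

namespace Vale.Agent.P362

open Finset

namespace MeanAux

theorem sum_prod_bool {I R : Type} [Fintype I] [DecidableEq I] [CommSemiring R]
    (f : I → Bool → R) : ∑ σ : I → Bool, ∏ i, f i (σ i) = ∏ i, (f i true + f i false) := by
  have := Finset.prod_univ_sum (fun _ : I => (univ : Finset Bool)) f
  rw [Fintype.piFinset_univ] at this
  rw [← this]
  exact prod_congr rfl fun i _ => Fintype.sum_bool _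

theorem abs_Uw {k ν : ℕ} (w : Fin k → (Fin ν → Bool) → Bool) (b : Fin (k + 1))
    (y : Fin ν → Bool) : |Uw w b y| = 1 := by
  unfold Uw
  refine Fin.lastCases ?_ (fun b => ?_) b
  · simp
  · simp [abs_sg]

theorem abs_zpt {k ν : ℕ} (l : ℝ) (hl : |l| ≤ 1) (w : Fin k → (Fin ν → Bool) → Bool)
    (i : Fin (k + 1) × (Fin ν → Bool)) : |zpt l (Uw w) i| ≤ 1 := by
  obtain ⟨b, y⟩ := i
  have h1 : |Lf l (Uw w) b y| ≤ 1 := by
    unfold Lf
    refine Fin.cases ?_ (fun b => ?_) b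
    · simpa using hl
    · simpa using Real.abs_sin_le_one _
  simp only [zpt, abs_div, abs_mul, abs_Uw, abs_two]
  linarith

theorem vec_path {ν : ℕ} (a : ℕ → (Fin ν → Bool) → ℝ) (k : ℕ) (y : Fin ν → Bool) :
    vec a (k + 1) y = ∑ p : Fin (k + 1) → Fin ν → Bool, Hd y (p (Fin.last k)) *
      (∏ b : Fin k, Hd (p b.succ) (p b.castSucc)) * ∏ b : Fin (k + 1), a b (p b) := by
  induction k generalizing y with
  | zero =>
    rw [← (Equiv.funUnique (Fin 1) (Fin ν → Bool)).symm.sum_comp]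
    simp [vec]
  | succ k ih =>
    rw [← (Fin.snocEquiv fun _ : Fin (k + 2) => Fin ν → Bool).sum_comp, Fintype.sum_prod_type,
      vec]
    refine sum_congr rfl fun y' _ => ?_
    rw [ih, mul_sum, mul_sum]
    refine sum_congr rfl fun p _ => ?_
    rw [Fin.prod_univ_castSucc (n := k + 1), Fin.prod_univ_castSucc (n := k)
      (f := fun b => Hd (Fin.snocEquiv (fun _ : Fin (k + 2) => Fin ν → Bool) (y', p) b.succ) _)]
    simp only [Fin.snocEquiv_apply, Fin.snoc_last, Fin.snoc_castSucc, Fin.succ_last,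
      Fin.succ_castSucc, Fin.val_castSucc, Fin.val_last]
    ring

theorem mean_path {A Y : Type} [Fintype A] [DecidableEq A] [Fintype Y] [DecidableEq Y]
    (z : A × Y → ℝ) (p : A → Y) :
    ∑ σ : A × Y → Bool, (∏ i, (1 + sg (σ i) * z i) / 2) * ∏ b, sg (σ (b, p b)) =
      ∏ b, z (b, p b) := by
  have h : ∀ f : A × Y → ℝ, ∏ b, f (b, p b) = ∏ i : A × Y, if i.2 = p i.1 then f i else 1 := by
    intro f
    rw [Fintype.prod_prod_type]
    simp
  rw [h z]
  have h' : ∀ σ : A × Y → Bool, ∏ b, sg (σ (b, p b)) =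
      ∏ i : A × Y, if i.2 = p i.1 then sg (σ i) else 1 := fun σ => h fun i => sg (σ i)
  simp only [h']
  simp only [← prod_mul_distrib]
  rw [sum_prod_bool fun (i : A × Y) c => (1 + sg c * z i) / 2 * if i.2 = p i.1 then sg c else 1]
  refine prod_congr rfl fun i _ => ?_
  split_ifs <;> simp <;> ring

theorem avg_sin {Y : Type} [Fintype Y] [DecidableEq Y] (h : Y → ℝ) (hh : ∀ y, h y = 1 ∨ h y = -1)
    (r : ℝ) (y0 : Y) :
    ∑ u : Y → Bool, Real.sin ((∑ y, h y * sg (u y)) / r) * sg (u y0) =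
      2 ^ Fintype.card Y * (h y0 * (Real.sin (1 / r) * Real.cos (1 / r) ^ (Fintype.card Y - 1))) := by
  have h1 : ∑ u : Y → Bool, Complex.exp (((∑ y, h y * sg (u y)) / r : ℝ) * Complex.I) *
      (sg (u y0) : ℝ) = ∏ y, if y = y0 then 2 * Complex.I * (h y * Real.sin (1 / r) : ℝ)
        else (2 * Real.cos (1 / r) : ℝ) := by
    have e : ∀ u : Y → Bool, Complex.exp (((∑ y, h y * sg (u y)) / r : ℝ) * Complex.I) *
        (sg (u y0) : ℝ) = ∏ y, Complex.exp ((h y * sg (u y) / r : ℝ) * Complex.I) *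
          if y = y0 then ((sg (u y) : ℝ) : ℂ) else 1 := by
      intro u
      rw [prod_mul_distrib, prod_ite_eq', if_pos (mem_univ _), ← Complex.exp_sum, sum_div,
        Complex.ofReal_sum, sum_mul]
    simp only [e]
    rw [sum_prod_bool fun y c => Complex.exp ((h y * sg c / r : ℝ) * Complex.I) *
      if y = y0 then ((sg c : ℝ) : ℂ) else 1]
    refine prod_congr rfl fun y _ => ?_
    simp only [Complex.exp_mul_I]
    rcases hh y with hy | hy <;> split_ifs <;> simp [hy, neg_div] <;> ring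
  rw [← mul_prod_erase _ _ (mem_univ y0), if_pos rfl,
    prod_congr rfl fun y hy => if_neg (mem_erase.1 hy).1, prod_const, card_erase_of_mem (mem_univ _),
    card_univ, ← Complex.ofReal_pow] at h1
  have h2 := congrArg Complex.im h1
  rw [Complex.im_sum] at h2
  simp only [Complex.mul_im, Complex.ofReal_im, Complex.ofReal_re, Complex.exp_ofReal_mul_I_im,
    mul_zero, zero_add, Complex.mul_re, Complex.I_re, Complex.I_im, Complex.re_ofNat,
    Complex.im_ofNat, mul_one, add_zero, sub_zero] at h2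
  rw [h2]
  have hc : 0 < Fintype.card Y := Fintype.card_pos_iff.2 ⟨y0⟩
  obtain ⟨m, hm⟩ : ∃ m, Fintype.card Y = m + 1 := ⟨_, (Nat.succ_pred_eq_of_pos hc).symm⟩
  rw [hm, Nat.add_sub_cancel, mul_pow]
  ring

theorem Hd_sq {ν : ℕ} (y y' : Fin ν → Bool) : Hd y y' * Hd y y' = 1 := by
  unfold Hd
  rw [← prod_mul_distrib]
  simp [sg_sq]

theorem Hd_cases {ν : ℕ} (y y' : Fin ν → Bool) : Hd y y' = 1 ∨ Hd y y' = -1 :=
  mul_self_eq_one_iff.1 (Hd_sq y y')

theorem Hd_zero {ν : ℕ} (y : Fin ν → Bool) : Hd (fun _ => false) y = 1 := by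
  simp [Hd]

theorem prod_zpt {k ν : ℕ} (l : ℝ) (w : Fin k → (Fin ν → Bool) → Bool)
    (p : Fin (k + 1) → Fin ν → Bool) :
    ∏ b, zpt l (Uw w) (b, p b) = l / 2 ^ (k + 1) * ∏ b : Fin k,
      Real.sin ((∑ y, Hd (p b.succ) y * sg (w b y)) / rho ν) * sg (w b (p b.castSucc)) := by
  simp only [zpt, prod_div_distrib, prod_mul_distrib, prod_const, card_univ, Fintype.card_fin]
  rw [Fin.prod_univ_succ, Fin.prod_univ_castSucc (f := fun b => Uw w b (p b))]
  simp only [Lf, Uw, Fin.cases_zero, Fin.cases_succ, Fin.snoc_castSucc, Fin.snoc_last]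
  ring

/-- the average correlation -/
noncomputable def kap (ν : ℕ) : ℝ := Real.sin (1 / rho ν) * Real.cos (1 / rho ν) ^ (2 ^ ν - 1)

theorem sum_w {k ν : ℕ} (l : ℝ) (p : Fin (k + 1) → Fin ν → Bool) :
    ∑ w : Fin k → (Fin ν → Bool) → Bool, ∏ b, zpt l (Uw w) (b, p b) =
      l / 2 ^ (k + 1) * ((2 ^ 2 ^ ν) ^ k * (∏ b : Fin k, Hd (p b.succ) (p b.castSucc)) *
        kap ν ^ k) := by
  simp only [prod_zpt, ← mul_sum]
  congr 1
  have := Finset.prod_univ_sum (fun _ : Fin k => (univ : Finset ((Fin ν → Bool) → Bool)))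
    fun b u => Real.sin ((∑ y, Hd (p b.succ) y * sg (u y)) / rho ν) * sg (u (p b.castSucc))
  rw [Fintype.piFinset_univ] at this
  rw [← this]
  simp only [avg_sin _ (Hd_cases _), prod_mul_distrib, prod_const, card_univ, Fintype.card_fin,
    Fintype.card_fun, Fintype.card_bool, kap, mul_pow]
  ring

theorem rho_sq (ν : ℕ) : rho ν ^ 2 = 2 ^ ν := Real.sq_sqrt (by positivity)

theorem one_le_rho (ν : ℕ) : 1 ≤ rho ν := Real.one_le_sqrt.2 (one_le_pow₀ one_le_two)

theorem mean_eq (k ν : ℕ) (l : ℝ) :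
    ∑ σ, piD k ν l σ * Phi σ = l * (rho ν * kap ν) ^ k / 2 ^ (k + 1) := by
  have hρ : 0 < rho ν := lt_of_lt_of_le one_pos (one_le_rho ν)
  have e : ∀ σ : Fin (k + 1) × (Fin ν → Bool) → Bool, piD k ν l σ * Phi σ =
      ∑ p : Fin (k + 1) → Fin ν → Bool, ∑ w : Fin k → (Fin ν → Bool) → Bool,
        (∏ b : Fin k, Hd (p b.succ) (p b.castSucc)) / ((2 ^ 2 ^ ν) ^ k * rho ν ^ (k + 2)) *
        ((∏ i, (1 + sg (σ i) * zpt l (Uw w) i) / 2) * ∏ b, sg (σ (b, p b))) := by
    intro σ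
    rw [piD, Phi, vec_path, sum_div (a := rho ν ^ (k + 2)), mul_sum]
    refine sum_congr rfl fun p _ => ?_
    rw [sum_div, sum_mul]
    refine sum_congr rfl fun w _ => ?_
    have : ∏ b : Fin (k + 1), sgn σ b (p b) = ∏ b, sg (σ (b, p b)) :=
      prod_congr rfl fun b _ => by simp [sgn, b.2]
    rw [this, Hd_zero]
    simp only [Fintype.card_fun, Fintype.card_bool, Fintype.card_fin]
    push_cast
    field_simp
  simp only [e]
  rw [sum_comm]
  have e2 : ∀ p : Fin (k + 1) → Fin ν → Bool, ∑ σ : Fin (k + 1) × (Fin ν → Bool) → Bool,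
      ∑ w : Fin k → (Fin ν → Bool) → Bool,
        (∏ b : Fin k, Hd (p b.succ) (p b.castSucc)) / ((2 ^ 2 ^ ν) ^ k * rho ν ^ (k + 2)) *
        ((∏ i, (1 + sg (σ i) * zpt l (Uw w) i) / 2) * ∏ b, sg (σ (b, p b))) =
      l / 2 ^ (k + 1) * kap ν ^ k / rho ν ^ (k + 2) := by
    intro p
    rw [sum_comm]
    simp only [← mul_sum, mean_path]
    rw [sum_w]
    have h : (∏ b : Fin k, Hd (p b.succ) (p b.castSucc)) *
        ∏ b : Fin k, Hd (p b.succ) (p b.castSucc) = 1 := by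
      rw [← prod_mul_distrib]
      simp [Hd_sq]
    generalize ∏ b : Fin k, Hd (p b.succ) (p b.castSucc) = H at h
    calc _ = H * H * (l / 2 ^ (k + 1) * kap ν ^ k / rho ν ^ (k + 2)) := by field_simp
      _ = _ := by rw [h, one_mul]
  simp only [e2, sum_const, card_univ, Fintype.card_fun, Fintype.card_bool, Fintype.card_fin,
    nsmul_eq_mul]
  push_cast
  rw [← rho_sq]
  field_simp
  ring

theorem rho_kap (ν : ℕ) : 1 / 4 ≤ rho ν * kap ν := by
  have h1 := one_le_rho ν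
  have hρ : 0 < rho ν := lt_of_lt_of_le one_pos h1
  have hx : 0 < 1 / rho ν := by positivity
  have hx1 : 1 / rho ν ≤ 1 := (div_le_one hρ).2 h1
  have hx2 : (1 / rho ν) ^ 2 ≤ 1 := pow_le_one₀ hx.le hx1
  have hs : 3 / 4 ≤ rho ν * Real.sin (1 / rho ν) := by
    have h2 := (Real.sin_gt_sub_cube hx).le
    have h3 : rho ν * (1 / rho ν - (1 / rho ν) ^ 3 / 6) = 1 - (1 / rho ν) ^ 2 / 6 := by
      field_simp
    have := mul_le_mul_of_nonneg_left h2 hρ.le
    linarith
  have hc : 1 / 2 ≤ Real.cos (1 / rho ν) ^ (2 ^ ν - 1) := by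
    have h2 := Real.one_sub_sq_div_two_le_cos (x := 1 / rho ν)
    have h3 := one_add_mul_le_pow (a := -((1 / rho ν) ^ 2 / 2)) (by linarith) (2 ^ ν - 1)
    have h4 : (1 + -((1 / rho ν) ^ 2 / 2)) ^ (2 ^ ν - 1) ≤ Real.cos (1 / rho ν) ^ (2 ^ ν - 1) :=
      pow_le_pow_left₀ (by linarith) (by linarith) _
    have h5 : ((2 ^ ν - 1 : ℕ) : ℝ) * (1 / rho ν) ^ 2 ≤ 1 := by
      rw [div_pow, rho_sq, one_pow, mul_one_div, div_le_one (by positivity)]
      exact_mod_cast Nat.sub_le _ _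
    linarith
  rw [kap, ← mul_assoc]
  nlinarith

end MeanAux

open MeanAux

theorem piD_isD (k ν : ℕ) (l : ℝ) (hl : |l| ≤ 1) : IsD (piD k ν l) := by
  refine ⟨fun σ => div_nonneg (sum_nonneg fun w _ => prod_nonneg fun i _ => ?_) (by positivity), ?_⟩
  · have h : |sg (σ i) * zpt l (Uw w) i| ≤ 1 := by
      rw [abs_mul, abs_sg, one_mul]; exact abs_zpt l hl w i
    have := (abs_le.1 h).1
    linarith
  · simp only [piD]
    rw [← sum_div, sum_comm]
    have : ∀ w : Fin k → (Fin ν → Bool) → Bool,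
        ∑ σ : Fin (k + 1) × (Fin ν → Bool) → Bool, ∏ i, (1 + sg (σ i) * zpt l (Uw w) i) / 2 = 1 := by
      intro w
      rw [sum_prod_bool fun i c => (1 + sg c * zpt l (Uw w) i) / 2]
      refine prod_eq_one fun i _ => ?_
      simp
      ring
    simp only [this, sum_const, card_univ, nsmul_eq_mul, mul_one]
    exact div_self (by positivity)

theorem mean (k ν : ℕ) (b : Bool) :
    (1 / 8 : ℝ) ^ (k + 1) ≤ ∑ σ, piD k ν (sg b) σ * (sg b * Phi σ) := by
  simp only [mul_left_comm _ (sg b), ← mul_sum]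
  rw [mean_eq, ← mul_div_assoc, ← mul_assoc, sg_sq, one_mul, le_div_iff₀ (by positivity),
    ← mul_pow]
  calc (1 / 8 * 2 : ℝ) ^ (k + 1) = (1 / 4) ^ k * (1 / 4) := by norm_num [pow_succ]
    _ ≤ (1 / 4) ^ k := mul_le_of_le_one_right (by positivity) (by norm_num)
    _ ≤ _ := pow_le_pow_left₀ (by norm_num) (rho_kap ν) k

end Vale.Agent.P362
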