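import Vale.Agent.P362.Dep

/-! Locally checkable transcripts of the fast Hadamard transform. -/

namespace Vale.Agent.P362

open Finset

namespace TransAux

variable {k ν : ℕ}

theorem exists_dec (K : ℕ) : ∃ dec : (Fin (K + 2) → Bool) → ℝ,
    ∀ m : ℤ, |m| ≤ 2 ^ K → ∃ c, dec c = m := by
  have e := Fintype.equivFin (Fin (K + 2) → Bool)
  refine ⟨fun c => ((e c : ℕ) : ℝ) - 2 ^ K, fun m hm => ?_⟩
  obtain ⟨h1, h2⟩ := abs_le.1 hm
  obtain ⟨n, hn⟩ := Int.eq_ofNat_of_zero_le (show 0 ≤ m + 2 ^ K by linarith)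
  have h3 : n < Fintype.card (Fin (K + 2) → Bool) := by
    have h4 : (0 : ℤ) < 2 ^ K := by positivity
    simp only [Fintype.card_fun, Fintype.card_bool, Fintype.card_fin]
    zify
    rw [← hn, pow_add]
    linarith
  refine ⟨e.symm ⟨n, h3⟩, ?_⟩
  have h5 : ((m + 2 ^ K : ℤ) : ℝ) = ((n : ℤ) : ℝ) := by rw [hn]
  push_cast at h5
  simp only [Equiv.apply_symm_apply]
  linarith

/-- The right-hand side of a gate. -/
def rhs (s : Fin (k + 1) × (Fin ν → Bool) → Bool)
    (T : Fin (k + 1) × Fin (ν + 1) × (Fin ν → Bool) → ℝ)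
    (g : Fin (k + 1) × Fin (ν + 1) × (Fin ν → Bool)) : ℝ :=
  Fin.cases (motive := fun _ => ℝ)
    (sg (s (g.1, g.2.2)) *
      Fin.cases (motive := fun _ => ℝ) 1 (fun b => T (b.castSucc, Fin.last ν, g.2.2)) g.1)
    (fun t => T (g.1, t.castSucc, Function.update g.2.2 t false) +
      sg (g.2.2 t) * T (g.1, t.castSucc, Function.update g.2.2 t true)) g.2.1

theorem gate_ind {P : Fin (k + 1) × Fin (ν + 1) × (Fin ν → Bool) → Prop}
    (h0 : ∀ v, P (0, 0, v))
    (h1 : ∀ (b : Fin k) v, P (b.castSucc, Fin.last ν, v) → P (b.succ, 0, v))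
    (h2 : ∀ b (t : Fin ν) v, (∀ v', P (b, t.castSucc, v')) → P (b, t.succ, v)) (g) : P g := by
  have key : ∀ b, (∀ v, P (b, 0, v)) → ∀ t v, P (b, t, v) := fun b hb t => by
    induction t using Fin.induction with
    | zero => exact hb
    | succ t ih => exact fun v => h2 b t v ih
  obtain ⟨b, t, v⟩ := g
  induction b using Fin.induction generalizing t v with
  | zero => exact key 0 h0 t v
  | succ b ih => exact key _ (fun v => h1 b v (ih _ v)) t v

theorem rhs_unique {s : Fin (k + 1) × (Fin ν → Bool) → Bool}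
    {T T' : Fin (k + 1) × Fin (ν + 1) × (Fin ν → Bool) → ℝ} (h : ∀ g, T g = rhs s T g)
    (h' : ∀ g, T' g = rhs s T' g) (g) : T g = T' g := by
  refine gate_ind (P := fun g => T g = T' g) (fun v => ?_) (fun b v ih => ?_)
    (fun b t v ih => ?_) g
  · rw [h, h']; simp [rhs]
  · rw [h, h']; simp [rhs, ih]
  · rw [h, h']; simp [rhs, ih]

theorem rhs_int {s : Fin (k + 1) × (Fin ν → Bool) → Bool}
    {T : Fin (k + 1) × Fin (ν + 1) × (Fin ν → Bool) → ℝ} (h : ∀ g, T g = rhs s T g) (g) :
    ∃ m : ℤ, |m| ≤ 2 ^ (g.1.val * ν + g.2.1.val) ∧ T g = m := by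
  have hs : ∀ (c : Bool) (m : ℤ), ∃ m' : ℤ, |m'| = |m| ∧ sg c * m = m' := fun c m => by
    cases c
    · exact ⟨m, rfl, by simp⟩
    · exact ⟨-m, abs_neg m, by simp⟩
  refine gate_ind (P := fun g => ∃ m : ℤ, |m| ≤ 2 ^ (g.1.val * ν + g.2.1.val) ∧ T g = m)
    (fun v => ?_) (fun b v ih => ?_) (fun b t v ih => ?_) g
  · obtain ⟨m, h1, h2⟩ := hs (s (0, v)) 1
    exact ⟨m, by simp [h1], by rw [h, ← h2]; simp [rhs]⟩
  · obtain ⟨m, h1, h2⟩ := ih
    obtain ⟨m', h3, h4⟩ := hs (s (b.succ, v)) m
    refine ⟨m', ?_, by rw [h, ← h4, ← h2]; simp [rhs]⟩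
    simpa [h3, add_mul] using h1
  · obtain ⟨m0, h1, h2⟩ := ih (Function.update v t false)
    obtain ⟨m1, h3, h4⟩ := ih (Function.update v t true)
    obtain ⟨m', h5, h6⟩ := hs (v t) m1
    refine ⟨m0 + m', ?_, by rw [h, Int.cast_add, ← h6, ← h2, ← h4]; simp [rhs]⟩
    simp only [Fin.val_castSucc, Fin.val_succ] at h1 h3 ⊢
    rw [← add_assoc, pow_succ]
    linarith [abs_add_le m0 m']

/-- The truncated Hadamard kernel. -/
def ker (t : ℕ) (v y : Fin ν → Bool) : ℝ :=
  ∏ i : Fin ν, if i.val < t then sg (v i && y i) else if v i = y i then 1 else 0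

theorem ker_zero (v y : Fin ν → Bool) : ker 0 v y = if v = y then 1 else 0 := by
  simp only [ker, Nat.not_lt_zero, if_false, prod_boole, mem_univ, true_implies, funext_iff]

theorem ker_last (v y : Fin ν → Bool) : ker ν v y = Hd v y :=
  prod_congr rfl fun i _ => if_pos i.2

theorem ker_succ (t : Fin ν) (v y : Fin ν → Bool) : ker (t + 1) v y =
    ker t (Function.update v t false) y + sg (v t) * ker t (Function.update v t true) y := by
  have key : ∀ c, ker t (Function.update v t c) y = (if c = y t then 1 else 0) *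
      ∏ i ∈ univ.erase t, if i.val < t + 1 then sg (v i && y i) else
        if v i = y i then 1 else 0 := fun c => by
    rw [ker, ← mul_prod_erase _ _ (mem_univ t), if_neg (lt_irrefl _), Function.update_self]
    congr 1
    refine prod_congr rfl fun i hi => ?_
    have h1 := ne_of_mem_erase hi
    have h2 : i.val < t + 1 ↔ i.val < t := by
      have := Fin.val_ne_of_ne h1
      omega
    simp only [Function.update_of_ne h1, h2]
  rw [key, key, ker, ← mul_prod_erase _ _ (mem_univ t), if_pos (Nat.lt_succ_self _)]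
  cases v t <;> cases y t <;> simp

/-- The honest transcript. -/
def hon (s : Fin (k + 1) × (Fin ν → Bool) → Bool)
    (g : Fin (k + 1) × Fin (ν + 1) × (Fin ν → Bool)) : ℝ :=
  ∑ y, ker g.2.1 g.2.2 y * (sgn s g.1 y * vec (sgn s) g.1 y)

theorem hon_last (s : Fin (k + 1) × (Fin ν → Bool) → Bool) (b : Fin (k + 1)) (v : Fin ν → Bool) :
    hon s (b, Fin.last ν, v) = vec (sgn s) (b + 1) v := by
  simp only [hon, Fin.val_last, ker_last, vec]

theorem hon_rhs (s : Fin (k + 1) × (Fin ν → Bool) → Bool) (g) : hon s g = rhs s (hon s) g := by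
  obtain ⟨b, t, v⟩ := g
  induction t using Fin.cases with
  | zero =>
    have : hon s (b, 0, v) = sg (s (b, v)) * vec (sgn s) b v := by
      simp [hon, ker_zero, sgn, b.2]
    rw [this]
    induction b using Fin.cases with
    | zero => simp [rhs, vec]
    | succ b => simp [rhs, hon_last]
  | succ t =>
    simp only [rhs, Fin.cases_succ, hon, Fin.val_succ, Fin.val_castSucc, ker_succ, add_mul,
      sum_add_distrib, mul_sum, mul_assoc]

end TransAux

open TransAux in
theorem trans (k ν : ℕ) :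
    ∃ (chk : ((Fin (k + 1) × (Fin ν → Bool)) ⊕
          ((Fin (k + 1) × Fin (ν + 1) × (Fin ν → Bool)) × Fin ((k + 1) * ν + 2)) → Bool) →
        (Fin (k + 1) × Fin (ν + 1) × (Fin ν → Bool)) → Bool)
      (val : ((Fin (k + 1) × (Fin ν → Bool)) ⊕
          ((Fin (k + 1) × Fin (ν + 1) × (Fin ν → Bool)) × Fin ((k + 1) * ν + 2)) → Bool) → ℝ),
      (∀ g, Dep (fun y => chk y g) (3 * ((k + 1) * ν + 2))) ∧ Dep val (3 * ((k + 1) * ν + 2)) ∧
      (∀ y, (∀ g, chk y g = true) → val y = Phi (fun i => y (Sum.inl i))) ∧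
      ∀ z, ∃ t, ∀ g, chk (Sum.elim z t) g = true := by
  classical
  obtain ⟨dec, hdec⟩ := exists_dec ((k + 1) * ν)
  let cv : ((Fin (k + 1) × (Fin ν → Bool)) ⊕
      ((Fin (k + 1) × Fin (ν + 1) × (Fin ν → Bool)) × Fin ((k + 1) * ν + 2)) → Bool) →
      (Fin (k + 1) × Fin (ν + 1) × (Fin ν → Bool)) → ℝ :=
    fun y g => dec fun j => y (Sum.inr (g, j))
  have hcv : ∀ g, Dep (fun y => cv y g) ((k + 1) * ν + 2) := fun g => by
    simpa using (Dep.piFin (g := fun j y => y (Sum.inr (g, j))) fun j => Dep.var _).map dec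
  refine ⟨fun y g => decide (cv y g = rhs (fun i => y (Sum.inl i)) (cv y) g),
    fun y => cv y (Fin.last k, Fin.last ν, fun _ => false) / rho ν ^ (k + 2), fun g => ?_,
    ((hcv _).map (· / rho ν ^ (k + 2))).mono (by omega), fun y hy => ?_, fun z => ?_⟩
  · have h : Dep (fun y => rhs (fun i => y (Sum.inl i)) (cv y) g) (2 * ((k + 1) * ν + 2)) := by
      obtain ⟨b, t, v⟩ := g
      induction t using Fin.cases with
      | zero =>
        induction b using Fin.cases with
        | zero => exact ((Dep.var (Sum.inl (0, v))).map fun c => sg c * 1).mono (by omega)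
        | succ b =>
          exact (((Dep.var (Sum.inl (b.succ, v))).pair (hcv (b.castSucc, Fin.last ν, v))).map
            fun p => sg p.1 * p.2).mono (by omega)
      | succ t =>
        exact (((hcv (b, t.castSucc, Function.update v t false)).pair
          (hcv (b, t.castSucc, Function.update v t true))).map
            fun p => p.1 + sg (v t) * p.2).mono (by omega)
    exact (((hcv g).pair h).map fun p => decide (p.1 = p.2)).mono (by omega)
  · have := rhs_unique (fun g => of_decide_eq_true (hy g)) (hon_rhs _)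
      (Fin.last k, Fin.last ν, fun _ => false)
    simp only [this, hon_last, Fin.val_last, Phi]
  · have h : ∀ g, ∃ c, dec c = hon z g := fun g => by
      obtain ⟨m, h1, h2⟩ := rhs_int (hon_rhs z) g
      rw [h2]
      refine hdec m (h1.trans (pow_le_pow_right₀ one_le_two ?_))
      have h3 : g.1.val * ν ≤ k * ν := Nat.mul_le_mul_right _ (Nat.lt_succ_iff.1 g.1.2)
      have h4 := g.2.1.2
      rw [add_mul]
      omega
    choose c hc using h
    refine ⟨fun p => c p.1 p.2, fun g => decide_eq_true ?_⟩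
    have e : cv (Sum.elim z fun p => c p.1 p.2) = hon z := funext hc
    rw [e]
    exact hon_rhs z g

end Vale.Agent.P362
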