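import Vale.Agent.P362.Chain
import Vale.Agent.P362.Mean
import Vale.Agent.P362.ForrQ
import Vale.Agent.P362.Trans

/-! The Forrelation gadget. -/

namespace Vale.Agent.P362

theorem gadget (k ν s q : ℕ) (θ : ℝ) (hs : 1 ≤ s) (hq : 1 ≤ q) (hθ0 : 0 ≤ θ)
    (hθ : 6 * (((k + 1) * 2 ^ ν : ℕ) : ℝ) * (8 * q * s) ^ q ≤ θ ^ q) (hθδ : θ ≤ rho ν) :
    Nonempty (Gad (Fin (k + 1) × (Fin ν → Bool))
      ((Fin (k + 1) × Fin (ν + 1) × (Fin ν → Bool)) × Fin ((k + 1) * ν + 2))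
      (Fin (k + 1) × Fin (ν + 1) × (Fin ν → Bool)) (k + 1) (3 * ((k + 1) * ν + 2)) (s ^ 2)
      ((1 / 8) ^ (k + 1)) (θ ^ (k + 1) / rho ν ^ k)) := by
  obtain ⟨chk, val, h1, h2, h3, h4⟩ := trans k ν
  exact ⟨{
    Φ := Phi
    π := fun b => piD k ν (sg b)
    chk := chk
    val := val
    sim := forrQ k ν
    isD := fun b => piD_isD k ν _ (abs_sg b).le
    mean := mean k ν
    ind := fun F hF hF1 => chain F s q θ hF hF1 hs hq hθ0 hθ hθδ
    chkDep := h1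
    valDep := h2
    sound := h3
    complete := h4 }⟩

end Vale.Agent.P362
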