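import Vale.Agent.P362.Basic

/-! Huang's theorem: degree is at most the square of the spectral sensitivity. -/

namespace Vale.Agent.P362

open Finset

namespace Huang

variable {ι : Type} [DecidableEq ι]

theorem sg_flp (y : ι → Bool) (T : Finset ι) (j : ι) :
    sg (flp y T j) = (if j ∈ T then -1 else 1) * sg (y j) := by
  unfold flp
  split_ifs <;> simp [sg_not]

theorem prod_sg_flp (y : ι → Bool) (T A : Finset ι) :
    ∏ j ∈ A, sg (flp y T j) = (-1) ^ (A ∩ T).card * ∏ j ∈ A, sg (y j) := by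
  simp only [sg_flp, prod_mul_distrib, prod_ite_mem, prod_const]

theorem prod_sg_one (y : ι → Bool) (i : ι) (A : Finset ι) :
    ∏ j ∈ A, sg (flp y {i} j) = (if i ∈ A then -1 else 1) * ∏ j ∈ A, sg (y j) := by
  rw [prod_sg_flp]
  split_ifs with h <;> simp [h]

omit [DecidableEq ι] in
theorem prod_sg_sq (y : ι → Bool) (A : Finset ι) :
    (∏ j ∈ A, sg (y j)) * ∏ j ∈ A, sg (y j) = 1 := by
  simp only [← prod_mul_distrib, sg_sq, prod_const_one]

theorem flp_flp (y : ι → Bool) (T : Finset ι) : flp (flp y T) T = y := by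
  funext j
  by_cases h : j ∈ T <;> simp [flp, h]

theorem flp_comm (y : ι → Bool) (T T' : Finset ι) : flp (flp y T) T' = flp (flp y T') T := by
  funext j
  by_cases h : j ∈ T <;> by_cases h' : j ∈ T' <;> simp [flp, h, h']

/-- an eigenvector vanishing on a small set -/
theorem exists_eig {X : Type} [Fintype X] [DecidableEq X] (B : (X → ℝ) →ₗ[ℝ] (X → ℝ)) (r : ℝ)
    (hr : 0 ≤ r) (hB : ∀ v, B (B v) = (r * r) • v) (C D : Finset X)
    (hC : ∀ v : X → ℝ, (∀ y ∉ C, v y = 0) → ∀ y ∉ C, B v y = 0) (h : 2 * D.card < C.card) :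
    ∃ (v : X → ℝ) (μ : ℝ), v ≠ 0 ∧ (∀ y ∉ C, v y = 0) ∧ (∀ y ∈ D, v y = 0) ∧ |μ| = r ∧
      B v = μ • v := by
  let ex : (C → ℝ) →ₗ[ℝ] (X → ℝ) :=
    LinearMap.pi fun y => if h : y ∈ C then LinearMap.proj ⟨y, h⟩ else 0
  have ex0 : ∀ u, ∀ y ∉ C, ex u y = 0 := fun u y hy => by simp [ex, hy]
  have ex1 : ∀ u (y : C), ex u y = u y := fun u y => by simp [ex]
  let A := (B + r • LinearMap.id) ∘ₗ ex
  have hA : ∀ u, A u = B (ex u) + r • ex u := fun u => rfl
  let rs : (X → ℝ) →ₗ[ℝ] (D → ℝ) := LinearMap.funLeft ℝ ℝ Subtype.val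
  have h1 := LinearMap.finrank_range_add_finrank_ker A
  have h2 : Module.finrank ℝ (D → ℝ) = D.card := by simp
  rw [Module.finrank_fintype_fun_eq_card, Fintype.card_coe] at h1
  by_cases h3 : D.card < Module.finrank ℝ (LinearMap.range A)
  · obtain ⟨⟨_, u, rfl⟩, h4, h5⟩ := (Submodule.ne_bot_iff _).1 (LinearMap.ker_ne_bot_of_finrank_lt
      (f := rs ∘ₗ (LinearMap.range A).subtype) (h2 ▸ h3))
    refine ⟨A u, r, fun h6 => h5 (Subtype.ext h6), fun y hy => ?_,
      fun y hy => congrFun h4 ⟨y, hy⟩, abs_of_nonneg hr, ?_⟩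
    · simp [hA, hC _ (ex0 u) y hy, ex0 u y hy]
    · rw [hA, map_add, hB, map_smul, smul_add, smul_smul, add_comm]
  · obtain ⟨⟨u, hu⟩, h4, h5⟩ := (Submodule.ne_bot_iff _).1 (LinearMap.ker_ne_bot_of_finrank_lt
      (f := rs ∘ₗ ex ∘ₗ (LinearMap.ker A).subtype) (by omega))
    refine ⟨ex u, -r, fun h6 => h5 (Subtype.ext (funext fun y => ?_)), ex0 u,
      fun y hy => congrFun h4 ⟨y, hy⟩, by rw [abs_neg, abs_of_nonneg hr], ?_⟩
    · exact (ex1 u y).symm.trans (congrFun h6 y)
    · rw [neg_smul, eq_neg_iff_add_eq_zero, ← hA]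
      exact hu

end Huang

open Huang in
theorem huang {ι : Type} [Fintype ι] [DecidableEq ι] (f : (ι → Bool) → Bool) (lam : ℝ)
    (hlam : ∀ v : (ι → Bool) → ℝ, (∀ x, 0 ≤ v x) →
      ∑ x, ∑ i, (if f x ≠ f (flp x {i}) then v x * v (flp x {i}) else 0) ≤ lam * ∑ x, v x ^ 2)
    (S : Finset ι) (x : ι → Bool) (h : alt f S x ≠ 0) : (S.card : ℝ) ≤ lam ^ 2 := by
  rcases S.eq_empty_or_nonempty with rfl | hS
  · simp only [card_empty, Nat.cast_zero]
    positivity
  let o := Fintype.equivFin ι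
  let ε : ι → (ι → Bool) → ℝ := fun i y => ∏ j ∈ univ.filter fun j => o j < o i, sg (y j)
  have ε1 : ∀ i j y, ε j (flp y {i}) = (if o i < o j then -1 else 1) * ε j y := fun i j y => by
    simp only [ε, prod_sg_one, mem_filter, mem_univ, true_and]
  have ε2 : ∀ i y, ε i y * ε i y = 1 := fun i y => prod_sg_sq _ _
  have ε3 : ∀ i y, |ε i y| = 1 := fun i y => by
    simp only [ε, abs_prod, abs_sg, prod_const_one]
  let B : ((ι → Bool) → ℝ) →ₗ[ℝ] ((ι → Bool) → ℝ) :=
    LinearMap.pi fun y => ∑ i ∈ S, ε i y • LinearMap.proj (flp y {i})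
  have hB : ∀ v y, B v y = ∑ i ∈ S, ε i y * v (flp y {i}) := fun v y => by
    simp [B, LinearMap.sum_apply]
  have hBB : ∀ v, B (B v) = (√(S.card : ℝ) * √(S.card : ℝ)) • v := by
    intro v
    funext y
    let t : ι → ι → ℝ := fun i j =>
      ε i y * (ε j (flp y {i}) * v (flp (flp y {i}) {j})) - if i = j then v y else 0
    have h1 : ∀ i j, t i j = - t j i := by
      intro i j
      simp only [t, ε1]
      rcases lt_trichotomy (o i) (o j) with h1 | h1 | h1
      · have h2 : i ≠ j := fun h2 => h1.ne (by rw [h2])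
        rw [if_pos h1, if_neg h1.not_gt, if_neg h2, if_neg h2.symm, flp_comm]
        ring
      · obtain rfl := o.injective h1
        rw [if_neg (lt_irrefl _), if_pos rfl, flp_flp]
        linear_combination 2 * v y * ε2 i y
      · have h2 : i ≠ j := fun h2 => h1.ne (by rw [h2])
        rw [if_pos h1, if_neg h1.not_gt, if_neg h2, if_neg h2.symm, flp_comm]
        ring
    have h2 : ∑ i ∈ S, ∑ j ∈ S, t i j = - ∑ i ∈ S, ∑ j ∈ S, t i j := by
      conv_lhs => rw [sum_comm]
      rw [← sum_neg_distrib]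
      refine sum_congr rfl fun i _ => ?_
      rw [← sum_neg_distrib]
      exact sum_congr rfl fun j _ => h1 j i
    have h3 : ∑ i ∈ S, ∑ j ∈ S, t i j = B (B v) y - S.card * v y := by
      simp only [t, sum_sub_distrib, hB, mul_sum]
      rw [sum_congr rfl fun i hi => (sum_ite_eq S i fun _ => v y).trans (if_pos hi)]
      simp
    rw [Real.mul_self_sqrt (Nat.cast_nonneg _), Pi.smul_apply, smul_eq_mul]
    linarith
  let C : Finset (ι → Bool) := univ.filter fun y => ∀ i ∉ S, y i = x i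
  have hC : ∀ y, ∀ i ∈ S, flp y {i} ∈ C → y ∈ C := by
    intro y i hi hy
    refine mem_filter.2 ⟨mem_univ _, fun j hj => ?_⟩
    rw [← (mem_filter.1 hy).2 j hj, flp, if_neg]
    rw [mem_singleton]
    rintro rfl
    exact hj hi
  let s : (ι → Bool) → ℝ := fun y => (∏ j ∈ S, sg (y j)) * sg (f y)
  have hs : ∀ y, s y * s y = 1 := fun y => by
    simp only [s]
    linear_combination (sg (f y) * sg (f y)) * prod_sg_sq y S + sg_sq (f y)
  have hsum : ∑ y ∈ C, s y = (∏ j ∈ S, sg (x j)) * (-2 * alt f S x) := by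
    have h1 : ∑ T ∈ S.powerset, s (flp x T) = ∑ y ∈ C, s y := by
      refine sum_nbij' (flp x) (fun y => S.filter fun i => y i ≠ x i) (fun T hT => ?_)
        (fun y _ => mem_powerset.2 (filter_subset _ _)) (fun T hT => ?_) (fun y hy => ?_)
        fun _ _ => rfl
      · refine mem_filter.2 ⟨mem_univ _, fun j hj => ?_⟩
        rw [flp, if_neg fun h => hj (mem_powerset.1 hT h)]
      · ext j
        by_cases hj : j ∈ T <;> simp [flp, hj]
        exact mem_powerset.1 hT hj
      · funext j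
        by_cases hj : j ∈ S
        · cases h1 : x j <;> cases h2 : y j <;> simp [flp, hj, h1, h2]
        · simp [flp, hj, (mem_filter.1 hy).2 j hj]
    have h2 : ∑ T ∈ S.powerset, (-1 : ℝ) ^ T.card = 0 := by
      exact_mod_cast sum_powerset_neg_one_pow_card_of_nonempty hS
    rw [← h1, alt, ← zero_add (-2 * _), ← h2]
    push_cast
    rw [mul_sum, ← sum_add_distrib, mul_sum]
    refine sum_congr rfl fun T hT => ?_
    simp only [s, prod_sg_flp, inter_eq_right.2 (mem_powerset.1 hT)]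
    cases f (flp x T) <;> simp <;> ring
  obtain ⟨σ, hσ, hpos⟩ : ∃ σ : ℝ, σ * σ = 1 ∧ 0 < σ * ∑ y ∈ C, s y := by
    have h1 : ∑ y ∈ C, s y ≠ 0 := by
      rw [hsum]
      refine mul_ne_zero (fun h1 => ?_) (mul_ne_zero (by norm_num) (by exact_mod_cast h))
      have := prod_sg_sq x S
      rw [h1] at this
      norm_num at this
    rcases lt_or_gt_of_ne h1 with h2 | h2
    · exact ⟨-1, by norm_num, by linarith⟩
    · exact ⟨1, by norm_num, by linarith⟩
  have hcard : 2 * (C.filter fun y => s y ≠ σ).card < C.card := by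
    have h1 : σ * ∑ y ∈ C, s y = ∑ y ∈ C, (1 - 2 * if s y ≠ σ then 1 else 0) := by
      rw [mul_sum]
      refine sum_congr rfl fun y _ => ?_
      split_ifs with h1
      · have h2 : (s y - σ) * (s y + σ) = 0 := by linear_combination hs y - hσ
        have h3 := (mul_eq_zero.1 h2).resolve_left (sub_ne_zero.2 h1)
        linear_combination σ * h3 - hσ
      · rw [not_not.1 h1, hσ]
        ring
    rw [h1, sum_sub_distrib, ← mul_sum, sum_boole, sum_const, nsmul_eq_mul, mul_one,
      sub_pos] at hpos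
    exact_mod_cast hpos
  obtain ⟨v, μ, hv0, hvC, hvD, hμ, hv⟩ := exists_eig B _ (Real.sqrt_nonneg _) hBB C _
    (fun v hv y hy => by
      rw [hB]
      exact sum_eq_zero fun i hi => by rw [hv _ fun h => hy (hC y i hi h), mul_zero]) hcard
  have hvs : ∀ y, v y ≠ 0 → s y = σ := fun y hy => by
    by_contra h1
    exact hy (hvD y (mem_filter.2 ⟨by_contra fun h2 => hy (hvC y h2), h1⟩))
  have hpos' : 0 < ∑ y, |v y| ^ 2 := by
    obtain ⟨y, hy⟩ := Function.ne_iff.1 hv0
    exact sum_pos' (fun _ _ => sq_nonneg _) ⟨y, mem_univ _, by have := abs_pos.2 hy; positivity⟩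
  have h1 : √(S.card : ℝ) * ∑ y, |v y| ^ 2 ≤ lam * ∑ y, |v y| ^ 2 := by
    refine le_trans ?_ (hlam (fun y => |v y|) fun _ => abs_nonneg _)
    rw [mul_sum]
    refine sum_le_sum fun y _ => ?_
    calc √(S.card : ℝ) * |v y| ^ 2 = |v y| * |B v y| := by
          rw [hv, Pi.smul_apply, smul_eq_mul, abs_mul, hμ]; ring
      _ ≤ |v y| * ∑ i ∈ S, |v (flp y {i})| := by
          rw [hB]
          gcongr
          refine (abs_sum_le_sum_abs _ _).trans (le_of_eq (sum_congr rfl fun i _ => ?_))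
          rw [abs_mul, ε3, one_mul]
      _ = ∑ i ∈ S, if f y ≠ f (flp y {i}) then |v y| * |v (flp y {i})| else 0 := by
          rw [mul_sum]
          refine sum_congr rfl fun i hi => ?_
          split_ifs with h1
          · rfl
          · by_contra h2
            have h3 := hvs y (abs_ne_zero.1 (left_ne_zero_of_mul h2))
            have h4 := hvs _ (abs_ne_zero.1 (right_ne_zero_of_mul h2))
            simp only [s, prod_sg_one, if_pos hi, ← not_not.1 h1] at h3 h4
            have h5 : σ = 0 := by linarith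
            rw [h5] at hσ
            norm_num at hσ
      _ ≤ _ := sum_le_sum_of_subset_of_nonneg (subset_univ _) fun i _ _ => by
          split_ifs <;> positivity
  have h2 := le_of_mul_le_mul_right h1 hpos'
  rw [← Real.sq_sqrt (Nat.cast_nonneg S.card)]
  gcongr

end Vale.Agent.P362
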