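import Vale.Agent.P362.Dep

/-! Midrijanis: deterministic complexity is at most block sensitivity times degree. -/

namespace Vale.Agent.P362

open Finset

namespace Mid

variable {ι : Type} [DecidableEq ι]

theorem flp_insert (y : ι → Bool) {i : ι} {T : Finset ι} (hi : i ∉ T) :
    flp y (insert i T) = flp (flp y {i}) T := by
  funext j
  by_cases h : j = i
  · subst h; simp [flp, hi]
  · by_cases h' : j ∈ T <;> simp [flp, h, h']

theorem flp_one_one (y : ι → Bool) (i : ι) : flp (flp y {i}) {i} = y := by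
  funext j
  by_cases h : j = i <;> simp [flp, h]

theorem flp_empty (y : ι → Bool) : flp y ∅ = y := by
  funext j; simp [flp]

theorem alt_insert (f : (ι → Bool) → Bool) {i : ι} {S : Finset ι} (hi : i ∉ S) (y : ι → Bool) :
    alt f (insert i S) y = alt f S y - alt f S (flp y {i}) := by
  unfold alt
  rw [sum_powerset_insert hi, sub_eq_add_neg, ← sum_neg_distrib]
  congr 1
  refine sum_congr rfl fun T hT => ?_
  have hT' : i ∉ T := fun h => hi (mem_powerset.1 hT h)
  rw [card_insert_of_notMem hT', flp_insert y hT', pow_succ]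
  ring

theorem alt_flp_mem (f : (ι → Bool) → Bool) {i : ι} {S : Finset ι} (hi : i ∈ S) (y : ι → Bool) :
    alt f S (flp y {i}) = - alt f S y := by
  rw [← insert_erase hi, alt_insert f (notMem_erase i S), alt_insert f (notMem_erase i S),
    flp_one_one]
  ring

theorem exists_sens (f : (ι → Bool) → Bool) {S : Finset ι} (hS : S.Nonempty) (y : ι → Bool)
    (h : alt f S y ≠ 0) : ∃ T, T ⊆ S ∧ f (flp y T) ≠ f y := by
  by_contra hc
  apply h
  unfold alt
  have : ∀ T ∈ S.powerset, ((-1 : ℤ) ^ T.card * (if f (flp y T) = true then 1 else 0)) =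
      (-1) ^ T.card * (if f y = true then 1 else 0) := fun T hT => by
    have : f (flp y T) = f y := by
      by_contra h1
      exact hc ⟨T, mem_powerset.1 hT, h1⟩
    rw [this]
  rw [sum_congr rfl this, ← sum_mul, sum_powerset_neg_one_pow_card_of_nonempty hS, zero_mul]

/-- a property preserved by single flips inside `Fr` is constant on the subcube -/
theorem cube_conn (Fr : Finset ι) (x0 : ι → Bool) (P : (ι → Bool) → Prop)
    (hP : ∀ y, (∀ i ∉ Fr, y i = x0 i) → ∀ i ∈ Fr, P y → P (flp y {i}))
    (y y' : ι → Bool) (hy : ∀ i ∉ Fr, y i = x0 i) (hy' : ∀ i ∉ Fr, y' i = x0 i) (h : P y) :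
    P y' := by
  have key : ∀ T : Finset ι, T ⊆ Fr → ∀ y, (∀ i ∉ Fr, y i = x0 i) → P y → P (flp y T) := by
    intro T
    induction T using Finset.induction_on with
    | empty => intro _ y _ h; rwa [flp_empty]
    | insert i T hi ih =>
      intro hT y hy h
      have hiF : i ∈ Fr := hT (mem_insert_self _ _)
      rw [flp_insert y hi]
      refine ih (fun j hj => hT (mem_insert_of_mem hj)) _ (fun j hj => ?_) (hP y hy i hiF h)
      have : j ≠ i := fun e => hj (e ▸ hiF)
      simp [flp, this, hy j hj]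
  have e : y' = flp y (Fr.filter fun i => y i ≠ y' i) := by
    funext j
    by_cases hj : j ∈ Fr
    · cases h1 : y j <;> cases h2 : y' j <;> simp [flp, hj, h1, h2]
    · simp [flp, hj, hy j hj, hy' j hj]
  rw [e]
  exact key _ (filter_subset _ _) y hy h

theorem dich (f : (ι → Bool) → Bool) (Fr : Finset ι) (x0 : ι → Bool) :
    (∀ y, (∀ i ∉ Fr, y i = x0 i) → f y = f x0) ∨
      ∃ S, S ⊆ Fr ∧ S.Nonempty ∧ ∀ y, (∀ i ∉ Fr, y i = x0 i) → alt f S y ≠ 0 := by
  classical
  by_cases h : (Fr.powerset.filter fun S => S.Nonempty ∧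
      ∃ y, (∀ i ∉ Fr, y i = x0 i) ∧ alt f S y ≠ 0).Nonempty
  · right
    obtain ⟨S, hS, hmax⟩ := exists_max_image _ Finset.card h
    rw [mem_filter, mem_powerset] at hS
    obtain ⟨hS1, hS2, y0, hy0, hy0'⟩ := hS
    refine ⟨S, hS1, hS2, fun y hy => cube_conn Fr x0 (fun y => alt f S y ≠ 0) ?_ y0 y hy0 hy hy0'⟩
    intro z hz i hi hz'
    by_cases hiS : i ∈ S
    · rw [alt_flp_mem f hiS]
      exact neg_ne_zero.2 hz'
    · have h1 : alt f (insert i S) z = 0 := by
        by_contra h2
        have := hmax (insert i S) (mem_filter.2 ⟨mem_powerset.2 (insert_subset hi hS1),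
          insert_nonempty _ _, z, hz, h2⟩)
        rw [card_insert_of_notMem hiS] at this
        omega
      rw [alt_insert f hiS, sub_eq_zero] at h1
      rwa [← h1]
  · left
    intro y hy
    refine cube_conn Fr x0 (fun y => f y = f x0) ?_ x0 y (fun _ _ => rfl) hy rfl
    intro z hz i hi hz'
    have h1 : alt f {i} z = 0 := by
      by_contra h2
      exact h ⟨{i}, mem_filter.2 ⟨mem_powerset.2 (singleton_subset_iff.2 hi),
        singleton_nonempty _, z, hz, h2⟩⟩
    rw [← hz']
    have h3 := alt_insert f (notMem_empty i) z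
    rw [insert_empty, h1] at h3
    simp only [alt, powerset_empty, sum_singleton, card_empty, pow_zero, one_mul, flp_empty] at h3
    revert h3
    cases f z <;> cases f (flp z {i}) <;> simp

theorem key [Fintype ι] (f : (ι → Bool) → Bool) (d : ℕ)
    (hd : ∀ S x, alt f S x ≠ 0 → S.card ≤ d) (b : ℕ) : ∀ (Fr : Finset ι) (x0 : ι → Bool),
    (∀ y, (∀ i ∉ Fr, y i = x0 i) → ∀ (m : ℕ) (Bl : Fin m → Finset ι), (∀ j, Bl j ⊆ Fr) →
      (∀ j j', j ≠ j' → Disjoint (Bl j) (Bl j')) → (∀ j, f (flp y (Bl j)) ≠ f y) → m ≤ b) →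
    Dep (fun y => f fun i => if i ∈ Fr then y i else x0 i) (b * d) := by
  induction b with
  | zero =>
    intro Fr x0 hb
    rcases dich f Fr x0 with h | ⟨S, hS1, hS2, hS3⟩
    · exact (Dep.const (f x0) _).congr fun y => h _ fun i hi => if_neg hi
    · obtain ⟨T, hT, hT'⟩ := exists_sens f hS2 x0 (hS3 x0 fun _ _ => rfl)
      have := hb x0 (fun _ _ => rfl) 1 (fun _ => T) (fun _ => hT.trans hS1)
        (fun j j' h => absurd (Subsingleton.elim j j') h) (fun _ => hT')
      omega
  | succ b ih =>
    intro Fr x0 hb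
    rcases dich f Fr x0 with h | ⟨S, hS1, hS2, hS3⟩
    · exact (Dep.const (f x0) _).congr fun y => h _ fun i hi => if_neg hi
    · have h1 : Dep (fun (y : ι → Bool) (c : S) => y c) d := by
        have := Dep.pi (g := fun (c : S) (y : ι → Bool) => y c) fun c => Dep.var (c : ι)
        refine this.mono ?_
        rw [Fintype.card_coe, mul_one]
        exact hd S x0 (hS3 x0 fun _ _ => rfl)
      have h2 : ∀ a : S → Bool, Dep (fun y => f fun i => if i ∈ Fr \ S then y i else
          (fun i => if h : i ∈ S then a ⟨i, h⟩ else x0 i) i) (b * d) := by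
        intro a
        refine ih (Fr \ S) _ fun y hy m Bl hB1 hB2 hB3 => ?_
        have hy' : ∀ i ∉ Fr, y i = x0 i := fun i hi => by
          rw [hy i (fun h => hi (mem_sdiff.1 h).1), dif_neg (fun h => hi (hS1 h))]
        obtain ⟨T, hT, hT'⟩ := exists_sens f hS2 y (hS3 y hy')
        have hdis : ∀ j, Disjoint T (Bl j) := fun j =>
          disjoint_left.2 fun i hi hi' => (mem_sdiff.1 (hB1 j hi')).2 (hT hi)
        have := hb y hy' (m + 1) (Fin.cons T Bl) (fun j => ?_) (fun j j' => ?_) (fun j => ?_)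
        · omega
        · refine Fin.cases ?_ (fun j => ?_) j
          · exact hT.trans hS1
          · exact (hB1 j).trans sdiff_subset
        · refine Fin.cases ?_ (fun j => ?_) j <;> refine Fin.cases ?_ (fun j' => ?_) j' <;> intro h
          · exact absurd rfl h
          · exact hdis j'
          · exact (hdis j).symm
          · exact hB2 j j' fun e => h (by rw [e])
        · refine Fin.cases ?_ (fun j => ?_) j
          · exact hT'
          · exact hB3 j
      have h3 := h1.bind h2
      rw [show (b + 1) * d = d + b * d by ring]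
      refine h3.congr fun y => ?_
      refine congrArg f (funext fun i => ?_)
      by_cases hi : i ∈ S
      · simp [hi, hS1 hi]
      · simp [hi]

end Mid

theorem midr {ι : Type} [Fintype ι] [DecidableEq ι] (f : (ι → Bool) → Bool) (b d : ℕ)
    (hb : ∀ (x : ι → Bool) (m : ℕ) (Bl : Fin m → Finset ι),
      (∀ j j', j ≠ j' → Disjoint (Bl j) (Bl j')) → (∀ j, f (flp x (Bl j)) ≠ f x) → m ≤ b)
    (hd : ∀ S x, alt f S x ≠ 0 → S.card ≤ d) : Dep f (b * d) := by
  have := Mid.key f d hd b univ (fun _ => false) fun y _ m Bl _ h2 h3 => hb y m Bl h2 h3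
  exact this.congr fun y => by simp

end Vale.Agent.P362
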