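import Vale.Agent.P362.QFrame

/-! From phase-query real algorithms to the standard model. -/

namespace Vale.Agent.P362

open Matrix Finset

theorem toq_oracle {n m : ℕ} (x : Fin n → Bool) (v : Fin n × Bool × Fin m → ℂ)
    (p : Fin n × Bool × Fin m) : (oracle x *ᵥ v) p = v (p.1, xor p.2.1 (x p.1), p.2.2) := by
  obtain ⟨i, c, z⟩ := p
  rw [Matrix.mulVec, dotProduct, sum_eq_single (i, xor c (x i), z)]
  · simp [oracle]
  · rintro ⟨i', c', z'⟩ _ h
    rw [oracle, Matrix.of_apply, if_neg, zero_mul]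
    intro e
    simp only [Prod.mk.injEq] at e
    obtain ⟨rfl, rfl, rfl⟩ := e
    simp at h
  · simp

theorem toq_unit {P : Type} [Fintype P] [DecidableEq P] {W : Matrix P P ℝ} (h : W * Wᵀ = 1) :
    W.map Complex.ofRealHom ∈ Matrix.unitaryGroup P ℂ := by
  rw [Matrix.mem_unitaryGroup_iff]
  have : star (W.map Complex.ofRealHom) = Wᵀ.map Complex.ofRealHom := by
    ext p q; simp [Matrix.star_apply]
  rw [this, ← Matrix.map_mul, h, Matrix.map_one _ (map_zero _) (map_one _)]

theorem toq_mulVec {P : Type} [Fintype P] (W : Matrix P P ℝ) (v : P → ℝ) :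
    W.map Complex.ofRealHom *ᵥ (fun p => (v p : ℂ)) = fun p => (((W *ᵥ v) p : ℝ) : ℂ) := by
  funext p
  simp [Matrix.mulVec, dotProduct]

theorem toq_state_eq {n m : ℕ}
    {U U' : ℕ → Matrix (Fin n × Bool × Fin m) (Fin n × Bool × Fin m) ℂ}
    (p0 : Fin n × Bool × Fin m) (x : Fin n → Bool) (T : ℕ) (h : ∀ t ≤ T, U' t = U t) :
    state U' p0 x T = state U p0 x T := by
  induction T with
  | zero => simp only [state, h 0 le_rfl]
  | succ T ih => simp only [state, h _ le_rfl, ih fun t ht => h t (by omega)]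

theorem toq_state_mul {n m : ℕ}
    {U U' : ℕ → Matrix (Fin n × Bool × Fin m) (Fin n × Bool × Fin m) ℂ}
    {M : Matrix (Fin n × Bool × Fin m) (Fin n × Bool × Fin m) ℂ}
    (p0 : Fin n × Bool × Fin m) (x : Fin n → Bool) (T : ℕ) (h : ∀ t < T, U' t = U t)
    (hT : U' T = M * U T) : state U' p0 x T = M *ᵥ state U p0 x T := by
  cases T with
  | zero => simp only [state, hT, Matrix.mulVec_mulVec]
  | succ T =>
    simp only [state]
    rw [toq_state_eq p0 x T fun t ht => h t (by omega), hT, ← Matrix.mulVec_mulVec]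

/-- the embedding of the workspace -/
def toqEmb {n m : ℕ} (i0 : Fin n) (v : Fin m → ℝ) (p : Fin n × Bool × Fin m) : ℝ :=
  if (p.1, p.2.1) = (i0, false) then v p.2.2 else 0

/-- an operator on the workspace -/
def toqLift (n : ℕ) {m : ℕ} (W : Matrix (Fin m) (Fin m) ℝ) :
    Matrix (Fin n × Bool × Fin m) (Fin n × Bool × Fin m) ℝ :=
  Matrix.of fun p q => if (p.1, p.2.1) = (q.1, q.2.1) then W p.2.2 q.2.2 else 0

theorem toqLift_orth (n : ℕ) {m : ℕ} {W : Matrix (Fin m) (Fin m) ℝ} (h : W * Wᵀ = 1) :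
    toqLift n W * (toqLift n W)ᵀ = 1 :=
  ((OpQ.ctrl (ι := Unit) (B := Fin n × Bool) fun _ => OpQ.const h).reindex
    (Equiv.prodAssoc _ _ _).symm).orth fun _ => false

theorem toqLift_emb {n m : ℕ} (i0 : Fin n) (W : Matrix (Fin m) (Fin m) ℝ) (v : Fin m → ℝ) :
    toqLift n W *ᵥ toqEmb i0 v = toqEmb i0 (W *ᵥ v) := by
  funext ⟨i, c, z⟩
  simp only [Matrix.mulVec, dotProduct, toqLift, toqEmb, Matrix.of_apply, Fintype.sum_prod_type]
  rw [sum_eq_single i0, sum_eq_single false]
  · split_ifs <;> simp_all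
  · intro b _ hb; simp [hb]
  · simp
  · intro b _ hb; simp [hb]
  · simp

theorem toq_main {n m : ℕ} (i0 : Fin n) (b0 : Fin m) (T : ℕ) :
    ∀ U : (Fin n → Bool) → Matrix (Fin m) (Fin m) ℝ, OpQ T U →
      ∃ Us : ℕ → Matrix (Fin n × Bool × Fin m) (Fin n × Bool × Fin m) ℂ,
        (∀ t, Us t ∈ Matrix.unitaryGroup (Fin n × Bool × Fin m) ℂ) ∧
        ∀ x, state Us (i0, false, b0) x T = fun p => ((toqEmb i0 (fun z => U x z b0) p : ℝ) : ℂ) := by
  induction T with
  | zero =>
    rintro U ⟨W, hW, e⟩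
    refine ⟨fun _ => (toqLift n W).map Complex.ofRealHom, fun _ => toq_unit (toqLift_orth n hW),
      fun x => ?_⟩
    funext p
    simp only [state, Matrix.mulVec_single_one, e]
    rfl
  | succ T ih =>
    rintro U ⟨W, idx, V, hW, hV, e⟩
    obtain ⟨Us, hUs, hs⟩ := ih V hV
    set r : ℝ := Real.sqrt (1 / 2) with hr
    have hrr : r * r = 1 / 2 := Real.mul_self_sqrt (by norm_num)
    have hG : ∀ z : Fin m, ∃ G : Matrix (Fin n × Bool) (Fin n × Bool) ℝ, G * Gᵀ = 1 ∧
        ∀ s, G s (i0, false) = if s.1 = (idx z).getD i0 then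
          r * sg ((idx z).isSome && s.2) else 0 := by
      intro z
      refine householder _ _ ?_ ?_
      · split_ifs
        · have : 0 ≤ r := Real.sqrt_nonneg _
          simpa using this
        · exact le_rfl
      · rw [Fintype.sum_prod_type, sum_eq_single ((idx z).getD i0)]
        · cases (idx z).isSome <;> simp <;> linarith
        · intro b _ hb; simp [hb]
        · simp
    choose G hG1 hG2 using hG
    set A : Matrix (Fin n × Bool × Fin m) (Fin n × Bool × Fin m) ℝ := Matrix.of fun p q =>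
      if p.2.2 = q.2.2 then G p.2.2 (p.1, p.2.1) (q.1, q.2.1) else 0 with hA
    have hA1 : A * Aᵀ = 1 :=
      ((OpQ.ctrl' (ι := Unit) fun z => OpQ.const (hG1 z)).reindex
        (Equiv.prodAssoc _ _ _).symm).orth fun _ => false
    have hA2 : ∀ v p, (A *ᵥ toqEmb i0 v) p = G p.2.2 (p.1, p.2.1) (i0, false) * v p.2.2 := by
      rintro v ⟨i, c, z⟩
      simp only [Matrix.mulVec, dotProduct, hA, toqEmb, Matrix.of_apply, Fintype.sum_prod_type]
      rw [sum_eq_single i0, sum_eq_single false]
      · simp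
      · intro b _ hb; simp [hb]
      · simp
      · intro b _ hb; simp [hb]
      · simp
    refine ⟨fun t => if t = T + 1 then (toqLift n W * Aᵀ).map Complex.ofRealHom
      else if t = T then A.map Complex.ofRealHom * Us T else Us t, fun t => ?_, fun x => ?_⟩
    · beta_reduce
      split_ifs
      · exact toq_unit (orth_mul (toqLift_orth n hW) (orth_transpose hA1))
      · exact mul_mem (toq_unit hA1) (hUs T)
      · exact hUs t
    · have h1 : oracle x *ᵥ (fun p => (((A *ᵥ toqEmb i0 fun z => V x z b0) p : ℝ) : ℂ)) =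
          fun p => (((A *ᵥ toqEmb i0 (ph idx x *ᵥ fun z => V x z b0)) p : ℝ) : ℂ) := by
        funext ⟨i, c, z⟩
        rw [toq_oracle]
        simp only [hA2, hG2, ph, Matrix.mulVec_diagonal]
        congr 1
        split_ifs with h
        · cases h' : idx z with
          | none => simp
          | some j =>
            rw [h'] at h
            simp only [Option.getD_some] at h
            subst h
            cases c <;> cases hx : x i <;> simp [hx]
        · simp
      simp only [state, if_true]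
      rw [toq_state_mul (U := Us) (M := A.map Complex.ofRealHom) _ x T
        (fun t ht => by rw [if_neg (by omega), if_neg (by omega)]) (by simp), hs, toq_mulVec, h1,
        toq_mulVec, Matrix.mulVec_mulVec, Matrix.mul_assoc, mul_eq_one_comm.1 hA1, Matrix.mul_one,
        toqLift_emb, Matrix.mulVec_mulVec, e]
      rfl

theorem toQAlg {n T : ℕ} (hn : 0 < n) {f : (Fin n → Bool) → Bool}
    {P : (Fin n → Bool) → Bool → ℝ} (h : QSim T P) (hP : ∀ x, 2 / 3 ≤ P x (f x)) :
    QAlg f T := by
  obtain ⟨B, _, _, U, b0, o, hU, hP'⟩ := h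
  have e := (Fintype.equivFin B).symm
  obtain ⟨Us, h1, h2⟩ := toq_main ⟨0, hn⟩ (e.symm b0) T _ (hU.reindex e)
  refine ⟨_, Us, (⟨0, hn⟩, false, e.symm b0), fun p => o (e p.2.2), h1,
    fun x => (hP x).trans (le_of_eq ?_)⟩
  rw [hP', h2, Fintype.sum_prod_type, sum_eq_single (⟨0, hn⟩ : Fin n), Fintype.sum_prod_type,
    sum_eq_single false, ← Equiv.sum_comp e]
  · refine sum_congr rfl fun z _ => ?_
    by_cases hz : o (e z) = f x <;> simp [hz, toqEmb]
  · intro b _ hb; simp [hb, toqEmb]
  · simp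
  · intro b _ hb; simp [hb, toqEmb]
  · simp

end Vale.Agent.P362
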