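import Vale.Agent.P362.Adv
import Vale.Agent.P362.Huang
import Vale.Agent.P362.Mid
import Vale.Agent.P362.ToQ

/-! The upper bound `R ≤ D ≤ C Q^4`. -/

namespace Vale.Agent.P362

open Finset

namespace Upper

variable {n T : ℕ} {f : (Fin n → Bool) → Bool} {a : ℕ → (Fin n → Bool) → Fin n → ℝ}

theorem ne_flp (x : Fin n → Bool) (B : Finset (Fin n)) (i : Fin n) : x i ≠ flp x B i ↔ i ∈ B := by
  by_cases h : i ∈ B <;> simp [flp, h]

theorem blocks (h2 : ∀ t x, ∑ i, a t x i ^ 2 ≤ 1)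
    (h3 : ∀ x y, f x ≠ f y →
      1 / 36 ≤ ∑ t ∈ range T, ∑ i, if x i ≠ y i then a t x i * a t y i else 0)
    (x : Fin n → Bool) (m : ℕ) (Bl : Fin m → Finset (Fin n))
    (hB : ∀ j j', j ≠ j' → Disjoint (Bl j) (Bl j')) (hs : ∀ j, f (flp x (Bl j)) ≠ f x) :
    m ≤ (36 * T) ^ 2 := by
  rcases Nat.eq_zero_or_pos m with rfl | hm
  · exact Nat.zero_le _
  have hm' : (0 : ℝ) < m := by exact_mod_cast hm
  obtain ⟨c, hc, hcc⟩ : ∃ c : ℝ, 0 < c ∧ c * c = m :=
    ⟨√m, Real.sqrt_pos.2 hm', Real.mul_self_sqrt hm'.le⟩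
  have hj : ∀ t, ∑ j, ∑ i, (if x i ≠ flp x (Bl j) i then a t x i * a t (flp x (Bl j)) i else 0) ≤
      c := by
    intro t
    have e1 : ∑ j, ∑ i, (if i ∈ Bl j then a t x i ^ 2 else 0) ≤ 1 := by
      rw [sum_comm]
      refine le_trans (sum_le_sum fun i _ => ?_) (h2 t x)
      by_cases hi : ∃ j, i ∈ Bl j
      · obtain ⟨j, hj⟩ := hi
        rw [sum_eq_single j, if_pos hj]
        · intro j' _ hj'
          exact if_neg fun h => disjoint_left.1 (hB j' j hj') h hj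
        · simp
      · rw [sum_eq_zero fun j _ => if_neg fun h => hi ⟨j, h⟩]
        positivity
    have e2 : ∑ j, ∑ i, a t (flp x (Bl j)) i ^ 2 ≤ m := by
      refine le_trans (sum_le_sum fun j _ => h2 t _) ?_
      simp
    calc _ ≤ ∑ j, ∑ i, (c / 2 * (if i ∈ Bl j then a t x i ^ 2 else 0) +
          1 / (2 * c) * a t (flp x (Bl j)) i ^ 2) := by
          refine sum_le_sum fun j _ => sum_le_sum fun i _ => ?_
          simp only [ne_flp]
          split_ifs
          · have : c / 2 * a t x i ^ 2 + 1 / (2 * c) * a t (flp x (Bl j)) i ^ 2 -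
                a t x i * a t (flp x (Bl j)) i =
                (c * a t x i - a t (flp x (Bl j)) i) ^ 2 / (2 * c) := by
              field_simp
              ring
            have h0 : 0 ≤ (c * a t x i - a t (flp x (Bl j)) i) ^ 2 / (2 * c) := by positivity
            linarith
          · positivity
      _ = c / 2 * ∑ j, ∑ i, (if i ∈ Bl j then a t x i ^ 2 else 0) +
          1 / (2 * c) * ∑ j, ∑ i, a t (flp x (Bl j)) i ^ 2 := by
          simp only [sum_add_distrib, mul_sum]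
      _ ≤ c / 2 * 1 + 1 / (2 * c) * m := by gcongr
      _ = c := by rw [← hcc]; field_simp; ring
  have h4 : (m : ℝ) / 36 ≤ T * c := by
    calc (m : ℝ) / 36 = ∑ _j : Fin m, (1 / 36 : ℝ) := by simp; ring
      _ ≤ ∑ j, ∑ t ∈ range T, ∑ i,
          (if x i ≠ flp x (Bl j) i then a t x i * a t (flp x (Bl j)) i else 0) :=
          sum_le_sum fun j _ => h3 x _ (hs j).symm
      _ ≤ ∑ _t ∈ range T, c := by
          rw [sum_comm]
          exact sum_le_sum fun t _ => hj t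
      _ = T * c := by simp
  have h5 : c ≤ 36 * T := by
    rw [← hcc] at h4
    have : c * c ≤ c * (36 * T) := by linarith
    exact le_of_mul_le_mul_left this hc
  have h6 : (m : ℝ) ≤ (36 * T) ^ 2 := by
    rw [← hcc, sq]
    exact mul_le_mul h5 h5 hc.le (by positivity)
  exact_mod_cast h6

theorem spec (h2 : ∀ t x, ∑ i, a t x i ^ 2 ≤ 1)
    (h3 : ∀ x y, f x ≠ f y →
      1 / 36 ≤ ∑ t ∈ range T, ∑ i, if x i ≠ y i then a t x i * a t y i else 0)
    (h1 : ∀ t x i, 0 ≤ a t x i) (v : (Fin n → Bool) → ℝ) (hv : ∀ x, 0 ≤ v x) :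
    ∑ x, ∑ i, (if f x ≠ f (flp x {i}) then v x * v (flp x {i}) else 0) ≤
      (36 * T) * ∑ x, v x ^ 2 := by
  have e1 : ∀ x i, (if f x ≠ f (flp x {i}) then v x * v (flp x {i}) else 0) ≤
      ∑ t ∈ range T, 18 * (a t x i ^ 2 * v x ^ 2 +
        a t (flp x {i}) i ^ 2 * v (flp x {i}) ^ 2) := by
    intro x i
    split_ifs with h
    · have h4 := h3 x _ h
      simp only [ne_flp, mem_singleton, sum_ite_eq', mem_univ, if_true] at h4
      have h5 := mul_le_mul_of_nonneg_left h4 (mul_nonneg (hv x) (hv (flp x {i})))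
      rw [mul_sum] at h5
      have h6 : ∑ t ∈ range T, v x * v (flp x {i}) * (a t x i * a t (flp x {i}) i) ≤
          ∑ t ∈ range T, 1 / 36 * (18 * (a t x i ^ 2 * v x ^ 2 +
            a t (flp x {i}) i ^ 2 * v (flp x {i}) ^ 2)) :=
        sum_le_sum fun t _ => by
          nlinarith [sq_nonneg (a t x i * v x - a t (flp x {i}) i * v (flp x {i}))]
      rw [← mul_sum _ _ (1 / 36 : ℝ)] at h6
      linarith
    · exact sum_nonneg fun t _ => by positivity
  have e2 : ∀ t, ∑ x, ∑ i, a t x i ^ 2 * v x ^ 2 ≤ ∑ x, v x ^ 2 := fun t =>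
    sum_le_sum fun x _ => by
      rw [← sum_mul]
      exact mul_le_of_le_one_left (sq_nonneg _) (h2 t x)
  have e3 : ∀ t, ∑ x, ∑ i, a t (flp x {i}) i ^ 2 * v (flp x {i}) ^ 2 =
      ∑ x, ∑ i, a t x i ^ 2 * v x ^ 2 := fun t => by
    rw [sum_comm, sum_comm (f := fun x i => a t x i ^ 2 * v x ^ 2)]
    refine sum_congr rfl fun i _ => ?_
    have hinv : Function.Involutive fun x : Fin n → Bool => flp x {i} := fun x => Huang.flp_flp x _
    exact Equiv.sum_comp hinv.toPerm fun x => a t x i ^ 2 * v x ^ 2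
  calc _ ≤ ∑ x, ∑ i, ∑ t ∈ range T, 18 * (a t x i ^ 2 * v x ^ 2 +
        a t (flp x {i}) i ^ 2 * v (flp x {i}) ^ 2) :=
        sum_le_sum fun x _ => sum_le_sum fun i _ => e1 x i
    _ = ∑ t ∈ range T, 18 * (∑ x, ∑ i, a t x i ^ 2 * v x ^ 2 +
        ∑ x, ∑ i, a t (flp x {i}) i ^ 2 * v (flp x {i}) ^ 2) := by
        simp only [mul_add, sum_add_distrib, mul_sum]
        congr 1
        · rw [sum_congr rfl fun x _ => sum_comm, sum_comm]
        · rw [sum_congr rfl fun x _ => sum_comm, sum_comm]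
    _ ≤ ∑ _t ∈ range T, 36 * ∑ x, v x ^ 2 := by
        refine sum_le_sum fun t _ => ?_
        rw [e3]
        linarith [e2 t]
    _ = _ := by simp; ring

end Upper

theorem upper {n : ℕ} (hn : 1 ≤ n) (f : (Fin n → Bool) → Bool) :
    (R f : ℝ) ≤ 36 ^ 4 * (1 + (Q f : ℝ)) ^ 4 := by
  have hne : {T | QAlg f T}.Nonempty :=
    ⟨_, toQAlg hn (QSim.ofDep (Dep.all f)) fun x => by rw [if_pos rfl]; norm_num⟩
  have hQ : QAlg f (Q f) := Nat.sInf_mem hne
  obtain ⟨a, h1, h2, h3⟩ := adv hQ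
  have hD := midr f ((36 * Q f) ^ 2) ((36 * Q f) ^ 2) (Upper.blocks h2 h3) fun S x h => by
    have := huang f (36 * Q f) (Upper.spec h2 h3 h1) S x h
    exact_mod_cast this
  have hR : R f ≤ (36 * Q f) ^ 2 * (36 * Q f) ^ 2 := Nat.sInf_le hD.randAlg
  have hR' : (R f : ℝ) ≤ (36 * Q f) ^ 2 * (36 * Q f) ^ 2 := by exact_mod_cast hR
  have hq : (0 : ℝ) ≤ Q f := Nat.cast_nonneg _
  calc (R f : ℝ) ≤ 36 ^ 4 * (Q f : ℝ) ^ 4 := by linarith
    _ ≤ _ := by gcongr; linarith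

end Vale.Agent.P362
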