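import Vale.Agent.P362.Func
import Vale.Agent.P362.Gadget
import Vale.Agent.P362.Upper

/-! Choice of parameters and the final theorem. -/

namespace Vale.Agent.P362

open Finset

theorem exists_mu (A μ0 : ℕ) : ∃ μ : ℕ, μ0 ≤ μ ∧ 1 ≤ μ ∧ A * μ ^ 3 ≤ 2 ^ μ := by
  have h := tendsto_pow_const_div_const_pow_of_one_lt 3 (r := 2) (by norm_num)
  have h2 := h.eventually (gt_mem_nhds (show (0 : ℝ) < 1 / (A + 1) by positivity))
  obtain ⟨μ, hμ, hμ0, hμ1⟩ := (h2.and ((Filter.eventually_ge_atTop μ0).and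
    (Filter.eventually_ge_atTop 1))).exists
  refine ⟨μ, hμ0, hμ1, ?_⟩
  rw [div_lt_div_iff₀ (by positivity) (by positivity)] at hμ
  have : (A : ℝ) * μ ^ 3 ≤ 2 ^ μ := by nlinarith [pow_nonneg (Nat.cast_nonneg (α := ℝ) μ) 3]
  exact_mod_cast this

theorem pow_half_le (a : ℝ) (ha0 : 0 ≤ a) (c : ℕ) (ha : a ^ c ≤ 1 / 2) (ν : ℕ) :
    a ^ (c * ν) * 2 ^ ν ≤ 1 := by
  rw [pow_mul, ← mul_pow]
  exact pow_le_one₀ (by positivity) (by linarith)

theorem cost_le (g G E μ B ν L m : ℕ) (hG : G = g + 1) (hE1 : 1 ≤ E) (hμ1 : 1 ≤ μ)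
    (key : ∀ c a b i : ℕ, c ≤ 10 ^ 6 → a ≤ 4 → b ≤ 3 → i ≤ 1 → c * G ^ a * E ^ i * μ ^ b ≤ B)
    (hνle : ν ≤ 2 * G * μ) (hLle : L ≤ 4 * G * μ) (hmle : m ≤ 320 * G * E * μ) :
    1 + 704 * ((2 * B ^ (g + 1) + 1) * ((32 * ν + 1) * (L * m * (g + 1) +
      (16 * (ν + L + 4) + 1) * ((32 * ν + 1) * (ν + 1 + (m + 1) * (3 * ((g + 1) * ν + 2))))) +
      60 * (ν + 1 + (m + 1) * (3 * ((g + 1) * ν + 2))))) ≤ B ^ (g + 8) := by
  have hG1 : 1 ≤ G := by omega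
  have hGμ : 1 ≤ G * μ := Nat.mul_pos hG1 hμ1
  have hB6 : 10 ^ 6 ≤ B := by
    simpa using key (10 ^ 6) 0 0 0 le_rfl (by omega) (by omega) (by omega)
  have hLm : L * m ≤ 1280 * G ^ 2 * E * μ ^ 2 := by
    calc L * m ≤ (4 * G * μ) * (320 * G * E * μ) := by gcongr
      _ = _ := by ring
  have h1 : 32 * ν + 1 ≤ B := by
    calc 32 * ν + 1 ≤ 65 * G ^ 1 * E ^ 0 * μ ^ 1 := by
          simp only [pow_one, pow_zero, mul_one, mul_assoc] at hνle ⊢; omega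
      _ ≤ B := key _ _ _ _ (by norm_num) (by omega) (by omega) (by omega)
  have h2 : 16 * (ν + L + 4) + 1 ≤ B := by
    calc 16 * (ν + L + 4) + 1 ≤ 161 * G ^ 1 * E ^ 0 * μ ^ 1 := by
          simp only [pow_one, pow_zero, mul_one, mul_assoc] at hνle hLle ⊢; omega
      _ ≤ B := key _ _ _ _ (by norm_num) (by omega) (by omega) (by omega)
  have h3 : L * m * (g + 1) ≤ B := by
    calc L * m * (g + 1) ≤ (1280 * G ^ 2 * E * μ ^ 2) * G := by rw [← hG]; gcongr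
      _ = 1280 * G ^ 3 * E ^ 1 * μ ^ 2 := by ring
      _ ≤ B := key _ _ _ _ (by norm_num) (by omega) (by omega) (by omega)
  have h4 : ν + 1 + (m + 1) * (3 * ((g + 1) * ν + 2)) ≤ B := by
    have a1 : 1 ≤ G * E * μ := Nat.mul_pos (Nat.mul_pos hG1 hE1) hμ1
    have a2 : 1 ≤ G ^ 2 * μ := Nat.mul_pos (by positivity) hμ1
    have a3 : m + 1 ≤ 321 * (G * E * μ) := by
      have : 320 * G * E * μ = 320 * (G * E * μ) := by ring
      omega
    have a4 : 3 * ((g + 1) * ν + 2) ≤ 12 * (G ^ 2 * μ) := by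
      have : (g + 1) * ν ≤ 2 * (G ^ 2 * μ) := by
        calc (g + 1) * ν ≤ G * (2 * G * μ) := by rw [← hG]; gcongr
          _ = _ := by ring
      omega
    have a5 : ν + 1 ≤ 3 * (G * E * μ) * (G ^ 2 * μ) := by
      have b1 : G * μ ≤ G * E * μ := by
        calc G * μ = G * 1 * μ := by ring
          _ ≤ _ := by gcongr
      have b2 : 2 * G * μ = 2 * (G * μ) := by ring
      calc ν + 1 ≤ 3 * (G * E * μ) * 1 := by omega
        _ ≤ _ := by gcongr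
    calc _ ≤ 3 * (G * E * μ) * (G ^ 2 * μ) + (321 * (G * E * μ)) * (12 * (G ^ 2 * μ)) := by
          gcongr
      _ = 3855 * G ^ 3 * E ^ 1 * μ ^ 2 := by ring
      _ ≤ B := key _ _ _ _ (by norm_num) (by omega) (by omega) (by omega)
  have h5 : 1 ≤ B ^ (g + 1) := Nat.one_le_pow _ _ (by omega)
  have h6 : 1 ≤ B := by omega
  have h7 : B ≤ B ^ 4 := Nat.le_self_pow (by norm_num) B
  have h8 : B * B ≤ B ^ 4 := by
    calc B * B = B ^ 2 := by ring
      _ ≤ B ^ 4 := Nat.pow_le_pow_right h6 (by norm_num)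
  have h9 : B * (B + B * (B * B)) + 60 * B ≤ 62 * B ^ 4 := by
    have : B * (B + B * (B * B)) = B * B + B ^ 4 := by ring
    omega
  calc _ ≤ 1 + 704 * ((2 * B ^ (g + 1) + B ^ (g + 1)) * (B * (B + B * (B * B)) + 60 * B)) := by
        gcongr
    _ ≤ B ^ (g + 1) * B ^ 4 + 704 * ((2 * B ^ (g + 1) + B ^ (g + 1)) * (62 * B ^ 4)) := by
        gcongr
        exact Nat.mul_pos h5 (by omega)
    _ = 130945 * B ^ (g + 5) := by ring
    _ ≤ B ^ 3 * B ^ (g + 5) := by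
        gcongr
        exact le_trans (by omega) (Nat.le_self_pow (by norm_num) B)
    _ = _ := by ring

theorem family (g : ℕ) (hg : 3 ≤ g) (μ0 : ℕ) :
    ∃ μ : ℕ, μ0 ≤ μ ∧ ∃ n : ℕ, 1 ≤ n ∧ ∃ f : (Fin n → Bool) → Bool,
      2 ^ ((4 * g - 5) * μ) ≤ R f ∧ 1 + Q f ≤ 2 ^ ((g + 8) * μ) := by
  obtain ⟨e, hgdef⟩ : ∃ e, g = e + 3 := ⟨g - 3, by omega⟩
  obtain ⟨G, hG⟩ : ∃ G, G = g + 1 := ⟨_, rfl⟩
  obtain ⟨E, hE⟩ : ∃ E, E = 64 ^ G := ⟨_, rfl⟩
  obtain ⟨F, hF⟩ : ∃ F, F = (16 * G) ^ G := ⟨_, rfl⟩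
  obtain ⟨μ, hμ0, hμ1, hA⟩ := exists_mu (10 ^ 6 * G ^ 4 * E * F) μ0
  obtain ⟨B, hB⟩ : ∃ B, B = 2 ^ μ := ⟨_, rfl⟩
  rw [← hB] at hA
  have hG1 : 1 ≤ G := by omega
  have hE1 : 1 ≤ E := hE ▸ Nat.one_le_pow _ _ (by norm_num)
  have hF1 : 1 ≤ F := hF ▸ Nat.one_le_pow _ _ (by omega)
  have key : ∀ c a b i j : ℕ, c ≤ 10 ^ 6 → a ≤ 4 → b ≤ 3 → i ≤ 1 → j ≤ 1 →
      c * G ^ a * E ^ i * F ^ j * μ ^ b ≤ B := by
    intro c a b i j hc ha hb hi hj
    refine le_trans ?_ hA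
    have h1 : E ^ i ≤ E := by simpa using Nat.pow_le_pow_right hE1 hi
    have h2 : F ^ j ≤ F := by simpa using Nat.pow_le_pow_right hF1 hj
    gcongr
  obtain ⟨ν, hν⟩ : ∃ ν, ν = 2 * g * μ := ⟨_, rfl⟩
  obtain ⟨L, hL⟩ : ∃ L, L = 4 * g * μ := ⟨_, rfl⟩
  obtain ⟨m, hm⟩ : ∃ m, m = 80 * L * E := ⟨_, rfl⟩
  have hgG : g ≤ G := by omega
  have hνle : ν ≤ 2 * G * μ := by rw [hν]; gcongr
  have hLle : L ≤ 4 * G * μ := by rw [hL]; gcongr
  have hmle : m ≤ 320 * G * E * μ := by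
    rw [hm]; calc 80 * L * E ≤ 80 * (4 * G * μ) * E := by gcongr
      _ = _ := by ring
  have hGμ : 1 ≤ G * μ := Nat.mul_pos hG1 hμ1
  have hB6 : 10 ^ 6 ≤ B := by simpa using key (10 ^ 6) 0 0 0 0 le_rfl (by omega) (by omega) (by omega) (by omega)
  have hBpow : ∀ a : ℕ, 2 ^ (a * μ) = B ^ a := fun a => by rw [hB, ← pow_mul, mul_comm]
  have hN : 2 ^ ν = B ^ (2 * g) := hν ▸ hBpow _
  have hNR : (2 : ℝ) ^ ν = (B : ℝ) ^ (2 * g) := by exact_mod_cast hN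
  have hLR : (2 : ℝ) ^ L = (B : ℝ) ^ (4 * g) := by rw [hL]; exact_mod_cast hBpow (4 * g)
  have hBR : (10 : ℝ) ^ 6 ≤ B := by exact_mod_cast hB6
  have hBpos : (0 : ℝ) < B := by linarith
  have hrho : rho ν = (B : ℝ) ^ g := by
    rw [rho, hNR, mul_comm, pow_mul, Real.sqrt_sq (by positivity)]
  have h16 : (16 * G : ℝ) ≤ B := by
    have := key 16 1 0 0 0 (by norm_num) (by omega) (by omega) (by omega) (by omega)
    simp only [pow_one, pow_zero, mul_one] at this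
    exact_mod_cast this
  obtain ⟨Γ⟩ := gadget g ν (B ^ (e + 1)) (2 * G) (16 * G * (B : ℝ) ^ (e + 2))
    (Nat.one_le_pow _ _ (by omega)) (by omega) (by positivity)
    (by
      have e1 : (16 * G * (B : ℝ) ^ (e + 2)) ^ (2 * G) =
          (B : ℝ) ^ (2 * g) * B ^ 2 * (8 * ((2 * G : ℕ) : ℝ) * ((B ^ (e + 1) : ℕ) : ℝ)) ^ (2 * G) := by
        rw [← pow_add, show 2 * g + 2 = 2 * G by omega, ← mul_pow]
        congr 1; push_cast; ring
      rw [e1]
      refine mul_le_mul_of_nonneg_right ?_ (by positivity)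
      push_cast
      rw [hNR]
      have : (6 : ℝ) * (g + 1) ≤ B ^ 2 := by
        have : ((G : ℕ) : ℝ) = g + 1 := by rw [hG]; push_cast; ring
        nlinarith
      nlinarith [pow_pos hBpos (2 * g)])
    (by
      rw [hrho, hgdef, pow_succ (B : ℝ) (e + 2), mul_comm]
      gcongr)
  have hLm : L * m ≤ 1280 * G ^ 2 * E * μ ^ 2 := by
    calc L * m ≤ (4 * G * μ) * (320 * G * E * μ) := by gcongr
      _ = _ := by ring
  obtain ⟨n, hn, f, hf1, hf2⟩ := main_abs Γ ν L m (B ^ (g + 1)) (32 * ν) (16 * (ν + L + 4))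
    (B ^ (4 * e + 7)) (by positivity) (by positivity)
    (by have : 0 < L := by rw [hL]; positivity
        rw [hm]; positivity)
    (by rw [hm, hE]; push_cast
        rw [← pow_mul, ← hG, mul_comm G 2, pow_mul, mul_assoc (80 * (L : ℝ)), ← mul_pow]
        norm_num)
    (by
      simp only [Fintype.card_prod, Fintype.card_fin, Fintype.card_fun, Fintype.card_bool, hN]
      have h1 : L * m * G * (ν + 1) ≤ B := by
        calc L * m * G * (ν + 1) ≤ (1280 * G ^ 2 * E * μ ^ 2) * G * (3 * G * μ) := by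
              gcongr; nlinarith
          _ = 3840 * G ^ 4 * E ^ 1 * F ^ 0 * μ ^ 3 := by ring
          _ ≤ B := key _ _ _ _ _ (by norm_num) (by omega) (by omega) (by omega) (by omega)
      have h2 : L ≤ B := by
        calc L ≤ 4 * G ^ 1 * E ^ 0 * F ^ 0 * μ ^ 1 := by simpa using hLle
          _ ≤ B := key _ _ _ _ _ (by norm_num) (by omega) (by omega) (by omega) (by omega)
      have h3 : 1 ≤ B ^ (2 * g) := Nat.one_le_pow _ _ (by omega)
      calc 2 * B ^ (2 * g) + L * m * ((g + 1) * ((ν + 1) * B ^ (2 * g))) + L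
          = 2 * B ^ (2 * g) + (L * m * G * (ν + 1)) * B ^ (2 * g) + L * 1 := by rw [hG]; ring
        _ ≤ 2 * B ^ (2 * g) + B * B ^ (2 * g) + B * B ^ (2 * g) := by gcongr
        _ = (2 + 2 * B) * B ^ (2 * g) := by ring
        _ ≤ B ^ 2 * B ^ (2 * g) := by gcongr; nlinarith
        _ = _ := by ring)
    (pow_half_le _ (by norm_num) 32 (by norm_num) ν)
    (by
      have := pow_half_le (15 / 16) (by norm_num) 16 (by norm_num) (ν + L + 4)
      rw [pow_add (2 : ℝ), pow_add (2 : ℝ)] at this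
      linarith)
    (by
      have h1 : ((B ^ (4 * e + 7) : ℕ) : ℝ) / (((B ^ (e + 1)) ^ 2 : ℕ) * 2 ^ ν) = 1 / B := by
        rw [hNR, hgdef]; push_cast; field_simp; ring
      have h2 : (((B ^ (e + 1)) ^ 2 : ℕ) : ℝ) / 2 ^ ν = 1 / B ^ 4 := by
        rw [hNR, hgdef]; push_cast; field_simp; ring
      have h3 : ((B ^ (4 * e + 7) : ℕ) : ℝ) / 2 ^ L = 1 / B ^ 5 := by
        rw [hLR, hgdef]; push_cast; field_simp; ring
      have h4 : (16 * G * (B : ℝ) ^ (e + 2)) ^ (g + 1) / rho ν ^ g = F / B := by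
        rw [hrho, hF, mul_pow, ← pow_mul, ← pow_mul, ← hG]; push_cast
        field_simp
        rw [← pow_succ]; congr 1; rw [hG, hgdef]; ring
      rw [h1, h2, h3, h4]
      have h5 : 10 * (L * m * F) ≤ B := by
        calc 10 * (L * m * F) ≤ 10 * (1280 * G ^ 2 * E * μ ^ 2 * F) := by gcongr
          _ = 12800 * G ^ 2 * E ^ 1 * F ^ 1 * μ ^ 2 := by ring
          _ ≤ B := key _ _ _ _ _ (by norm_num) (by omega) (by omega) (by omega) (by omega)
      have h6 : (L : ℝ) * m * (F / B) ≤ 1 / 10 := by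
        have : (10 : ℝ) * (L * m * F) ≤ B := by exact_mod_cast h5
        rw [← mul_div_assoc, div_le_div_iff₀ hBpos (by norm_num)]; linarith
      have h7 : 1 / (B : ℝ) ≤ 1 / 100 := one_div_le_one_div_of_le (by norm_num) (by linarith)
      have h8 : ∀ a : ℕ, 1 / (B : ℝ) ^ (a + 1) ≤ 1 / 100 := fun a =>
        one_div_le_one_div_of_le (by norm_num)
          (le_trans (by linarith) (le_self_pow₀ (by linarith) (Nat.succ_ne_zero a)))
      linarith [h8 3, h8 4])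
  refine ⟨μ, hμ0, n, hn, f, ?_, ?_⟩
  · rw [hBpow, show 4 * g - 5 = 4 * e + 7 by omega]; exact hf1.le
  · rw [hBpow]
    exact (Nat.add_le_add_left hf2 1).trans (cost_le g G E μ B ν L m hG hE1 hμ1
      (fun c a b i hc ha hb hi => by simpa using key c a b i 0 hc ha hb hi (by omega))
      hνle hLle hmle)

theorem isLeast_alphaSet : IsLeast alphaSet 4 := by
  refine ⟨⟨by norm_num, 36 ^ 4, fun n hn f => ?_⟩, ?_⟩
  · have := upper hn f
    rwa [show (4 : ℝ) = ((4 : ℕ) : ℝ) by norm_num, Real.rpow_natCast]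
  · rintro α ⟨hα0, C, hC⟩
    by_contra hlt
    have hlt : 0 < 4 - α := by linarith [not_le.1 hlt]
    obtain ⟨g0, hg0⟩ := exists_nat_ge ((8 * α + 6) / (4 - α))
    obtain ⟨μ0, hμ0⟩ := exists_nat_gt C
    obtain ⟨μ, hμ, n, hn, f, h1, h2⟩ := family (g0 + 3) (by omega) μ0
    rw [div_le_iff₀ hlt] at hg0
    have h3 : (2 : ℝ) ^ ((4 * g0 + 7) * μ) ≤ R f := by
      rw [show 4 * (g0 + 3) - 5 = 4 * g0 + 7 by omega] at h1; exact_mod_cast h1
    have h4 : 1 + (Q f : ℝ) ≤ 2 ^ ((g0 + 3 + 8) * μ) := by exact_mod_cast h2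
    have h5 := hC n hn f
    have h6 : (1 + (Q f : ℝ)) ^ α ≤ 2 ^ ((4 * g0 + 6) * μ) := by
      refine (Real.rpow_le_rpow (by positivity) h4 hα0).trans ?_
      rw [← Real.rpow_natCast, ← Real.rpow_natCast, ← Real.rpow_mul (by norm_num)]
      refine Real.rpow_le_rpow_of_exponent_le (by norm_num) ?_
      push_cast
      have : (0 : ℝ) ≤ μ := Nat.cast_nonneg _
      have h7 : ((g0 : ℝ) + 3 + 8) * α ≤ 4 * g0 + 6 + 12 - 12 + (3 * α - 12) := by nlinarith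
      nlinarith
    have h7 : C < 2 ^ μ := by
      have : (μ : ℝ) < 2 ^ μ := by exact_mod_cast Nat.lt_two_pow_self
      have : (μ0 : ℝ) ≤ μ := by exact_mod_cast hμ
      linarith
    have h8 : 0 < (1 + (Q f : ℝ)) ^ α := Real.rpow_pos_of_pos (by positivity) _
    have h9 : C * (1 + (Q f : ℝ)) ^ α < 2 ^ μ * 2 ^ ((4 * g0 + 6) * μ) :=
      lt_of_lt_of_le (mul_lt_mul_of_pos_right h7 h8) (by gcongr)
    rw [← pow_add, show μ + (4 * g0 + 6) * μ = (4 * g0 + 7) * μ by ring] at h9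
    linarith

theorem alphaTot_eq : alphaTot = 4 := isLeast_alphaSet.csInf_eq

end Vale.Agent.P362
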