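import Vale.Agent.P362.QMain
import Vale.Agent.P362.CLow
import Vale.Agent.P362.ToQ

/-! The separating function built from a gadget. -/

namespace Vale.Agent.P362

open Finset

open Classical in
theorem cheb_union {α : Type} [Fintype α] {L m : ℕ} {δ : ℝ} (hδ : 0 < δ) (hm0 : 0 < m)
    (hm : 80 * (L : ℝ) ≤ m * δ ^ 2) {p : Fin L × Fin m → α → ℝ} (hp : ∀ c, IsD (p c))
    (Y : Fin L × Fin m → α → ℝ) (hY : ∀ c a, |Y c a| ≤ 1) (A : ℝ)
    (hA : ∀ r, A + m * δ / 2 ≤ ∑ c', ∑ a, p (r, c') a * Y (r, c') a) :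
    ∑ v : Fin L × Fin m → α,
      (if ∀ r, A < ∑ c', Y (r, c') (v (r, c')) then 0 else ∏ c, p c (v c)) ≤ 1 / 20 := by
  have hm0' : (0 : ℝ) < m := by exact_mod_cast hm0
  have hW : ∀ v : Fin L × Fin m → α, 0 ≤ ∏ c, p c (v c) := (IsD.pi hp).1
  have h1 : ∀ r : Fin L, ∑ v : Fin L × Fin m → α,
      (if ∑ c', Y (r, c') (v (r, c')) ≤ A then ∏ c, p c (v c) else 0) ≤ 4 / (m * δ ^ 2) := by
    intro r
    have := pi_cheb hp (fun c a => if c.1 = r then Y c a else 0)
      (fun c => if c.1 = r then 1 else 0) (fun c a => by split_ifs <;> simp [hY]) A (m * δ / 2)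
      (by positivity) (by
        refine (hA r).trans (le_of_eq ?_)
        rw [Fintype.sum_prod_type, sum_eq_single r]
        · simp
        · intro r' _ h; simp [h]
        · simp)
    have e1 : ∀ v : Fin L × Fin m → α,
        ∑ c : Fin L × Fin m, (if c.1 = r then Y c (v c) else 0) = ∑ c', Y (r, c') (v (r, c')) := by
      intro v
      rw [Fintype.sum_prod_type, sum_eq_single r]
      · simp
      · intro r' _ h; simp [h]
      · simp
    have e2 : ∑ c : Fin L × Fin m, (if c.1 = r then (1 : ℝ) else 0) ^ 2 = m := by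
      rw [Fintype.sum_prod_type, sum_eq_single r]
      · simp
      · intro r' _ h; simp [h]
      · simp
    simp only [e1, e2] at this
    refine this.trans (le_of_eq ?_)
    field_simp; ring
  calc _ ≤ ∑ v : Fin L × Fin m → α, ∑ r : Fin L,
        (if ∑ c', Y (r, c') (v (r, c')) ≤ A then ∏ c, p c (v c) else 0) := by
        refine sum_le_sum fun v _ => ?_
        split_ifs with h
        · exact sum_nonneg fun r _ => by split_ifs <;> simp [hW]
        · push Not at h
          obtain ⟨r, hr⟩ := h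
          refine le_trans (le_of_eq ?_) (single_le_sum (f := fun r : Fin L =>
            if ∑ c', Y (r, c') (v (r, c')) ≤ A then ∏ c, p c (v c) else 0)
            (fun r _ => by split_ifs <;> simp [hW]) (mem_univ r))
          simp only [if_pos hr]
    _ ≤ ∑ _r : Fin L, 4 / (m * δ ^ 2) := by rw [sum_comm]; exact sum_le_sum fun r _ => h1 r
    _ ≤ 1 / 20 := by
        simp only [sum_const, card_univ, Fintype.card_fin, nsmul_eq_mul]
        rw [mul_div_assoc', div_le_div_iff₀ (by positivity) (by norm_num)]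
        linarith

/-- Input bits: instances, kill marks, tables. -/
abbrev Ix (w L m : ℕ) (I Tr : Type) : Type :=
  ((Fin w → Bool) × ((Fin L × Fin m) × I)) ⊕ ((Fin w → Bool) × (Fin w → Bool)) ⊕
    ((Fin w → Bool) × (Fin L → Bool) × (((Fin w → Bool) × Fin w) ⊕ ((Fin L × Fin m) × Tr)))

section

variable {I Tr G : Type} [Fintype I] [DecidableEq I] {T d h : ℕ} {δ ε : ℝ} {w L m : ℕ}

def instIdx (a : (Fin w → Bool) × (Fin L → Bool)) (c : Fin L × Fin m) : I ⊕ Tr → Ix w L m I Tr :=
  Sum.elim (fun i => Sum.inl (a.1, c, i)) fun τ => Sum.inr (Sum.inr (a.1, a.2, Sum.inr (c, τ)))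

def kilF (x : Ix w L m I Tr → Bool) (a : (Fin w → Bool) × (Fin L → Bool)) (i : Fin w → Bool) :
    Bool :=
  x (Sum.inr (Sum.inl (i, fun t => x (Sum.inr (Sum.inr (a.1, a.2, Sum.inl (i, t)))))))

open Classical in
noncomputable def chkF (Γ : Gad I Tr G T d h δ ε) (x : Ix w L m I Tr → Bool)
    (a : (Fin w → Bool) × (Fin L → Bool)) :
    (Fin w → Bool) ⊕ (Fin w → Bool) ⊕ ((Fin L × Fin m) × G) ⊕ Fin L → Bool :=
  Sum.elim (fun q => !x (Sum.inr (Sum.inl (a.1, q)))) (Sum.elim
    (fun i => decide (i = a.1) || kilF x a i) (Sum.elim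
      (fun cg => Γ.chk (fun y => x (instIdx a cg.1 y)) cg.2)
      fun r => decide (m * δ / 2 ≤ ∑ c', sg (a.2 r) * Γ.val fun y => x (instIdx a (r, c') y))))

open Classical in
noncomputable def fF (Γ : Gad I Tr G T d h δ ε) (x : Ix w L m I Tr → Bool) : Bool :=
  decide (∃ a, ∀ c, chkF Γ x a c = true)

open Classical in
noncomputable def decF (Γ : Gad I Tr G T d h δ ε) (j : Fin w → Bool) (x : Ix w L m I Tr → Bool)
    (s : Fin L → Bool) : ℝ :=
  ∑ v : Fin L × Fin m → Bool, if (fun r => decide (∑ c', sg (v (r, c')) < 0)) = s then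
    ∏ c, (1 + sg (v c) * Γ.Φ fun i => x (Sum.inl (j, c, i))) / 2 else 0

omit [Fintype I] [DecidableEq I] in
theorem kilF_dep (a : (Fin w → Bool) × (Fin L → Bool)) (i : Fin w → Bool) :
    Dep (fun x : Ix w L m I Tr → Bool => kilF x a i) (w + 1) := by
  have := (Dep.piFin (g := fun (t : Fin w) (x : Ix w L m I Tr → Bool) =>
    x (Sum.inr (Sum.inr (a.1, a.2, Sum.inl (i, t))))) fun t => Dep.var _).bind
    (h := fun p x => x (Sum.inr (Sum.inl (i, p)))) fun p => Dep.var _
  rw [Nat.mul_one] at this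
  exact this

theorem chkF_dep (Γ : Gad I Tr G T d h δ ε) (a : (Fin w → Bool) × (Fin L → Bool)) (c) :
    Dep (fun x : Ix w L m I Tr → Bool => chkF Γ x a c) (w + 1 + (m + 1) * d) := by
  classical
  rcases c with q | i | cg | r
  · exact ((Dep.var _).map fun b => !b).mono (by omega)
  · exact ((kilF_dep a i).map fun b => decide (i = a.1) || b).mono (by omega)
  · exact ((Γ.chkDep cg.2).comp _ fun y => Dep.var _).mono (by nlinarith)
  · exact ((Dep.piFin (g := fun (c' : Fin m) (x : Ix w L m I Tr → Bool) =>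
      Γ.val fun y => x (instIdx a (r, c') y)) fun c' => Γ.valDep.comp _ fun y => Dep.var _).map
      fun v => decide (m * δ / 2 ≤ ∑ c', sg (a.2 r) * v c')).mono (by nlinarith)

theorem decF_sim (Γ : Gad I Tr G T d h δ ε) (j : Fin w → Bool) :
    QSim (L * m * T) (decF (L := L) (m := m) Γ j) := by
  classical
  have := (QSim.pi fun c : Fin L × Fin m =>
    Γ.sim.comp fun i => (Sum.inl (j, c, i) : Ix w L m I Tr)).map
    fun v (r : Fin L) => decide (∑ c', sg (v (r, c')) < 0)
  rw [Fintype.card_prod, Fintype.card_fin, Fintype.card_fin] at this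
  exact this

theorem Gad.abs_le (Γ : Gad I Tr G T d h δ ε) (z : I → Bool) : |Γ.Φ z| ≤ 1 := by
  have h1 := (Γ.sim.isD z).1 true
  have h2 := (Γ.sim.isD z).1 false
  simp only [sg_true, sg_false] at h1 h2
  rw [_root_.abs_le]; constructor <;> linarith

theorem decF_ge (Γ : Gad I Tr G T d h δ ε) (hδ : 0 < δ) (hm0 : 0 < m)
    (hm : 80 * (L : ℝ) ≤ m * δ ^ 2) (x : Ix w L m I Tr → Bool) (j : Fin w → Bool)
    (s : Fin L → Bool) (hc : ∀ c, chkF Γ x (j, s) c = true) : 3 / 4 ≤ decF Γ j x s := by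
  classical
  have hp : ∀ c : Fin L × Fin m,
      IsD fun b => (1 + sg b * Γ.Φ fun i => x (Sum.inl (j, c, i))) / 2 := fun c => Γ.sim.isD _
  have key := cheb_union hδ hm0 hm hp (fun c b => sg (s c.1) * sg b)
    (fun c b => by rw [abs_mul, abs_sg, abs_sg]; norm_num) 0 (fun r => by
      have h1 := hc (Sum.inr (Sum.inr (Sum.inr r)))
      simp only [chkF, Sum.elim_inr, decide_eq_true_eq] at h1
      rw [zero_add]
      refine h1.trans (le_of_eq (sum_congr rfl fun c' _ => ?_))
      rw [Γ.sound (fun y => x (instIdx (j, s) (r, c') y))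
        fun g => hc (Sum.inr (Sum.inr (Sum.inl ((r, c'), g))))]
      simp only [Fintype.sum_bool, sg_true, sg_false, instIdx, Sum.elim_inl]
      ring)
  have hW := IsD.pi hp
  have : 1 - 1 / 20 ≤ decF Γ j x s := by
    refine le_trans (sub_le_sub_left key _) ?_
    refine le_trans (sub_le_sub_right hW.2.ge _) ?_
    rw [decF, ← sum_sub_distrib]
    refine sum_le_sum fun v _ => ?_
    by_cases hv : ∀ r, 0 < ∑ c', sg (s r) * sg (v (r, c'))
    · rw [if_pos hv, if_pos, sub_zero]
      funext r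
      have := hv r
      rw [← mul_sum] at this
      cases hs : s r <;> rw [hs] at this <;> simp only [sg_true, sg_false] at this
      · simp only [decide_eq_false_iff_not, not_lt]; linarith
      · simp only [decide_eq_true_eq]; linarith
    · rw [if_neg hv, sub_self]
      split_ifs
      · exact hW.1 v
      · exact le_rfl
  linarith

theorem fF_low (Γ : Gad I Tr G T d h δ ε) (Dq : ℕ) (hh : 0 < h) (hδ : 0 < δ) (hm0 : 0 < m)
    (hm : 80 * (L : ℝ) ≤ m * δ ^ 2)
    (hpar : (Dq : ℝ) / (h * 2 ^ w) + h / 2 ^ w + Dq / 2 ^ L + L * m * ε ≤ 1 / 5) :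
    ¬ RandAlg (fF (w := w) (L := L) (m := m) Γ) Dq := by
  classical
  have hε : 0 ≤ ε := by simpa using Γ.ind (fun _ => 0) (Dep.const 0 h) (by simp)
  have hcur : ∀ g : ((Fin L × Fin m) × I → Bool) → ℝ,
      ∑ z, g z = ∑ v : Fin L × Fin m → I → Bool, g fun a => v a.1 a.2 := fun g =>
    ((Equiv.curry (Fin L × Fin m) I Bool).symm.sum_comp g).symm
  refine clow (fF Γ) (fun s z => ∏ c : Fin L × Fin m, Γ.π (s c.1) fun i => z (c, i))
    (fun s z => ∀ r, m * δ / 2 ≤ ∑ c', sg (s r) * Γ.Φ fun i => z ((r, c'), i)) h Dq (L * m * ε) hh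
    (fun s => ?_) (fun F hF hF1 s s' => ?_) (fun s => ?_) (fun x hx => ?_) (fun j s zs p hv => ?_)
    (by simpa using hpar)
  · have := IsD.pi fun c : Fin L × Fin m => Γ.isD (s c.1)
    refine ⟨fun z => this.1 _, ?_⟩
    rw [hcur]; exact this.2
  · rw [hcur, hcur]
    have := pi_hybrid (fun c : Fin L × Fin m => Γ.isD (s c.1)) (fun c => Γ.isD (s' c.1))
      (fun v => F fun a => v a.1 a.2) ε fun c v => by
        have hd : Dep (fun u : I → Bool => F fun a => Function.update v c u a.1 a.2) h := by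
          refine hF.comp _ fun a => ?_
          by_cases e : a.1 = c
          · simp only [e, Function.update_self]; exact Dep.var _
          · simp only [Function.update_of_ne e]; exact Dep.const _ _
        have h1 := Γ.ind _ hd fun u => hF1 _
        cases s c.1 <;> cases s' c.1
        · simpa using hε
        · exact h1
        · rw [abs_sub_comm]; exact h1
        · simpa using hε
    simpa using this
  · rw [hcur]
    have key := cheb_union hδ hm0 hm (fun c : Fin L × Fin m => Γ.isD (s c.1))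
      (fun c u => sg (s c.1) * Γ.Φ u)
      (fun c u => by rw [abs_mul, abs_sg, one_mul]; exact Γ.abs_le u) (m * δ / 2) (fun r => by
        have := sum_le_sum fun (c' : Fin m) (_ : c' ∈ univ) => Γ.mean (s r)
        simp only [sum_const, card_univ, Fintype.card_fin, nsmul_eq_mul] at this ⊢
        linarith)
    refine le_trans (sum_le_sum fun v _ => ?_) key
    by_cases hv : ∀ r, m * δ / 2 < ∑ c', sg (s r) * Γ.Φ (v (r, c'))
    · rw [if_pos hv, if_pos fun r => (hv r).le]
    · rw [if_neg hv]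
      split_ifs
      · exact (IsD.pi fun c : Fin L × Fin m => Γ.isD (s c.1)).1 v
      · exact le_rfl
  · simp only [fF, decide_eq_false_iff_not]
    rintro ⟨a, ha⟩
    obtain ⟨q, hq⟩ := hx a.1
    have := ha (Sum.inl q)
    simp [chkF, hq] at this
  · choose tr htr using Γ.complete
    refine ⟨Sum.elim (fun it => p it.1 it.2) fun cτ => tr (fun i => zs j (cτ.1, i)) cτ.2, ?_⟩
    simp only [fF, decide_eq_true_eq]
    refine ⟨(j, s), fun c => ?_⟩
    have hin : ∀ c : Fin L × Fin m, (fun y => (Sum.elim (fun a => zs a.1 a.2) (Sum.elim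
        (fun a => decide (a.1 ≠ j ∧ a.2 = p a.1))
        (fun a => decide (a.1 = j ∧ a.2.1 = s) && Sum.elim (fun it => p it.1 it.2)
          (fun cτ => tr (fun i => zs j (cτ.1, i)) cτ.2) a.2.2)) : Ix w L m I Tr → Bool)
        (instIdx (j, s) c y)) = Sum.elim (fun i => zs j (c, i)) (tr fun i => zs j (c, i)) := by
      intro c; funext y
      rcases y with i | τ <;> simp [instIdx]
    rcases c with q | i | cg | r
    · simp [chkF]
    · by_cases e : i = j
      · simp [chkF, e]
      · simp [chkF, kilF, e]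
    · simp only [chkF, Sum.elim_inr, Sum.elim_inl, hin, htr]
    · simp only [chkF, Sum.elim_inr, hin, decide_eq_true_eq]
      refine (hv r).trans (le_of_eq (sum_congr rfl fun c' _ => ?_))
      rw [Γ.sound _ (htr _)]
      rfl

end

theorem main_abs {I Tr G : Type} [Fintype I] [DecidableEq I] [Fintype Tr] [DecidableEq Tr]
    [Fintype G] [DecidableEq G] {T d h : ℕ} {δ ε : ℝ} (Γ : Gad I Tr G T d h δ ε)
    (w L m M R' r Dq : ℕ) (hh : 0 < h) (hδ : 0 < δ) (hm0 : 0 < m) (hm : 80 * (L : ℝ) ≤ m * δ ^ 2)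
    (hM : 2 * 2 ^ w + L * m * Fintype.card G + L ≤ M ^ 2)
    (hR : (31 / 32 : ℝ) ^ R' * 2 ^ w ≤ 1)
    (hr : (2 : ℝ) ^ w * 2 ^ L * (15 / 16) ^ r ≤ 1 / 16)
    (hpar : (Dq : ℝ) / (h * 2 ^ w) + h / 2 ^ w + Dq / 2 ^ L + L * m * ε ≤ 1 / 5) :
    ∃ n : ℕ, 1 ≤ n ∧ ∃ f : (Fin n → Bool) → Bool, Dq < R f ∧
      Q f ≤ 704 * ((2 * M + 1) * ((R' + 1) * (L * m * T + (r + 1) * ((R' + 1) *
        (w + 1 + (m + 1) * d))) + 60 * (w + 1 + (m + 1) * d))) := by
  classical
  have hlow := fF_low (w := w) Γ Dq hh hδ hm0 hm hpar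
  obtain ⟨P, hP, hP2⟩ := qmain (fF (w := w) (L := L) (m := m) Γ) kilF (chkF Γ) (decF Γ)
    (w + 1 + (m + 1) * d) (L * m * T) M R' r (fun x => by simp only [fF, decide_eq_true_eq])
    (fun a i => (kilF_dep a i).mono (by omega)) (chkF_dep Γ) (decF_sim Γ)
    (fun x j s hc => ⟨fun a => by
      have := hc (Sum.inl fun t => x (Sum.inr (Sum.inr (a.1, a.2, Sum.inl (j, t)))))
      simpa [chkF, kilF] using this, fun i hi => by
      have := hc (Sum.inr (Sum.inl i))
      simpa [chkF, hi] using this, decF_ge Γ hδ hm0 hm x j s hc⟩)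
    (by simp only [Fintype.card_fun, Fintype.card_bool, Fintype.card_fin]; omega)
    (by simp only [Fintype.card_sum, Fintype.card_prod, Fintype.card_fun, Fintype.card_bool,
          Fintype.card_fin]; omega)
    (by simpa using hR) (by simpa using hr)
  have e := Fintype.equivFin (Ix w L m I Tr)
  have hn : 0 < Fintype.card (Ix w L m I Tr) :=
    Fintype.card_pos_iff.2 ⟨Sum.inr (Sum.inl (fun _ => false, fun _ => false))⟩
  refine ⟨_, hn, fun x => fF Γ fun i => x (e i), ?_, ?_⟩
  · by_contra hle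
    have h1 : RandAlg (fun x : Fin _ → Bool => fF Γ fun i => x (e i))
        (R fun x => fF Γ fun i => x (e i)) :=
      Nat.sInf_mem (s := {d | RandAlg _ d}) ⟨_, (Dep.all _).randAlg⟩
    have h2 := (h1.mono (not_lt.1 hle)).comp e.symm
    simp only [Equiv.symm_apply_apply] at h2
    exact hlow h2
  · exact Nat.sInf_le (toQAlg hn (hP.comp e) fun x => hP2 _)

end Vale.Agent.P362
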