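import Vale.Agent.P362.Dep

/-! Level inequality for decision trees. -/

namespace Vale.Agent.P362

open Finset

variable {I : Type} [Fintype I] [DecidableEq I]

/-- The weight of one coordinate. -/
noncomputable def lvW (S : Finset I) (z : I → ℝ) (i : I) (b : Bool) : ℝ :=
  if i ∈ S then sg b / 2 else (1 + sg b * z i) / 2

theorem lv_pd (F : (I → Bool) → ℝ) (S : Finset I) (z : I → ℝ) :
    pd F S z = ∑ σ : I → Bool, F σ * ∏ i, lvW S z i (σ i) := rfl

theorem lv_prod_erase (S : Finset I) (z : I → ℝ) (i : I) (σ : I → Bool) :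
    ∏ j, lvW S z j (σ j) = lvW S z i (σ i) * ∏ j ∈ univ.erase i, lvW S z j (σ j) :=
  (mul_prod_erase univ (fun j => lvW S z j (σ j)) (mem_univ i)).symm

theorem lv_prod_insert (S : Finset I) (z : I → ℝ) (i : I) (σ : I → Bool) :
    ∏ j, lvW (insert i S) z j (σ j) = sg (σ i) / 2 * ∏ j ∈ univ.erase i, lvW S z j (σ j) := by
  rw [lv_prod_erase _ z i]
  have h1 : lvW (insert i S) z i (σ i) = sg (σ i) / 2 := by simp [lvW]
  rw [h1]
  refine congrArg _ (prod_congr rfl fun j hj => ?_)
  simp [lvW, ne_of_mem_erase hj]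

theorem pd_hasDerivAt (F : (I → Bool) → ℝ) (S : Finset I) (z : ℝ → I → ℝ) (z' : I → ℝ) (t : ℝ)
    (hz : ∀ i, HasDerivAt (fun s => z s i) (z' i) t) :
    HasDerivAt (fun s => pd F S (z s)) (∑ i ∈ Sᶜ, z' i * pd F (insert i S) (z t)) t := by
  have h1 : ∀ (i : I) (b : Bool), HasDerivAt (fun s => lvW S (z s) i b)
      (if i ∈ S then 0 else sg b * z' i / 2) t := by
    intro i b
    by_cases hi : i ∈ S
    · simp only [lvW, hi, if_true]
      exact hasDerivAt_const t _
    · simp only [lvW, hi, if_false]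
      exact (((hz i).const_mul (sg b)).const_add 1).div_const 2
  have h2 : ∀ σ : I → Bool, HasDerivAt (fun s => F σ * ∏ i, lvW S (z s) i (σ i))
      (∑ i ∈ Sᶜ, z' i * (F σ * ∏ j, lvW (insert i S) (z t) j (σ j))) t := by
    intro σ
    have h3 := (HasDerivAt.fun_finsetProd (u := univ) fun i _ => h1 i (σ i)).const_mul (F σ)
    refine h3.congr_deriv ?_
    rw [mul_sum, ← sum_add_sum_compl S, sum_eq_zero, zero_add]
    · refine sum_congr rfl fun i hi => ?_
      rw [if_neg (mem_compl.1 hi), lv_prod_insert, smul_eq_mul]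
      ring
    · intro i hi
      rw [if_pos hi, smul_zero, mul_zero]
  have h4 := HasDerivAt.fun_sum (u := univ) fun σ _ => h2 σ
  refine h4.congr_deriv ?_
  rw [sum_comm]
  exact sum_congr rfl fun i _ => by rw [lv_pd, mul_sum]

theorem lv_prod_add (f g : I → ℝ) :
    ∏ i, (f i + g i) = ∑ B : Finset I, ∏ i, if i ∈ B then f i else g i := by
  rw [prod_add, powerset_univ]
  refine sum_congr rfl fun B _ => ?_
  rw [prod_ite, filter_mem_eq_inter, univ_inter, filter_notMem_eq_sdiff]

/-- Taylor coefficients. -/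
noncomputable def lvC (S : Finset I) (e : I → ℝ) (B : Finset I) : ℝ :=
  ∏ i, if i ∈ B then (if i ∈ S then 1 else e i) else (if i ∈ S then 0 else 1)

theorem lv_taylor (F : (I → Bool) → ℝ) (S : Finset I) (z zz : I → ℝ) :
    pd F S zz = ∑ B : Finset I, lvC S (fun i => zz i - z i) B * pd F B z := by
  have h : ∀ σ : I → Bool, ∏ i, lvW S zz i (σ i)
      = ∑ B : Finset I, lvC S (fun i => zz i - z i) B * ∏ i, lvW B z i (σ i) := by
    intro σ
    have e : ∀ i, lvW S zz i (σ i) = (if i ∈ S then 1 else zz i - z i) * (sg (σ i) / 2) +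
        (if i ∈ S then 0 else 1) * ((1 + sg (σ i) * z i) / 2) := by
      intro i
      unfold lvW
      split_ifs <;> ring
    simp only [e]
    rw [lv_prod_add]
    refine sum_congr rfl fun B _ => ?_
    rw [lvC, ← prod_mul_distrib]
    refine prod_congr rfl fun i _ => ?_
    unfold lvW
    by_cases hi : i ∈ B <;> simp only [hi, if_true, if_false]
  simp only [lv_pd, h, mul_sum]
  rw [sum_comm]
  exact sum_congr rfl fun B _ => sum_congr rfl fun σ _ => by ring

theorem lvC_le (S : Finset I) (e : I → ℝ) (δ : ℝ) (he : ∀ i, i ∉ S → |e i| ≤ δ)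
    (B : Finset I) : |lvC S e B| ≤ if S ⊆ B then δ ^ (B.card - S.card) else 0 := by
  split_ifs with h
  · rw [lvC, abs_prod, ← card_sdiff_of_subset h, ← prod_const, ← univ_inter (B \ S),
      ← prod_ite_mem]
    refine prod_le_prod (fun i _ => abs_nonneg _) fun i _ => ?_
    by_cases h1 : i ∈ B <;> by_cases h2 : i ∈ S
    · simp [h1, h2]
    · simpa [h1, h2] using he i h2
    · exact absurd (h h2) h1
    · simp [h1, h2]
  · obtain ⟨i, h2, h1⟩ := not_subset.1 h
    rw [lvC, prod_eq_zero (mem_univ i) (by simp [h1, h2]), abs_zero]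

theorem lv_resample (i : I) (F r : (I → Bool) → ℝ) (hr : ∀ σ b, r (Function.update σ i b) = r σ)
    (u p : Bool → ℝ) (hp : ∑ b, p b = 1) :
    ∑ σ : I → Bool, F σ * (u (σ i) * r σ)
      = ∑ b, u b * ∑ σ : I → Bool, F (Function.update σ i b) * (p (σ i) * r σ) := by
  have hinv : Function.Involutive
      (fun x : (I → Bool) × Bool => (Function.update x.1 i x.2, x.1 i)) := by
    rintro ⟨σ, b⟩
    simp
  have h1 := Equiv.sum_comp hinv.toPerm
    (fun x : (I → Bool) × Bool => p x.2 * (F x.1 * (u (x.1 i) * r x.1)))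
  rw [Fintype.sum_prod_type, Fintype.sum_prod_type] at h1
  simp only [← sum_mul, hp, one_mul, Function.Involutive.coe_toPerm, Function.update_self,
    hr] at h1
  rw [← h1, sum_comm]
  refine sum_congr rfl fun b _ => ?_
  rw [mul_sum]
  exact sum_congr rfl fun σ _ => by ring

theorem lv_node (F : (I → Bool) → ℝ) (z : I → ℝ) (i : I) (A : Finset I) (hA : i ∉ A) :
    pd F A z = ∑ b, (1 + sg b * z i) / 2 * pd (fun σ => F (Function.update σ i b)) A z ∧
    pd F (insert i A) z = ∑ b, sg b / 2 * pd (fun σ => F (Function.update σ i b)) A z := by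
  have hr : ∀ (σ : I → Bool) (b : Bool),
      ∏ j ∈ univ.erase i, lvW A z j (Function.update σ i b j)
        = ∏ j ∈ univ.erase i, lvW A z j (σ j) := fun σ b =>
    prod_congr rfl fun j hj => by rw [Function.update_of_ne (ne_of_mem_erase hj)]
  have hp : ∑ b : Bool, (1 + sg b * z i) / 2 = 1 := by
    rw [Fintype.sum_bool, sg_true, sg_false]
    ring
  have e : ∀ σ : I → Bool, ∏ j, lvW A z j (σ j)
      = (1 + sg (σ i) * z i) / 2 * ∏ j ∈ univ.erase i, lvW A z j (σ j) := fun σ => by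
    rw [lv_prod_erase A z i, lvW, if_neg hA]
  constructor
  · simp only [lv_pd, e]
    exact lv_resample i F _ hr (fun b => (1 + sg b * z i) / 2) _ hp
  · simp only [lv_pd, lv_prod_insert, e]
    exact lv_resample i F _ hr (fun b => sg b / 2) _ hp

theorem lv_split (i : I) (f : Finset I → ℝ) :
    ∑ B, f B = ∑ A ∈ (univ.erase i).powerset, (f A + f (insert i A)) := by
  rw [sum_add_distrib, ← sum_powerset_insert (notMem_erase i univ), insert_erase (mem_univ i),
    powerset_univ]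

theorem lv_const (a : ℝ) (B : Finset I) (z : I → ℝ) :
    pd (fun _ => a) B z = if B = ∅ then a else 0 := by
  have h : ∑ σ : I → Bool, ∏ i, lvW B z i (σ i) = ∏ i, ∑ b, lvW B z i b := by
    rw [prod_univ_sum, Fintype.piFinset_univ]
  rw [lv_pd, ← mul_sum, h]
  split_ifs with hB
  · rw [prod_eq_one, mul_one]
    intro i _
    simp only [Fintype.sum_bool, lvW, hB, notMem_empty, if_false, sg_true, sg_false]
    ring
  · obtain ⟨i, hi⟩ := nonempty_iff_ne_empty.2 hB
    rw [prod_eq_zero (mem_univ i), mul_zero]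
    simp only [Fintype.sum_bool, lvW, hi, if_true, sg_true, sg_false]
    ring

theorem lv_pow_le (q : ℕ) (a s : ℝ) (hs : 1 ≤ s) (hq : 1 ≤ q) (ha : |a| * (q * s) ≤ 1) :
    |1 + a| ^ q ≤ 1 + q * a + 1 / s ^ 2 := by
  have hq1 : (1 : ℝ) ≤ q := by exact_mod_cast hq
  have h0 := abs_nonneg a
  have h1 : |q * a| * s ≤ 1 := by
    rw [abs_mul, abs_of_nonneg (by linarith : (0 : ℝ) ≤ q)]
    linarith
  have h2 : |q * a| ≤ 1 := by nlinarith [abs_nonneg (q * a)]
  have h3 : |a| ≤ 1 := by nlinarith [mul_le_mul hq1 hs zero_le_one (by linarith : (0 : ℝ) ≤ q)]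
  have h4 : 0 ≤ 1 + a := by linarith [neg_abs_le a]
  have h5 : (q * a) ^ 2 ≤ 1 / s ^ 2 := by
    rw [le_div_iff₀ (by positivity), ← sq_abs (q * a), ← mul_pow]
    exact pow_le_one₀ (by positivity) h1
  have h6 := (abs_le.1 (Real.abs_exp_sub_one_sub_id_le h2)).2
  calc |1 + a| ^ q ≤ Real.exp a ^ q := by
        rw [abs_of_nonneg h4]
        exact pow_le_pow_left₀ h4 (by linarith [Real.add_one_le_exp a]) q
    _ = Real.exp (q * a) := (Real.exp_nat_mul a q).symm
    _ ≤ _ := by linarith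

theorem lv_key (q : ℕ) (s X Y : ℝ) (hs : 1 ≤ s) (hq : 1 ≤ q) (P χ : Bool → ℝ) (hP : ∀ b, 0 ≤ P b)
    (hP1 : ∑ b, P b = 1) (hχ0 : ∑ b, P b * χ b = 0) (hχ : ∀ b, |χ b| ≤ 2) :
    ∑ b, P b * |X + χ b * Y| ^ q ≤ (1 + 1 / s ^ 2) * |X| ^ q + (4 * q * s) ^ q * |Y| ^ q := by
  have hq1 : (1 : ℝ) ≤ q := by exact_mod_cast hq
  have hqs : (1 : ℝ) ≤ q * s := one_le_mul_of_one_le_of_one_le hq1 hs
  have hY := abs_nonneg Y
  by_cases h : 2 * (q * s) * |Y| < |X|
  · have hX : 0 < |X| := lt_of_le_of_lt (by positivity) h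
    have hX0 : X ≠ 0 := abs_pos.1 hX
    have h1 : ∀ b, |X + χ b * Y| ^ q ≤ (1 + q * (χ b * (Y / X)) + 1 / s ^ 2) * |X| ^ q := by
      intro b
      have e : X + χ b * Y = (1 + χ b * (Y / X)) * X := by field_simp
      rw [e, abs_mul, mul_pow]
      refine mul_le_mul_of_nonneg_right (lv_pow_le q _ s hs hq ?_) (by positivity)
      rw [abs_mul, abs_div, mul_div_assoc', div_mul_eq_mul_div, div_le_one hX]
      have : |χ b| * |Y| * (q * s) ≤ 2 * |Y| * (q * s) :=
        mul_le_mul_of_nonneg_right (mul_le_mul_of_nonneg_right (hχ b) hY) (by linarith)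
      linarith
    calc ∑ b, P b * |X + χ b * Y| ^ q
        ≤ ∑ b, P b * ((1 + q * (χ b * (Y / X)) + 1 / s ^ 2) * |X| ^ q) :=
          sum_le_sum fun b _ => mul_le_mul_of_nonneg_left (h1 b) (hP b)
      _ = ((∑ b, P b) * (1 + 1 / s ^ 2) + (∑ b, P b * χ b) * (q * (Y / X))) * |X| ^ q := by
          simp only [Fintype.sum_bool]
          ring
      _ = (1 + 1 / s ^ 2) * |X| ^ q := by rw [hP1, hχ0, one_mul, zero_mul, add_zero]
      _ ≤ _ := le_add_of_nonneg_right (by positivity)
  · have h1 : ∀ b, |X + χ b * Y| ^ q ≤ (4 * q * s) ^ q * |Y| ^ q := by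
      intro b
      rw [← mul_pow]
      refine pow_le_pow_left₀ (abs_nonneg _) ((abs_add_le _ _).trans ?_) q
      rw [abs_mul]
      have := mul_le_mul_of_nonneg_right (hχ b) hY
      nlinarith [mul_le_mul_of_nonneg_right hqs hY]
    calc ∑ b, P b * |X + χ b * Y| ^ q ≤ ∑ b, P b * ((4 * q * s) ^ q * |Y| ^ q) :=
          sum_le_sum fun b _ => mul_le_mul_of_nonneg_left (h1 b) (hP b)
      _ = (4 * q * s) ^ q * |Y| ^ q := by rw [← sum_mul, hP1, one_mul]
      _ ≤ _ := le_add_of_nonneg_left (by positivity)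

theorem lv_convex (q : ℕ) (P X : Bool → ℝ) (hP : ∀ b, 0 ≤ P b) (hP1 : ∑ b, P b = 1) :
    |∑ b, P b * X b| ^ q ≤ ∑ b, P b * |X b| ^ q := by
  refine le_trans (pow_le_pow_left₀ (abs_nonneg _) ?_ q)
    (Real.pow_arith_mean_le_arith_mean_pow univ P (fun b => |X b|) (fun b _ => hP b) hP1
      (fun b _ => abs_nonneg _) q)
  refine (abs_sum_le_sum_abs _ _).trans (sum_le_sum fun b _ => ?_)
  rw [abs_mul, abs_of_nonneg (hP b)]

theorem lv_pot (q : ℕ) (s : ℝ) (hs : 1 ≤ s) (hq : 1 ≤ q) (z : I → ℝ) (hz : ∀ i, |z i| ≤ 1 / 2)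
    (d : ℕ) : ∀ F : (I → Bool) → ℝ, Dep F d → (∀ σ, |F σ| ≤ 1) → ∀ c : Finset I → ℝ,
      |∑ B, c B * pd F B z| ^ q
        ≤ (1 + 1 / s ^ 2) ^ d * ∑ B : Finset I, ((4 * q * s) ^ q) ^ B.card * |c B| ^ q := by
  have hD : (0 : ℝ) ≤ (4 * q * s) ^ q := by positivity
  have hγ : (1 : ℝ) ≤ 1 + 1 / s ^ 2 := le_add_of_nonneg_right (by positivity)
  have leaf : ∀ (a : ℝ) (d : ℕ), |a| ≤ 1 → ∀ c : Finset I → ℝ,
      |∑ B, c B * pd (fun _ => a) B z| ^ q
        ≤ (1 + 1 / s ^ 2) ^ d * ∑ B : Finset I, ((4 * q * s) ^ q) ^ B.card * |c B| ^ q := by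
    intro a d ha c
    have e : ∑ B, c B * pd (fun _ => a) B z = c ∅ * a := by
      simp only [lv_const, mul_ite, mul_zero, sum_ite_eq', mem_univ, if_true]
    have h1 : |c ∅ * a| ^ q ≤ |c ∅| ^ q := by
      refine pow_le_pow_left₀ (abs_nonneg _) ?_ q
      rw [abs_mul]
      exact mul_le_of_le_one_right (abs_nonneg _) ha
    have h2 := single_le_sum (f := fun B : Finset I => ((4 * q * s) ^ q) ^ B.card * |c B| ^ q)
      (fun B _ => by positivity) (mem_univ ∅)
    simp only [card_empty, pow_zero, one_mul] at h2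
    rw [e]
    exact (h1.trans h2).trans (le_mul_of_one_le_left (sum_nonneg fun B _ => by positivity)
      (one_le_pow₀ hγ))
  induction d with
  | zero =>
    intro F hF hF1 c
    cases hF with
    | const a => exact leaf a 0 (hF1 fun _ => false) c
  | succ d ih =>
    intro F hF hF1 c
    have hex : (∃ a, F = fun _ => a) ∨ ∃ i, ∀ b, Dep (fun σ => F (Function.update σ i b)) d := by
      cases hF with
      | const a => exact Or.inl ⟨a, rfl⟩
      | node i g0 g1 _ h0 h1 =>
        have hu : ∀ (b : Bool) (j : I), Dep (fun σ : I → Bool => Function.update σ i b j) 1 := by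
          intro b j
          by_cases hj : j = i
          · subst hj
            exact (Dep.const b 1).congr fun σ => Function.update_self ..
          · exact (Dep.var j).congr fun σ => Function.update_of_ne hj ..
        refine Or.inr ⟨i, fun b => ?_⟩
        cases b
        · exact (h0.comp _ (hu false)).congr fun σ => by simp
        · exact (h1.comp _ (hu true)).congr fun σ => by simp
    rcases hex with ⟨a, rfl⟩ | ⟨i, hi⟩
    · exact leaf a _ (hF1 fun _ => false) c
    have hpos : ∀ b, 1 / 2 ≤ 1 + sg b * z i := fun b => by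
      have h1 : |sg b * z i| ≤ 1 / 2 := by rw [abs_mul, abs_sg, one_mul]; exact hz i
      linarith [neg_abs_le (sg b * z i)]
    have hP : ∀ b, 0 ≤ (1 + sg b * z i) / 2 := fun b => by linarith [hpos b]
    have hP1 : ∑ b : Bool, (1 + sg b * z i) / 2 = 1 := by
      rw [Fintype.sum_bool, sg_true, sg_false]
      ring
    have hPχ : ∀ b, (1 + sg b * z i) / 2 * (sg b / (1 + sg b * z i)) = sg b / 2 := fun b => by
      have : 1 + sg b * z i ≠ 0 := by linarith [hpos b]
      field_simp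
    have hχ0 : ∑ b : Bool, (1 + sg b * z i) / 2 * (sg b / (1 + sg b * z i)) = 0 := by
      simp only [hPχ, Fintype.sum_bool, sg_true, sg_false]
      ring
    have hχ : ∀ b, |sg b / (1 + sg b * z i)| ≤ 2 := fun b => by
      have h0 : 0 < 1 + sg b * z i := by linarith [hpos b]
      rw [abs_div, abs_sg, abs_of_pos h0, div_le_iff₀ h0]
      linarith [hpos b]
    have hni : ∀ A ∈ (univ.erase i).powerset, i ∉ A := fun A hA h =>
      notMem_erase i univ (mem_powerset.1 hA h)
    let c' : Bool → Finset I → ℝ := fun b A =>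
      if i ∈ A then 0 else c A + sg b / (1 + sg b * z i) * c (insert i A)
    have e1 : ∑ B, c B * pd F B z = ∑ b, (1 + sg b * z i) / 2 *
        ∑ B, c' b B * pd (fun σ => F (Function.update σ i b)) B z := by
      simp only [mul_sum]
      rw [sum_comm, lv_split i, lv_split i]
      refine sum_congr rfl fun A hA => ?_
      rw [(lv_node F z i A (hni A hA)).1, (lv_node F z i A (hni A hA)).2]
      simp only [c', hni A hA, mem_insert_self, if_true, if_false, zero_mul, mul_zero,
        sum_const_zero, add_zero, mul_sum, ← sum_add_distrib]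
      refine sum_congr rfl fun b _ => ?_
      rw [← hPχ b]
      ring
    have e2 : ∑ b, (1 + sg b * z i) / 2 *
          ∑ B : Finset I, ((4 * q * s) ^ q) ^ B.card * |c' b B| ^ q
        ≤ (1 + 1 / s ^ 2) * ∑ B : Finset I, ((4 * q * s) ^ q) ^ B.card * |c B| ^ q := by
      simp only [mul_sum]
      rw [sum_comm, lv_split i, lv_split i]
      refine sum_le_sum fun A hA => ?_
      have hk := mul_le_mul_of_nonneg_left (lv_key q s (c A) (c (insert i A)) hs hq
        (fun b => (1 + sg b * z i) / 2) (fun b => sg b / (1 + sg b * z i)) hP hP1 hχ0 hχ)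
        (pow_nonneg hD A.card)
      have hq0 : q ≠ 0 := by omega
      simp only [c', hni A hA, mem_insert_self, if_true, if_false, abs_zero, zero_pow hq0,
        mul_zero, sum_const_zero, add_zero, card_insert_of_notMem (hni A hA)]
      have h3 : ((4 * q * s) ^ q) ^ (A.card + 1) * |c (insert i A)| ^ q
          ≤ (1 + 1 / s ^ 2) * (((4 * q * s) ^ q) ^ (A.card + 1) * |c (insert i A)| ^ q) :=
        le_mul_of_one_le_left (by positivity) hγ
      rw [mul_sum] at hk
      calc _ = ∑ b, ((4 * q * s) ^ q) ^ A.card * ((1 + sg b * z i) / 2 *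
              |c A + sg b / (1 + sg b * z i) * c (insert i A)| ^ q) :=
            sum_congr rfl fun b _ => by ring
        _ ≤ _ := hk
        _ = (1 + 1 / s ^ 2) * (((4 * q * s) ^ q) ^ A.card * |c A| ^ q) +
              ((4 * q * s) ^ q) ^ (A.card + 1) * |c (insert i A)| ^ q := by
            rw [pow_succ]
            ring
        _ ≤ _ := add_le_add le_rfl h3
    rw [e1]
    refine (lv_convex q _ _ hP hP1).trans ?_
    calc _ ≤ ∑ b, (1 + sg b * z i) / 2 * ((1 + 1 / s ^ 2) ^ d *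
            ∑ B : Finset I, ((4 * q * s) ^ q) ^ B.card * |c' b B| ^ q) :=
          sum_le_sum fun b _ => mul_le_mul_of_nonneg_left
            (ih _ (hi b) (fun σ => hF1 _) (c' b)) (hP b)
      _ = (1 + 1 / s ^ 2) ^ d * ∑ b, (1 + sg b * z i) / 2 *
            ∑ B : Finset I, ((4 * q * s) ^ q) ^ B.card * |c' b B| ^ q := by
          rw [mul_sum]
          exact sum_congr rfl fun b _ => by ring
      _ ≤ (1 + 1 / s ^ 2) ^ d * ((1 + 1 / s ^ 2) *
            ∑ B : Finset I, ((4 * q * s) ^ q) ^ B.card * |c B| ^ q) :=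
          mul_le_mul_of_nonneg_left e2 (by positivity)
      _ = _ := by rw [pow_succ _ d, ← mul_assoc]

theorem lv_term (n E Θ ε : ℝ) (K l : ℕ) (hn : 0 < n) (hE : 0 ≤ E) (h : 6 * n * E ≤ Θ)
    (hε : 0 ≤ ε) (hΘε : Θ * ε ≤ 1) (hl : K ≤ l) :
    E ^ l * ε ^ (l - K) ≤ Θ ^ K * (1 / (6 * n)) ^ l := by
  obtain ⟨m, rfl⟩ := Nat.exists_eq_add_of_le hl
  have hΘ : 0 ≤ Θ := le_trans (by positivity) h
  have h1 : E ≤ Θ * (1 / (6 * n)) := by
    rw [mul_one_div, le_div_iff₀ (by positivity)]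
    linarith
  calc E ^ (K + m) * ε ^ (K + m - K) ≤ (Θ * (1 / (6 * n))) ^ (K + m) * ε ^ m := by
        rw [Nat.add_sub_cancel_left]
        exact mul_le_mul_of_nonneg_right (pow_le_pow_left₀ hE h1 _) (by positivity)
    _ = Θ ^ K * (1 / (6 * n)) ^ (K + m) * (Θ * ε) ^ m := by
        rw [mul_pow, mul_pow, pow_add Θ]
        ring
    _ ≤ _ := mul_le_of_le_one_right (by positivity) (pow_le_one₀ (by positivity) hΘε)

theorem lv_geom : ∑ B : Finset I, ((1 / (6 * (Fintype.card I : ℝ))) ^ B.card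
    - if B = ∅ then 1 else 0) ≤ 1 / 3 := by
  have h1 : ∑ B : Finset I, (1 / (6 * (Fintype.card I : ℝ))) ^ B.card
      = (1 + 1 / (6 * (Fintype.card I : ℝ))) ^ Fintype.card I := by
    rw [← card_univ, ← prod_const, prod_one_add, powerset_univ]
    exact sum_congr rfl fun B _ => (prod_const _).symm
  have h2 : (Fintype.card I : ℝ) * (1 / (6 * (Fintype.card I : ℝ))) ≤ 1 / 6 := by
    rcases eq_or_ne (Fintype.card I : ℝ) 0 with h | h
    · rw [h]
      norm_num
    · exact le_of_eq (by field_simp)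
  have h3 : (1 + 1 / (6 * (Fintype.card I : ℝ))) ^ Fintype.card I ≤ Real.exp (1 / 6) := by
    refine le_trans (pow_le_pow_left₀ (by positivity) ?_ _)
      ((Real.exp_nat_mul _ _).symm.le.trans (Real.exp_le_exp.2 h2))
    linarith [Real.add_one_le_exp (1 / (6 * (Fintype.card I : ℝ)))]
  have h4 := (abs_le.1 (Real.abs_exp_sub_one_sub_id_le (x := 1 / 6)
    (by rw [abs_of_pos] <;> norm_num))).2
  rw [sum_sub_distrib, h1, sum_ite_eq', if_pos (mem_univ _)]
  linarith

theorem level (F : (I → Bool) → ℝ) (s q K : ℕ) (θ δ : ℝ) (hF : Dep F (s ^ 2))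
    (hF1 : ∀ σ, |F σ| ≤ 1) (hs : 1 ≤ s) (hq : 1 ≤ q) (hK : 1 ≤ K) (hθ0 : 0 ≤ θ)
    (hθ : 6 * (Fintype.card I : ℝ) * (8 * q * s) ^ q ≤ θ ^ q) (hδ0 : 0 ≤ δ) (hθδ : θ * δ ≤ 1)
    (z : I → ℝ) (hz : ∀ i, |z i| ≤ 1 / 2) {J : Type} [Fintype J] (S : J → Finset I)
    (hS : Function.Injective S) (hSK : ∀ j, (S j).card = K) (a : J → ℝ) (ha : ∀ j, |a j| ≤ 1)
    (zz : J → I → ℝ) (hzz : ∀ j i, i ∉ S j → |zz j i - z i| ≤ δ) :
    |∑ j, a j * pd F (S j) (zz j)| ≤ θ ^ K := by
  have hs1 : (1 : ℝ) ≤ s := by exact_mod_cast hs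
  have hq0 : q ≠ 0 := by omega
  let c : Finset I → ℝ := fun B => ∑ j, a j * lvC (S j) (fun i => zz j i - z i) B
  have e1 : ∑ j, a j * pd F (S j) (zz j) = ∑ B, c B * pd F B z := by
    simp only [c, lv_taylor F _ z (zz _), mul_sum, sum_mul]
    rw [sum_comm]
    exact sum_congr rfl fun B _ => sum_congr rfl fun j _ => by ring
  have hc : ∀ B, |c B| ≤ ((univ.filter fun j => S j ⊆ B).card : ℝ) * δ ^ (B.card - K) := by
    intro B
    refine (abs_sum_le_sum_abs _ _).trans ?_
    rw [← nsmul_eq_mul, ← sum_const, sum_filter]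
    refine sum_le_sum fun j _ => ?_
    rw [abs_mul, ← hSK j]
    exact (mul_le_of_le_one_left (abs_nonneg _) (ha j)).trans (lvC_le _ _ δ (hzz j) B)
  have hterm : ∀ B : Finset I, ((4 * q * (s : ℝ)) ^ q) ^ B.card * |c B| ^ q ≤ (θ ^ q) ^ K *
      ((1 / (6 * (Fintype.card I : ℝ))) ^ B.card - if B = ∅ then 1 else 0) := by
    intro B
    by_cases hB : K ≤ B.card
    · have hne : B ≠ ∅ := by
        rintro rfl
        rw [card_empty] at hB
        omega
      have hn : (0 : ℝ) < Fintype.card I := by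
        have := card_le_univ B
        exact_mod_cast (by omega : 0 < Fintype.card I)
      have h1 : ((univ.filter fun j => S j ⊆ B).card : ℝ) ≤ 2 ^ B.card := by
        have := card_le_card_of_injOn (s := univ.filter fun j => S j ⊆ B) (t := B.powerset) S
          (fun j hj => mem_coe.2 (mem_powerset.2 (mem_filter.1 (mem_coe.1 hj)).2)) hS.injOn
        rw [card_powerset] at this
        exact_mod_cast this
      have h2 : |c B| ≤ 2 ^ B.card * δ ^ (B.card - K) :=
        (hc B).trans (mul_le_mul_of_nonneg_right h1 (by positivity))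
      rw [if_neg hne, sub_zero]
      refine le_trans ?_ (lv_term _ ((8 * q * s) ^ q) _ (δ ^ q) K B.card hn (by positivity) hθ
        (by positivity) (by rw [← mul_pow]; exact pow_le_one₀ (by positivity) hθδ) hB)
      refine (mul_le_mul_of_nonneg_left (pow_le_pow_left₀ (abs_nonneg _) h2 q)
        (by positivity)).trans (le_of_eq ?_)
      rw [show (8 * q * s : ℝ) = 4 * q * s * 2 by ring, mul_pow (4 * q * s : ℝ) 2 q,
        mul_pow _ ((2 : ℝ) ^ q), mul_pow ((2 : ℝ) ^ B.card), pow_right_comm (2 : ℝ) q,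
        pow_right_comm δ q, ← mul_assoc]
    · have h0 : (univ.filter fun j => S j ⊆ B) = ∅ := filter_eq_empty_iff.2 fun j _ h =>
        hB (hSK j ▸ card_le_card h)
      have h1 := hc B
      rw [h0, card_empty, Nat.cast_zero, zero_mul] at h1
      rw [le_antisymm h1 (abs_nonneg _), zero_pow hq0, mul_zero]
      refine mul_nonneg (by positivity) ?_
      split_ifs with h
      · rw [h, card_empty, pow_zero, sub_self]
      · rw [sub_zero]
        positivity
  have h3 : (1 + 1 / (s : ℝ) ^ 2) ^ (s ^ 2) ≤ 3 := by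
    have h4 : (1 + 1 / (s : ℝ) ^ 2) ^ (s ^ 2) ≤ Real.exp (1 / (s : ℝ) ^ 2) ^ (s ^ 2) :=
      pow_le_pow_left₀ (by positivity) (by linarith [Real.add_one_le_exp (1 / (s : ℝ) ^ 2)]) _
    rw [← Real.exp_nat_mul, Nat.cast_pow, mul_one_div_cancel (by positivity)] at h4
    linarith [Real.exp_one_lt_d9]
  have h5 : ∑ B : Finset I, ((4 * q * (s : ℝ)) ^ q) ^ B.card * |c B| ^ q
      ≤ (θ ^ q) ^ K * (1 / 3) := by
    refine (sum_le_sum fun B _ => hterm B).trans ?_
    rw [← mul_sum]
    exact mul_le_mul_of_nonneg_left lv_geom (by positivity)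
  have h6 := (lv_pot q s hs1 hq z hz _ F hF hF1 c).trans
    (mul_le_mul h3 h5 (sum_nonneg fun B _ => by positivity) (by norm_num))
  rw [e1]
  refine le_of_pow_le_pow_left₀ hq0 (by positivity) (h6.trans (le_of_eq ?_))
  rw [pow_right_comm θ q]
  ring

end Vale.Agent.P362
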