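import Vale.Agent.P362.Dep

/-! Finite product distributions: resampling, hybrid argument, Chebyshev. -/

namespace Vale.Agent.P362

open Finset

variable {κ α : Type} [Fintype κ] [DecidableEq κ] [Fintype α]

theorem IsD.pi {p : κ → α → ℝ} (hp : ∀ c, IsD (p c)) : IsD fun v : κ → α => ∏ c, p c (v c) := by
  refine ⟨fun v => prod_nonneg fun c _ => (hp c).1 _, ?_⟩
  have := Finset.prod_univ_sum (fun _ : κ => (univ : Finset α)) p
  rw [Fintype.piFinset_univ] at this
  rw [← this]
  simp only [(hp _).2, prod_const_one]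

/-- Changing the distribution of one coordinate is resampling it. -/
theorem prob_resample2 {p r : κ → α → ℝ} (c : κ) (hp : ∑ a, p c a = 1)
    (hr : ∀ c', c' ≠ c → r c' = p c') (g : (κ → α) → ℝ) :
    ∑ v : κ → α, (∏ c, r c (v c)) * g v =
      ∑ v : κ → α, (∏ c, p c (v c)) * ∑ a, r c a * g (Function.update v c a) := by
  have hinv : Function.Involutive
      (fun z : (κ → α) × α => (Function.update z.1 c z.2, z.1 c)) := by
    rintro ⟨v, a⟩
    simp
  have h1 : ∑ v : κ → α, (∏ c, r c (v c)) * g v =
      ∑ z : (κ → α) × α, (∏ c, r c (z.1 c)) * g z.1 * p c z.2 := by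
    rw [Fintype.sum_prod_type]
    refine sum_congr rfl fun v _ => ?_
    simp only [← mul_sum, hp, mul_one]
  rw [h1, ← Equiv.sum_comp hinv.toPerm, Fintype.sum_prod_type]
  refine sum_congr rfl fun v _ => ?_
  rw [mul_sum]
  refine sum_congr rfl fun a _ => ?_
  simp only [Function.Involutive.coe_toPerm]
  rw [← mul_prod_erase univ _ (mem_univ c), ← mul_prod_erase univ (fun c => p c (v c)) (mem_univ c),
    Function.update_self]
  have : ∏ x ∈ univ.erase c, r x (Function.update v c a x) = ∏ x ∈ univ.erase c, p x (v x) :=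
    prod_congr rfl fun x hx => by
      rw [Function.update_of_ne (ne_of_mem_erase hx), hr x (ne_of_mem_erase hx)]
  rw [this]
  ring

/-- Resampling one coordinate does not change a product distribution. -/
theorem pi_resample {p : κ → α → ℝ} (hp : ∀ c, IsD (p c)) (c : κ) (g : (κ → α) → ℝ) :
    ∑ v : κ → α, (∏ c, p c (v c)) * g v =
      ∑ v : κ → α, (∏ c, p c (v c)) * ∑ a, p c a * g (Function.update v c a) :=
  prob_resample2 c (hp c).2 (fun _ _ => rfl) g

/-- Hybrid argument. -/
theorem pi_hybrid {p q : κ → α → ℝ} (hp : ∀ c, IsD (p c)) (hq : ∀ c, IsD (q c))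
    (F : (κ → α) → ℝ) (ε : ℝ)
    (h : ∀ c v, |∑ a, p c a * F (Function.update v c a) -
      ∑ a, q c a * F (Function.update v c a)| ≤ ε) :
    |∑ v : κ → α, (∏ c, p c (v c)) * F v - ∑ v : κ → α, (∏ c, q c (v c)) * F v| ≤
      Fintype.card κ * ε := by
  have key : ∀ A : Finset κ, |∑ v : κ → α, (∏ c, p c (v c)) * F v -
      ∑ v : κ → α, (∏ c, (if c ∈ A then q c else p c) (v c)) * F v| ≤ A.card * ε := by
    intro A
    induction A using Finset.induction_on with
    | empty => simp
    | insert c A hc ih =>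
      have hr : ∀ c', IsD (if c' ∈ A then q c' else p c') := fun c' => by
        split_ifs
        · exact hq c'
        · exact hp c'
      have h1 := pi_resample hr c F
      have h2 := prob_resample2 (p := fun c' => if c' ∈ A then q c' else p c')
        (r := fun c' => if c' ∈ insert c A then q c' else p c') c (hr c).2
        (fun c' hc' => by simp only [mem_insert, hc', false_or]) F
      have hD := IsD.pi hr
      rw [if_neg hc] at h1
      rw [if_pos (mem_insert_self c A)] at h2
      have h3 : |∑ v : κ → α, (∏ c', (if c' ∈ A then q c' else p c') (v c')) * F v -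
          ∑ v : κ → α, (∏ c', (if c' ∈ insert c A then q c' else p c') (v c')) * F v| ≤ ε := by
        rw [h1, h2, ← sum_sub_distrib]
        refine (abs_sum_le_sum_abs _ _).trans ?_
        calc _ ≤ ∑ v : κ → α, (∏ c', (if c' ∈ A then q c' else p c') (v c')) * ε := by
              refine sum_le_sum fun v _ => ?_
              rw [← mul_sub, abs_mul, abs_of_nonneg (hD.1 v)]
              exact mul_le_mul_of_nonneg_left (h c v) (hD.1 v)
          _ = ε := by rw [← sum_mul, hD.2, one_mul]
      rw [card_insert_of_notMem hc]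
      push_cast
      have h4 := abs_sub_le (∑ v : κ → α, (∏ c, p c (v c)) * F v)
        (∑ v : κ → α, (∏ c', (if c' ∈ A then q c' else p c') (v c')) * F v)
        (∑ v : κ → α, (∏ c', (if c' ∈ insert c A then q c' else p c') (v c')) * F v)
      linarith
  have := key univ
  simpa only [mem_univ, if_true, card_univ] using this

open Classical in
/-- Chebyshev's inequality for a sum of independent bounded variables. -/
theorem pi_cheb {p : κ → α → ℝ} (hp : ∀ c, IsD (p c)) (X : κ → α → ℝ) (b : κ → ℝ)
    (hX : ∀ c a, |X c a| ≤ b c) (A t : ℝ) (ht : 0 < t)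
    (hA : A + t ≤ ∑ c, ∑ a, p c a * X c a) :
    ∑ v : κ → α, (if ∑ c, X c (v c) ≤ A then ∏ c, p c (v c) else 0) ≤ (∑ c, b c ^ 2) / t ^ 2 := by
  have hD := IsD.pi hp
  obtain ⟨μ, hμ⟩ : ∃ μ : κ → ℝ, ∀ c, μ c = ∑ a, p c a * X c a := ⟨_, fun _ => rfl⟩
  have hY0 : ∀ c, ∑ a, p c a * (X c a - μ c) = 0 := fun c => by
    simp only [mul_sub, sum_sub_distrib, ← sum_mul, (hp c).2, ← hμ]
    ring
  have hY2 : ∀ c, ∑ a, p c a * ((X c a - μ c) * (X c a - μ c)) ≤ b c ^ 2 := fun c => by
    have e : ∀ a, p c a * ((X c a - μ c) * (X c a - μ c)) =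
        p c a * X c a ^ 2 - 2 * μ c * (p c a * X c a) + μ c ^ 2 * p c a := fun a => by ring
    simp only [e, sum_add_distrib, sum_sub_distrib, ← mul_sum, (hp c).2, ← hμ]
    have h1 : ∑ a, p c a * X c a ^ 2 ≤ ∑ a, p c a * b c ^ 2 :=
      sum_le_sum fun a _ => mul_le_mul_of_nonneg_left
        (sq_le_sq' (abs_le.mp (hX c a)).1 (abs_le.mp (hX c a)).2) ((hp c).1 a)
    rw [← sum_mul, (hp c).2] at h1
    nlinarith [sq_nonneg (μ c)]
  have hcross : ∀ c c', ∑ v : κ → α, (∏ c, p c (v c)) * ((X c (v c) - μ c) * (X c' (v c') - μ c')) ≤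
      if c = c' then b c ^ 2 else 0 := by
    intro c c'
    rw [pi_resample hp c]
    split_ifs with hc
    · subst hc
      simp only [Function.update_self]
      rw [← sum_mul, hD.2, one_mul]
      exact hY2 c
    · refine le_of_eq (sum_eq_zero fun v _ => ?_)
      simp only [Function.update_self, Function.update_of_ne (Ne.symm hc), ← mul_assoc, ← sum_mul,
        hY0, zero_mul, mul_zero]
  have hsq : ∑ v : κ → α, (∏ c, p c (v c)) * (∑ c, (X c (v c) - μ c)) ^ 2 ≤ ∑ c, b c ^ 2 := by
    calc _ = ∑ c, ∑ c', ∑ v : κ → α,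
          (∏ c, p c (v c)) * ((X c (v c) - μ c) * (X c' (v c') - μ c')) := by
          simp only [sq, sum_mul_sum]
          simp only [mul_sum]
          rw [sum_comm]
          exact sum_congr rfl fun c _ => sum_comm
      _ ≤ ∑ c, ∑ c', if c = c' then b c ^ 2 else 0 :=
          sum_le_sum fun c _ => sum_le_sum fun c' _ => hcross c c'
      _ = _ := by simp
  rw [le_div_iff₀ (by positivity), sum_mul]
  refine le_trans (sum_le_sum fun v _ => ?_) hsq
  split_ifs with hv
  · refine mul_le_mul_of_nonneg_left ?_ (hD.1 v)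
    have h1 : ∑ c, (X c (v c) - μ c) ≤ -t := by
      rw [sum_sub_distrib]
      simp only [hμ]
      linarith
    nlinarith
  · rw [zero_mul]
    exact mul_nonneg (hD.1 v) (sq_nonneg _)

end Vale.Agent.P362
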