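import Vale.Agent.P362.Dep

/-! Closure properties of quantum query algorithms. -/

namespace Vale.Agent.P362

open Matrix Finset

variable {ι ι' α β : Type}

section Op

variable {B B' : Type} [Fintype B] [DecidableEq B] [Fintype B'] [DecidableEq B']

theorem householder (u : B → ℝ) (b0 : B) (h0 : 0 ≤ u b0) (hu : ∑ b, u b ^ 2 = 1) :
    ∃ W : Matrix B B ℝ, W * Wᵀ = 1 ∧ ∀ b, W b b0 = u b := by
  set v : B → ℝ := fun b => (if b = b0 then 1 else 0) + u b with hv
  set c : ℝ := 1 / (1 + u b0) with hc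
  have hpos : 0 < 1 + u b0 := by linarith
  have hvv : ∑ b, v b * v b = 2 * (1 + u b0) := by
    have : ∀ b, v b * v b = (if b = b0 then 1 + 2 * u b else 0) + u b ^ 2 := by
      intro b; simp only [hv]; split_ifs <;> ring
    simp only [this, sum_add_distrib, hu, sum_ite_eq', mem_univ, if_true]; ring
  refine ⟨Matrix.of fun a b => c * v a * v b - if a = b then 1 else 0, ?_, fun b => ?_⟩
  · ext a b
    simp only [Matrix.mul_apply, Matrix.transpose_apply, Matrix.of_apply, Matrix.one_apply]
    have : ∀ j, (c * v a * v j - if a = j then 1 else 0) * (c * v b * v j - if b = j then 1 else 0)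
        = c ^ 2 * v a * v b * (v j * v j) - (if a = j then c * v b * v j else 0)
          - (if b = j then c * v a * v j else 0) + (if a = j then (if b = j then 1 else 0) else 0) := by
      intro j; split_ifs <;> ring
    simp only [this, sum_add_distrib, sum_sub_distrib, ← mul_sum, hvv, sum_ite_eq, mem_univ,
      if_true]
    have h2 : c ^ 2 * (2 * (1 + u b0)) = 2 * c := by rw [hc]; field_simp
    have h3 : (if b = a then (1 : ℝ) else 0) = if a = b then 1 else 0 := by
      simp only [eq_comm]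
    rw [h3]
    linear_combination (v a * v b) * h2
  · simp only [Matrix.of_apply, hv, if_true]
    have h2 : c * (1 + u b0) = 1 := by rw [hc]; field_simp
    linear_combination ((if b = b0 then 1 else 0) + u b) * h2

theorem ph_transpose (idx : B → Option ι) (x : ι → Bool) : (ph idx x)ᵀ = ph idx x :=
  Matrix.diagonal_transpose _

theorem ph_orth (idx : B → Option ι) (x : ι → Bool) : ph idx x * (ph idx x)ᵀ = 1 := by
  rw [ph_transpose, ph, Matrix.diagonal_mul_diagonal, ← Matrix.diagonal_one]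
  congr 1; funext b
  cases idx b <;> simp [sg_sq]

theorem orth_mul {U V : Matrix B B ℝ} (hU : U * Uᵀ = 1) (hV : V * Vᵀ = 1) :
    U * V * (U * V)ᵀ = 1 := by
  rw [Matrix.transpose_mul, Matrix.mul_assoc, ← Matrix.mul_assoc V, hV, Matrix.one_mul, hU]

theorem orth_transpose {U : Matrix B B ℝ} (hU : U * Uᵀ = 1) : Uᵀ * Uᵀᵀ = 1 := by
  rw [Matrix.transpose_transpose]; exact mul_eq_one_comm.1 hU

theorem OpQ.congr {T : ℕ} {U U' : (ι → Bool) → Matrix B B ℝ} (h : OpQ T U)
    (e : ∀ x, U' x = U x) : OpQ T U' := by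
  have : U' = U := funext e
  rw [this]; exact h

theorem OpQ.orth {T : ℕ} {U : (ι → Bool) → Matrix B B ℝ} (h : OpQ T U) (x : ι → Bool) :
    U x * (U x)ᵀ = 1 := by
  induction T generalizing U with
  | zero => obtain ⟨W, hW, e⟩ := h; rw [e]; exact hW
  | succ T ih =>
    obtain ⟨W, idx, V, hW, hV, e⟩ := h
    rw [e]; exact orth_mul (orth_mul hW (ph_orth idx x)) (ih hV)

theorem OpQ.const {W : Matrix B B ℝ} (h : W * Wᵀ = 1) : OpQ 0 (fun _ : ι → Bool => W) :=
  ⟨W, h, fun _ => rfl⟩

theorem OpQ.phase (idx : B → Option ι) : OpQ 1 (ph idx) :=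
  ⟨1, idx, fun _ => 1, by simp, OpQ.const (by simp), fun x => by simp⟩

theorem OpQ.const_mul {T : ℕ} {W : Matrix B B ℝ} {U : (ι → Bool) → Matrix B B ℝ}
    (hW : W * Wᵀ = 1) (h : OpQ T U) : OpQ T (fun x => W * U x) := by
  cases T with
  | zero => obtain ⟨W', hW', e⟩ := h; exact ⟨W * W', orth_mul hW hW', fun x => by simp only [e]⟩
  | succ T =>
    obtain ⟨W', idx, V, hW', hV, e⟩ := h
    exact ⟨W * W', idx, V, orth_mul hW hW', hV, fun x => by
      simp only [e, Matrix.mul_assoc]⟩

theorem OpQ.mul {T1 T2 : ℕ} {U1 U2 : (ι → Bool) → Matrix B B ℝ} (h1 : OpQ T1 U1)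
    (h2 : OpQ T2 U2) : OpQ (T1 + T2) (fun x => U1 x * U2 x) := by
  induction T1 generalizing U1 with
  | zero =>
    obtain ⟨W, hW, e⟩ := h1
    rw [Nat.zero_add]
    exact (h2.const_mul hW).congr fun x => by rw [e]
  | succ T ih =>
    obtain ⟨W, idx, V, hW, hV, e⟩ := h1
    rw [show T + 1 + T2 = T + T2 + 1 by omega]
    exact ⟨W, idx, _, hW, ih hV, fun x => by simp only [e, Matrix.mul_assoc]⟩

theorem OpQ.transpose {T : ℕ} {U : (ι → Bool) → Matrix B B ℝ} (h : OpQ T U) :
    OpQ T (fun x => (U x)ᵀ) := by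
  induction T generalizing U with
  | zero => obtain ⟨W, hW, e⟩ := h; exact ⟨Wᵀ, orth_transpose hW, fun x => by simp only [e]⟩
  | succ T ih =>
    obtain ⟨W, idx, V, hW, hV, e⟩ := h
    have := (ih hV).mul ((OpQ.phase idx).mul (OpQ.const (orth_transpose hW)))
    refine this.congr fun x => ?_
    rw [e, Matrix.transpose_mul, Matrix.transpose_mul, ph_transpose]

theorem OpQ.mono {T T' : ℕ} {U : (ι → Bool) → Matrix B B ℝ} (h : OpQ T U) (hT : T ≤ T') :
    OpQ T' U := by
  induction hT with
  | refl => exact h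
  | step _ ih =>
    refine ⟨1, fun _ => none, U, by simp, ih, fun x => ?_⟩
    simp [ph]

theorem OpQ.reindex {T : ℕ} {U : (ι → Bool) → Matrix B B ℝ} (h : OpQ T U) (e : B' ≃ B) :
    OpQ T (fun x => (U x).submatrix e e) := by
  have ho : ∀ W : Matrix B B ℝ, W * Wᵀ = 1 → W.submatrix e e * (W.submatrix e e)ᵀ = 1 := by
    intro W hW
    rw [Matrix.transpose_submatrix, Matrix.submatrix_mul_equiv, hW, Matrix.submatrix_one_equiv]
  induction T generalizing U with
  | zero => obtain ⟨W, hW, e'⟩ := h; exact ⟨_, ho W hW, fun x => by simp only [e']⟩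
  | succ T ih =>
    obtain ⟨W, idx, V, hW, hV, e'⟩ := h
    refine ⟨_, fun b => idx (e b), _, ho W hW, ih hV, fun x => ?_⟩
    have : ph (fun b => idx (e b)) x = (ph idx x).submatrix e e := by
      rw [ph, ph, Matrix.submatrix_diagonal_equiv]; rfl
    beta_reduce
    rw [e', this, Matrix.submatrix_mul_equiv, Matrix.submatrix_mul_equiv]

theorem OpQ.block {A : Type} [Fintype A] [DecidableEq A] {C : A → Type} [∀ a, Fintype (C a)]
    [∀ a, DecidableEq (C a)] {T : ℕ} {U : ∀ a, (ι → Bool) → Matrix (C a) (C a) ℝ}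
    (h : ∀ a, OpQ T (U a)) : OpQ T (fun x => Matrix.blockDiagonal' fun a => U a x) := by
  have ho : ∀ W : ∀ a, Matrix (C a) (C a) ℝ, (∀ a, W a * (W a)ᵀ = 1) →
      Matrix.blockDiagonal' W * (Matrix.blockDiagonal' W)ᵀ = 1 := by
    intro W hW
    rw [Matrix.blockDiagonal'_transpose, ← Matrix.blockDiagonal'_mul]
    simp only [hW]
    exact Matrix.blockDiagonal'_one
  induction T generalizing U with
  | zero =>
    choose W hW e using h
    exact ⟨_, ho W hW, fun x => by simp only [e]⟩
  | succ T ih =>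
    choose W idx V hW hV e using h
    refine ⟨_, fun s => idx s.1 s.2, _, ho W hW, ih hV, fun x => ?_⟩
    have : ph (fun s : Σ a, C a => idx s.1 s.2) x =
        Matrix.blockDiagonal' fun a => ph (idx a) x := by
      simp only [ph, Matrix.blockDiagonal'_diagonal]
    rw [this, ← Matrix.blockDiagonal'_mul, ← Matrix.blockDiagonal'_mul]
    simp only [e]

theorem OpQ.comp {T : ℕ} {U : (ι → Bool) → Matrix B B ℝ} (h : OpQ T U) (e : ι → ι') :
    OpQ T (fun x : ι' → Bool => U fun i => x (e i)) := by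
  induction T generalizing U with
  | zero => obtain ⟨W, hW, e'⟩ := h; exact ⟨W, hW, fun x => e' _⟩
  | succ T ih =>
    obtain ⟨W, idx, V, hW, hV, e'⟩ := h
    refine ⟨W, fun b => (idx b).map e, _, hW, ih hV, fun x => ?_⟩
    have : ph (fun b => (idx b).map e) x = ph idx fun i => x (e i) := by
      simp only [ph]; congr 1; funext b; cases idx b <;> rfl
    beta_reduce
    rw [e', this]

/-- An operator on the second factor controlled by the first factor. -/
theorem OpQ.ctrl {T : ℕ} {U : B → (ι → Bool) → Matrix B' B' ℝ} (h : ∀ a, OpQ T (U a)) :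
    OpQ T (fun x => Matrix.of fun p q : B × B' => if p.1 = q.1 then U p.1 x p.2 q.2 else 0) := by
  refine ((OpQ.block (C := fun _ : B => B') h).reindex
    (Equiv.sigmaEquivProd B B').symm).congr fun x => ?_
  ext ⟨a, b⟩ ⟨a', b'⟩
  simp only [Matrix.of_apply, Matrix.submatrix_apply, Equiv.sigmaEquivProd_symm_apply]
  by_cases e : a = a'
  · subst e; simp
  · rw [Matrix.blockDiagonal'_apply_ne _ _ _ e, if_neg e]

/-- An operator on the first factor controlled by the second factor. -/
theorem OpQ.ctrl' {T : ℕ} {U : B' → (ι → Bool) → Matrix B B ℝ} (h : ∀ a, OpQ T (U a)) :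
    OpQ T (fun x => Matrix.of fun p q : B × B' => if p.2 = q.2 then U p.2 x p.1 q.1 else 0) :=
  ((OpQ.ctrl h).reindex (Equiv.prodComm B B')).congr fun _ => rfl

theorem col_sq {U : Matrix B B ℝ} (hU : U * Uᵀ = 1) (b0 : B) : ∑ b, U b b0 ^ 2 = 1 := by
  have h1 : Uᵀ * U = 1 := mul_eq_one_comm.1 hU
  have : (Uᵀ * U) b0 b0 = 1 := by rw [h1, Matrix.one_apply_eq]
  simpa [Matrix.mul_apply, sq] using this

end Op

theorem QSim.congr {T : ℕ} {P P' : (ι → Bool) → α → ℝ} (h : QSim T P)
    (e : ∀ x a, P' x a = P x a) : QSim T P' := by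
  have : P' = P := funext fun x => funext (e x)
  rw [this]; exact h

theorem QSim.isD [Fintype α] {T : ℕ} {P : (ι → Bool) → α → ℝ} (h : QSim T P) (x : ι → Bool) :
    IsD (P x) := by
  obtain ⟨B, _, _, U, b0, o, hU, hP⟩ := h
  refine ⟨fun a => ?_, ?_⟩
  · rw [hP]; exact sum_nonneg fun b _ => by split_ifs <;> positivity
  · simp only [hP]
    rw [sum_comm, ← col_sq (hU.orth x) b0]
    refine sum_congr rfl fun b _ => ?_
    rw [sum_eq_single (o b), if_pos rfl]
    · intro a _ ha; rw [if_neg (Ne.symm ha)]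
    · simp

theorem QSim.mono {T T' : ℕ} {P : (ι → Bool) → α → ℝ} (h : QSim T P) (hT : T ≤ T') :
    QSim T' P := by
  obtain ⟨B, _, _, U, b0, o, hU, hP⟩ := h
  exact ⟨B, _, _, U, b0, o, hU.mono hT, hP⟩

theorem QSim.const [Fintype α] {p : α → ℝ} (hp : IsD p) : QSim 0 (fun _ : ι → Bool => p) := by
  classical
  have hne : Nonempty α := by
    by_contra h
    have := hp.2
    rw [not_nonempty_iff] at h
    simp at this
  obtain ⟨a0⟩ := hne
  obtain ⟨W, hW, e⟩ := householder (fun a => Real.sqrt (p a)) a0 (Real.sqrt_nonneg _)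
    (by simp only [Real.sq_sqrt (hp.1 _), hp.2])
  refine ⟨α, _, _, fun _ => W, a0, id, OpQ.const hW, fun x a => ?_⟩
  simp only [id, sum_ite_eq', mem_univ, if_true, e, Real.sq_sqrt (hp.1 _)]

theorem QSim.map [Fintype α] [DecidableEq β] {T : ℕ} {P : (ι → Bool) → α → ℝ} (h : QSim T P)
    (φ : α → β) : QSim T (fun x b => ∑ a, if φ a = b then P x a else 0) := by
  classical
  obtain ⟨B, _, _, U, b0, o, hU, hP⟩ := h
  refine ⟨B, _, _, U, b0, fun b => φ (o b), hU, fun x c => ?_⟩
  have : ∀ a, (if φ a = c then P x a else 0) =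
      ∑ b, if o b = a then (if φ (o b) = c then U x b b0 ^ 2 else 0) else 0 := by
    intro a
    by_cases h : φ a = c
    · rw [if_pos h, hP]
      refine sum_congr rfl fun b _ => ?_
      by_cases h' : o b = a
      · simp [h', h]
      · simp [h']
    · rw [if_neg h]
      refine (sum_eq_zero fun b _ => ?_).symm
      by_cases h' : o b = a
      · simp [h', h]
      · simp [h']
  simp only [this]
  rw [sum_comm]
  refine sum_congr rfl fun b _ => ?_
  simp only [sum_ite_eq, mem_univ, if_true]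
  split_ifs <;> rfl

open Classical in
/-- A finite family of algorithms can be run on a common workspace. -/
theorem QSim.unif [Fintype α] [Nonempty α] {T : ℕ} {P : α → (ι → Bool) → β → ℝ}
    (h : ∀ a, QSim T (P a)) :
    ∃ (B : Type) (_ : Fintype B) (_ : DecidableEq B) (U : α → (ι → Bool) → Matrix B B ℝ) (b0 : B)
      (o : B → β), (∀ a, OpQ T (U a)) ∧
        ∀ a x c, P a x c = ∑ b, if o b = c then U a x b b0 ^ 2 else 0 := by
  choose B iF iD U b0 o hU hP using h
  obtain ⟨a0⟩ := ‹Nonempty α›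
  have hG : ∀ a : α, ∃ W : Matrix (Σ a, B a) (Σ a, B a) ℝ, W * Wᵀ = 1 ∧
      ∀ s, W s ⟨a0, b0 a0⟩ = if s = ⟨a, b0 a⟩ then 1 else 0 := fun a =>
    householder _ _ (by split_ifs <;> norm_num) (by simp)
  choose G hG1 hG2 using hG
  refine ⟨Σ a, B a, inferInstance, inferInstance,
    fun a x => (Matrix.blockDiagonal' fun a => U a x) * G a, ⟨a0, b0 a0⟩, fun s => o s.1 s.2,
    fun a => (OpQ.block hU).mul (OpQ.const (hG1 a)), fun a x c => ?_⟩
  simp only [Matrix.mul_apply, hG2, mul_ite, mul_one, mul_zero, sum_ite_eq', mem_univ, if_true]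
  rw [Fintype.sum_sigma, sum_eq_single a, hP]
  · refine sum_congr rfl fun b _ => ?_
    rw [Matrix.blockDiagonal'_apply_eq]
  · intro a' _ ha
    refine sum_eq_zero fun b _ => ?_
    rw [Matrix.blockDiagonal'_apply_ne _ _ _ ha]; simp
  · simp

theorem QSim.bind [Fintype α] {T1 T2 : ℕ} {P : (ι → Bool) → α → ℝ}
    {P2 : α → (ι → Bool) → β → ℝ} (h1 : QSim T1 P) (h2 : ∀ a, QSim T2 (P2 a)) :
    QSim (T1 + T2) (fun x b => ∑ a, P x a * P2 a x b) := by
  classical
  obtain ⟨B, _, _, U, b0, o, hU, hP⟩ := h1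
  have : Nonempty α := ⟨o b0⟩
  obtain ⟨B2, _, _, U2, c0, o2, hU2, hP2⟩ := QSim.unif h2
  have hM := (OpQ.ctrl (B := B) fun b => hU2 (o b)).mul (OpQ.ctrl' (B' := B2) fun _ => hU)
  rw [Nat.add_comm] at hM
  refine ⟨B × B2, inferInstance, inferInstance, _, (b0, c0), fun p => o2 p.2, hM, fun x c => ?_⟩
  have e : ∀ (b : B) (b' : B2), ((Matrix.of fun p q : B × B2 =>
      if p.1 = q.1 then U2 (o p.1) x p.2 q.2 else 0) * (Matrix.of fun p q : B × B2 =>
      if p.2 = q.2 then U x p.1 q.1 else 0)) (b, b') (b0, c0) = U2 (o b) x b' c0 * U x b b0 := by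
    intro b b'
    simp [Matrix.mul_apply, Fintype.sum_prod_type]
  rw [Fintype.sum_prod_type]
  have e1 : ∑ a, P x a * P2 a x c = ∑ b, U x b b0 ^ 2 * P2 (o b) x c := by
    simp only [hP, sum_mul]
    rw [sum_comm]
    exact sum_congr rfl fun b _ => by simp
  beta_reduce
  rw [e1]
  refine sum_congr rfl fun b _ => ?_
  simp only [e, hP2, mul_sum]
  refine sum_congr rfl fun b' _ => ?_
  split_ifs <;> ring

theorem QSim.pure [DecidableEq α] (a0 : α) :
    QSim 0 (fun (_ : ι → Bool) a => if a = a0 then (1 : ℝ) else 0) := by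
  refine ⟨Unit, inferInstance, inferInstance, fun _ => 1, (), fun _ => a0, OpQ.const (by simp),
    fun x a => ?_⟩
  by_cases h : a = a0
  · simp [h]
  · simp [h, Ne.symm h]

theorem QSim.piFin [Fintype α] {n T : ℕ} {P : Fin n → (ι → Bool) → α → ℝ}
    (h : ∀ c, QSim T (P c)) : QSim (n * T) (fun x (v : Fin n → α) => ∏ c, P c x (v c)) := by
  classical
  induction n with
  | zero =>
    rw [Nat.zero_mul]
    refine (QSim.pure (fun c : Fin 0 => (c.elim0 : α))).congr fun x v => ?_
    simp [Subsingleton.elim v fun c : Fin 0 => (c.elim0 : α)]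
  | succ n ih =>
    have := (h 0).bind fun a => (ih (P := fun c => P c.succ) fun c => h c.succ).map
      (fun v => (Fin.cons a v : Fin (n + 1) → α))
    rw [show (n + 1) * T = T + n * T by ring]
    refine this.congr fun x v => ?_
    rw [Fin.prod_univ_succ, sum_eq_single (v 0), sum_eq_single (Fin.tail v)]
    · simp [Fin.tail]
    · intro w _ hw
      rw [if_neg]; intro e; exact hw (by rw [← e]; simp)
    · simp
    · intro a _ ha
      rw [sum_eq_zero, mul_zero]
      intro w _
      rw [if_neg]; intro e; exact ha (by rw [← e]; simp)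
    · simp

theorem QSim.pi {κ : Type} [Fintype κ] [DecidableEq κ] [Fintype α] {T : ℕ}
    {P : κ → (ι → Bool) → α → ℝ} (h : ∀ c, QSim T (P c)) :
    QSim (Fintype.card κ * T) (fun x (v : κ → α) => ∏ c, P c x (v c)) := by
  classical
  have e := Fintype.equivFin κ
  have := (QSim.piFin (P := fun c => P (e.symm c)) fun c => h _).map
    (fun v (c : κ) => v (e c))
  refine this.congr fun x v => ?_
  rw [sum_eq_single (fun c => v (e.symm c))]
  · simp only [Equiv.symm_apply_apply, if_true]
    exact (Equiv.prod_comp e.symm fun c => P c x (v c)).symm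
  · intro w _ hw
    rw [if_neg]; intro e'; exact hw (by rw [← e']; simp)
  · simp

/-- The Hadamard test. -/
theorem QSim.had {B : Type} [Fintype B] [DecidableEq B] {T : ℕ}
    {U : (ι → Bool) → Matrix B B ℝ} (h : OpQ T U) (b0 : B) :
    QSim T (fun x c => (1 + sg c * U x b0 b0) / 2) := by
  set r : ℝ := Real.sqrt (1 / 2) with hr
  have hrr : r * r = 1 / 2 := Real.mul_self_sqrt (by norm_num)
  set H : Matrix Bool Bool ℝ := Matrix.of fun c c' => r * sg (c && c') with hH
  have hHo : H * Hᵀ = 1 := by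
    ext c c'
    cases c <;> cases c' <;> simp [hH, Matrix.mul_apply, Matrix.one_apply] <;> linarith
  have h1 := OpQ.ctrl' (ι := ι) (B' := B) fun _ => OpQ.const hHo
  have h2 := OpQ.ctrl (B := Bool) (U := fun c x => if c = true then U x else 1) (T := T) fun c => by
    cases c
    · exact (OpQ.const (W := (1 : Matrix B B ℝ)) (by simp)).mono (Nat.zero_le _)
    · exact h
  have h3 := h1.mul (h2.mul h1)
  rw [Nat.zero_add, Nat.add_zero] at h3
  refine ⟨Bool × B, inferInstance, inferInstance, _, (false, b0), Prod.fst, h3, fun x c => ?_⟩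
  have e : ∀ (c : Bool) (b : B), ((Matrix.of fun p q : Bool × B =>
      if p.2 = q.2 then H p.1 q.1 else 0) * ((Matrix.of fun p q : Bool × B =>
      if p.1 = q.1 then (if p.1 = true then U x else 1) p.2 q.2 else 0) *
      (Matrix.of fun p q : Bool × B => if p.2 = q.2 then H p.1 q.1 else 0))) (c, b) (false, b0) =
      ((if b = b0 then 1 else 0) + sg c * U x b b0) / 2 := by
    intro c b
    simp [Matrix.mul_apply, Fintype.sum_prod_type, hH, Matrix.one_apply]
    split_ifs
    · linear_combination (1 + sg c * U x b b0) * hrr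
    · linear_combination (sg c * U x b b0) * hrr
  rw [Fintype.sum_prod_type, sum_eq_single c]
  · simp only [e, if_true]
    have : ∀ b, (((if b = b0 then 1 else 0) + sg c * U x b b0) / 2) ^ 2 =
        ((if b = b0 then 1 + 2 * sg c * U x b b0 else 0) + U x b b0 ^ 2) / 4 := by
      intro b
      have := sg_sq c
      split_ifs
      · linear_combination (U x b b0 ^ 2 / 4) * this
      · linear_combination (U x b b0 ^ 2 / 4) * this
    simp only [this, ← sum_div, sum_add_distrib, sum_ite_eq', mem_univ, if_true,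
      col_sq (h.orth x) b0]
    ring
  · intro c' _ hc
    simp [hc]
  · simp

theorem QSim.ofDep [DecidableEq α] {g : (ι → Bool) → α} {d : ℕ} (h : Dep g d) :
    QSim d (fun x a => if a = g x then 1 else 0) := by
  induction h with
  | const a d => exact (QSim.pure a).mono (Nat.zero_le _)
  | node i g0 g1 d _ _ ih0 ih1 =>
    have h1 := QSim.had (OpQ.phase (B := Unit) fun _ => some i) ()
    have := h1.bind (P2 := fun c x a => if a = (if c = true then g1 x else g0 x) then 1 else 0)
      (T2 := d) fun c => by cases c <;> simpa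
    rw [Nat.add_comm d 1]
    refine this.congr fun x a => ?_
    cases hx : x i <;> simp [ph, hx]

theorem QSim.comp {T : ℕ} {P : (ι → Bool) → α → ℝ} (h : QSim T P) (e : ι → ι') :
    QSim T (fun x : ι' → Bool => P fun i => x (e i)) := by
  obtain ⟨B, _, _, U, b0, o, hU, hP⟩ := h
  exact ⟨B, _, _, _, b0, o, hU.comp e, fun x a => hP _ a⟩

end Vale.Agent.P362
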