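import Vale.Agent.P362.Amp
import Vale.Agent.P362.Prob

/-! The quantum algorithm for the pointer function, abstractly. -/

namespace Vale.Agent.P362

open Finset

section Aux

variable {ι α β : Type}

theorem qm_unif (α : Type) [Fintype α] [Nonempty α] :
    IsD (fun _ : α => (1 : ℝ) / Fintype.card α) := by
  have hc : (0 : ℝ) < Fintype.card α := by exact_mod_cast Fintype.card_pos
  refine ⟨fun _ => by positivity, ?_⟩
  rw [sum_const, card_univ, nsmul_eq_mul]
  field_simp

theorem qm_bool {T : ℕ} {P : (ι → Bool) → Bool → ℝ} (h : QSim T P) (x : ι → Bool) :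
    0 ≤ P x true ∧ 0 ≤ P x false ∧ P x true + P x false = 1 := by
  obtain ⟨h0, h1⟩ := h.isD x
  exact ⟨h0 _, h0 _, by simpa using h1⟩

/-- Search for a flagged element. -/
theorem qm_search [Fintype α] [DecidableEq α] {T d : ℕ} {P : (ι → Bool) → α → ℝ}
    (h : QSim T P) (flag : α → (ι → Bool) → Bool) (hfl : ∀ a, Dep (flag a) d) (M : ℕ)
    (hM : 0 < M) :
    ∃ P' : (ι → Bool) → α × Bool → ℝ, QSim ((2 * M + 1) * (T + d)) P' ∧ ∀ x, ∃ γ : ℝ, 0 ≤ γ ∧
      (∀ a, P' x (a, true) = if flag a x = true then γ * P x a else 0) ∧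
      (1 ≤ (M : ℝ) ^ 2 * ∑ a, (if flag a x = true then P x a else 0) →
        1 / 8 ≤ γ * ∑ a, (if flag a x = true then P x a else 0)) := by
  have h1 := h.bind (β := α × Bool)
    (fun a => QSim.ofDep ((hfl a).map (fun c => (a, c))))
  have h2 : QSim (T + d) (fun x (b : α × Bool) => if b.2 = flag b.1 x then P x b.1 else 0) := by
    refine h1.congr fun x b => ?_
    obtain ⟨a, c⟩ := b
    rw [sum_eq_single a]
    · by_cases hc : c = flag a x <;> simp [hc]
    · intro a' _ ha
      have : ¬ (a = a') := fun e => ha e.symm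
      simp [this]
    · simp
  obtain ⟨P', hP', hs⟩ := h2.amp Prod.snd M hM
  refine ⟨P', hP', fun x => ?_⟩
  obtain ⟨γ, hγ, e1, e2⟩ := hs x
  have hsum : ∑ b : α × Bool, (if b.2 = true then
      (if b.2 = flag b.1 x then P x b.1 else 0) else 0) =
      ∑ a, (if flag a x = true then P x a else 0) := by
    rw [Fintype.sum_prod_type]
    refine sum_congr rfl fun a _ => ?_
    by_cases hc : flag a x = true <;> simp [hc]
  refine ⟨γ, hγ, fun a => ?_, ?_⟩
  · rw [e1 (a, true) rfl]
    by_cases hc : flag a x = true <;> simp [hc]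
  · rw [← hsum]; exact e2

/-- Sampling uniformly from the elements that are not killed. -/
theorem qm_sample {J : Type} [Fintype J] [DecidableEq J] [Nonempty J]
    (K : J → (ι → Bool) → Bool) {D M : ℕ} (hK : ∀ i, Dep (K i) D)
    (hM : Fintype.card J ≤ M ^ 2) :
    ∃ P : (ι → Bool) → J × Bool → ℝ, QSim ((2 * M + 1) * D) P ∧ ∀ x, ∃ γ : ℝ, 0 ≤ γ ∧
      (∀ i, P x (i, true) = if K i x = false then γ else 0) ∧
      ((∃ i, K i x = false) → 1 / 8 ≤ γ * (#{i | K i x = false} : ℕ)) := by
  have hc : (0 : ℝ) < Fintype.card J := by exact_mod_cast Fintype.card_pos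
  have hM0 : 0 < M := by
    rcases Nat.eq_zero_or_pos M with h | h
    · subst h
      simp at hM
    · exact h
  obtain ⟨P, hP, hs⟩ := qm_search (QSim.const (ι := ι) (qm_unif J)) (fun i x => !K i x)
    (fun i => (hK i).map fun c => !c) M hM0
  refine ⟨P, by simpa using hP, fun x => ?_⟩
  obtain ⟨γ, hγ, e1, e2⟩ := hs x
  have hsum : ∑ a, (if (!K a x) = true then (1 : ℝ) / Fintype.card J else 0) =
      (#{i | K i x = false} : ℕ) / Fintype.card J := by
    rw [← sum_filter, sum_const, nsmul_eq_mul]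
    simp [div_eq_mul_inv]
  refine ⟨γ / Fintype.card J, by positivity, fun i => ?_, fun hex => ?_⟩
  · rw [e1 i]
    by_cases hk : K i x = false
    · simp [hk, div_eq_mul_inv]
    · simp [hk]
  · rw [hsum] at e2
    obtain ⟨i, hi⟩ := hex
    have hpos : (1 : ℝ) ≤ (#{i | K i x = false} : ℕ) := by
      exact_mod_cast card_pos.2 ⟨i, by simpa using hi⟩
    have hMr : (Fintype.card J : ℝ) ≤ (M : ℝ) ^ 2 := by exact_mod_cast hM
    have := e2 (by
      rw [← mul_div_assoc, le_div_iff₀ hc]
      nlinarith)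
    calc (1 : ℝ) / 8 ≤ _ := this
      _ = _ := by ring

/-- The `or` of independent repetitions. -/
theorem qm_or {T : ℕ} {P : (ι → Bool) → Bool → ℝ} (h : QSim T P) (u : ℕ) :
    ∃ P' : (ι → Bool) → Bool → ℝ, QSim (u * T) P' ∧ ∀ x, P' x false = P x false ^ u := by
  induction u with
  | zero =>
    refine ⟨_, by simpa using QSim.ofDep (Dep.const (ι := ι) false 0), fun x => ?_⟩
    simp
  | succ u ih =>
    obtain ⟨P', hP', e⟩ := ih
    have h2 := h.bind (β := Bool) (T2 := u * T)
      (P2 := fun c => if c = true then (fun _ a => if a = true then 1 else 0) else P')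
      (fun c => by
        cases c
        · simpa using hP'
        · simpa using QSim.ofDep (Dep.const (ι := ι) true (u * T)))
    refine ⟨_, by rw [show (u + 1) * T = T + u * T by ring]; exact h2, fun x => ?_⟩
    simp [e, pow_succ, mul_comm]

/-- Checking all the constraints. -/
theorem qm_verify {Con : Type} [Fintype Con] [DecidableEq Con] [Nonempty Con]
    (K : Con → (ι → Bool) → Bool) {D M : ℕ} (hK : ∀ i, Dep (K i) D)
    (hM : Fintype.card Con ≤ M ^ 2) (u : ℕ) :
    ∃ P : (ι → Bool) → Bool → ℝ, QSim (u * ((2 * M + 1) * D)) P ∧ ∀ x,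
      ((∀ c, K c x = true) → P x true = 1) ∧ ((∃ c, K c x = false) → P x true ≤ (7 / 8) ^ u) := by
  obtain ⟨P, hP, hs⟩ := qm_sample K hK hM
  have h1 := hP.map Prod.snd
  obtain ⟨P2, hP2, e2⟩ := qm_or h1 u
  refine ⟨_, hP2.map (fun c => !c), fun x => ?_⟩
  obtain ⟨γ, hγ, e1, e3⟩ := hs x
  obtain ⟨b0, b1, b2⟩ := qm_bool h1 x
  have ht : ∑ a : Con × Bool, (if a.2 = true then P x a else 0) =
      γ * (#{i | K i x = false} : ℕ) := by
    rw [Fintype.sum_prod_type]
    simp only [Fintype.sum_bool, if_true, Bool.false_eq_true, if_false, add_zero, e1]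
    rw [← sum_filter, sum_const, nsmul_eq_mul, mul_comm]
  have hval : (∑ a : Bool, if (!a) = true then P2 x a else 0) = P2 x false := by simp
  simp only [hval, e2]
  simp only [ht] at b0 b2
  constructor
  · intro hall
    have : #{i | K i x = false} = 0 := by
      rw [card_eq_zero, filter_eq_empty_iff]
      intro i _
      simp [hall i]
    rw [this] at b2
    have : (∑ a : Con × Bool, if a.2 = false then P x a else 0) = 1 := by
      simpa using b2
    rw [this, one_pow]
  · intro hex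
    have := e3 hex
    exact pow_le_pow_left₀ b1 (by linarith) u

end Aux

section Main

variable {ι J S : Type} [Fintype J] [DecidableEq J] [Nonempty J] [Fintype S] [DecidableEq S]

/-- The base distribution of the search: a uniform column and its decoded address. -/
theorem qm_base {dec : J → (ι → Bool) → S → ℝ} {T0 : ℕ} (hdec : ∀ j, QSim T0 (dec j)) :
    QSim T0 (fun x (a : J × S) => dec a.1 x a.2 / Fintype.card J) := by
  have h1 := (QSim.const (ι := ι) (qm_unif J)).bind (β := J × S)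
    (fun j => (hdec j).map (fun s => (j, s)))
  rw [Nat.zero_add] at h1
  refine h1.congr fun x a => ?_
  obtain ⟨j, s⟩ := a
  rw [sum_eq_single j]
  · simp [div_eq_mul_inv, mul_comm]
  · intro j' _ hj
    simp [hj]
  · simp

omit [Nonempty J] in
/-- A bad pair fits one sample with probability at most `15/16`. -/
theorem qm_fit1 (p : J × Bool → ℝ) (hp : IsD p) (A : Finset J) (γ : ℝ) (hγ : 0 ≤ γ)
    (e : ∀ i, p (i, true) = if i ∈ A then γ else 0) (h8 : 1 / 8 ≤ γ * (#A : ℕ))
    (k : J → Bool) (j : J) (hbad : (#A : ℝ) < 2 * (#{i ∈ A | i ≠ j ∧ k i = false} : ℕ)) :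
    ∑ b, p b * (if b.2 = true → b.1 = j ∨ k b.1 = true then 1 else 0) ≤ 15 / 16 := by
  have h1 : ∑ b, p b * (if b.2 = true → b.1 = j ∨ k b.1 = true then 1 else 0) =
      ∑ b, p b - ∑ b : J × Bool,
        (if b.2 = true ∧ b.1 ≠ j ∧ k b.1 = false then p b else 0) := by
    rw [← sum_sub_distrib]
    refine sum_congr rfl fun b _ => ?_
    obtain ⟨i, c⟩ := b
    cases c
    · simp
    · by_cases h1 : i = j
      · simp [h1]
      · cases h2 : k i <;> simp [h1]
  have h2 : ∑ b : J × Bool, (if b.2 = true ∧ b.1 ≠ j ∧ k b.1 = false then p b else 0) =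
      γ * (#{i ∈ A | i ≠ j ∧ k i = false} : ℕ) := by
    rw [Fintype.sum_prod_type]
    simp only [Fintype.sum_bool, Bool.false_eq_true, false_and, if_false, add_zero, true_and, e]
    rw [card_filter, Nat.cast_sum, mul_sum, ← sum_ite_mem_eq A]
    · refine sum_congr rfl fun i _ => ?_
      by_cases h1 : i ∈ A <;> by_cases h2 : i ≠ j ∧ k i = false <;> simp [h1, h2]
  rw [h1, h2, hp.2]
  nlinarith [mul_le_mul_of_nonneg_left hbad.le hγ]

omit [Nonempty J] [DecidableEq S] in
/-- The expected number of bad pairs that fit all samples. -/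
theorem qm_fit (p : J × Bool → ℝ) (hp : IsD p) (A : Finset J) (γ : ℝ) (hγ : 0 ≤ γ)
    (e : ∀ i, p (i, true) = if i ∈ A then γ else 0) (h8 : 1 / 8 ≤ γ * (#A : ℕ))
    (k : J × S → J → Bool) (r : ℕ)
    (hr : (Fintype.card J : ℝ) * Fintype.card S * (15 / 16) ^ r ≤ 1 / 16) :
    ∑ v : Fin r → J × Bool, (∏ t, p (v t)) *
      ∑ a : J × S, (if (#A : ℝ) < 2 * (#{i ∈ A | i ≠ a.1 ∧ k a i = false} : ℕ) ∧
        ∀ t, (v t).2 = true → (v t).1 = a.1 ∨ k a (v t).1 = true then 1 else 0) ≤ 1 / 16 := by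
  simp only [mul_sum]
  rw [sum_comm]
  refine le_trans (sum_le_sum (g := fun _ => (15 / 16 : ℝ) ^ r) fun a _ => ?_) ?_
  · by_cases hb : (#A : ℝ) < 2 * (#{i ∈ A | i ≠ a.1 ∧ k a i = false} : ℕ)
    · have h1 := qm_fit1 p hp A γ hγ e h8 (k a) a.1 hb
      have h0 : 0 ≤ ∑ b, p b * (if b.2 = true → b.1 = a.1 ∨ k a b.1 = true then 1 else 0) :=
        sum_nonneg fun b _ => mul_nonneg (hp.1 b) (by split_ifs <;> norm_num)
      calc _ = ∑ v : Fin r → J × Bool, ∏ t, (p (v t) *
            (if (v t).2 = true → (v t).1 = a.1 ∨ k a (v t).1 = true then 1 else 0)) := by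
            refine sum_congr rfl fun v _ => ?_
            rw [prod_mul_distrib, Finset.prod_boole]
            simp [hb]
        _ = ∏ _t : Fin r, ∑ b, p b *
            (if b.2 = true → b.1 = a.1 ∨ k a b.1 = true then 1 else 0) := by
            rw [Finset.prod_univ_sum, Fintype.piFinset_univ]
        _ ≤ _ := by
            rw [prod_const, card_univ, Fintype.card_fin]
            exact pow_le_pow_left₀ h0 h1 r
    · simp only [hb, false_and, if_false, mul_zero, sum_const_zero]
      positivity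
  · rw [sum_const, card_univ, nsmul_eq_mul, Fintype.card_prod, Nat.cast_mul]
    exact hr

omit [Nonempty J] [DecidableEq S] in
/-- The effect of one search on the number of live columns. -/
theorem qm_step (q : (J × S) × Bool → ℝ) (hq : IsD q) (A : Finset J) (k : J × S → J → Bool)
    (fit : J × S → Prop) [DecidablePred fit] (h0 : ∀ a, ¬ fit a → q (a, true) = 0)
    (h8 : 1 / 8 ≤ ∑ a, q (a, true)) :
    ∑ b, q b * (#{i ∈ A | k b.1 i = false} : ℕ) ≤ (#A : ℝ) + 1 - (#A : ℝ) / 16 *
      (1 - ∑ a : J × S, (if (#A : ℝ) < 2 * (#{i ∈ A | i ≠ a.1 ∧ k a i = false} : ℕ) ∧ fit a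
        then 1 else 0)) := by
  have hA : (0 : ℝ) ≤ (#A : ℝ) := Nat.cast_nonneg _
  have hle : ∀ a : J × S, ((#{i ∈ A | k a i = false} : ℕ) : ℝ) ≤ #A := fun a => by
    exact_mod_cast card_filter_le _ _
  by_cases hb : ∃ a : J × S,
      (#A : ℝ) < 2 * (#{i ∈ A | i ≠ a.1 ∧ k a i = false} : ℕ) ∧ fit a
  · obtain ⟨a, ha⟩ := hb
    have h1 : (1 : ℝ) ≤ ∑ a : J × S,
        (if (#A : ℝ) < 2 * (#{i ∈ A | i ≠ a.1 ∧ k a i = false} : ℕ) ∧ fit a then 1 else 0) := by
      refine le_trans ?_ (single_le_sum (f := fun a : J × S =>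
        if (#A : ℝ) < 2 * (#{i ∈ A | i ≠ a.1 ∧ k a i = false} : ℕ) ∧ fit a then (1 : ℝ) else 0)
        (fun a _ => by split_ifs <;> norm_num) (mem_univ a))
      simp [ha]
    have h2 : ∑ b, q b * (#{i ∈ A | k b.1 i = false} : ℕ) ≤ ∑ b, q b * (#A : ℝ) :=
      sum_le_sum fun b _ => mul_le_mul_of_nonneg_left (hle _) (hq.1 b)
    rw [← sum_mul, hq.2] at h2
    nlinarith
  · have h1 : ∑ a : J × S,
        (if (#A : ℝ) < 2 * (#{i ∈ A | i ≠ a.1 ∧ k a i = false} : ℕ) ∧ fit a then (1 : ℝ)
          else 0) = 0 := by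
      refine sum_eq_zero fun a _ => if_neg fun h => hb ⟨a, h⟩
    have h2 : ∑ b, q b * (#{i ∈ A | k b.1 i = false} : ℕ) ≤
        ∑ b, (q b * ((#A : ℝ) + 1) - (if b.2 = true then q b else 0) * ((#A : ℝ) / 2)) := by
      refine sum_le_sum fun b _ => ?_
      obtain ⟨a, c⟩ := b
      have hq0 := hq.1 (a, c)
      cases c
      · have := hle a
        simp only [Bool.false_eq_true, if_false]
        nlinarith
      · by_cases hf : fit a
        · have h3 : ¬ (#A : ℝ) < 2 * (#{i ∈ A | i ≠ a.1 ∧ k a i = false} : ℕ) :=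
            fun h => hb ⟨a, h, hf⟩
          have h4 : #{i ∈ A | k a i = false} ≤ #{i ∈ A | i ≠ a.1 ∧ k a i = false} + 1 := by
            refine le_trans (card_le_card (t := insert a.1 {i ∈ A | i ≠ a.1 ∧ k a i = false})
              fun i hi => ?_) (card_insert_le _ _)
            simp only [mem_filter, mem_insert] at hi ⊢
            by_cases hia : i = a.1
            · exact Or.inl hia
            · exact Or.inr ⟨hi.1, hia, hi.2⟩
          have h5 : ((#{i ∈ A | k a i = false} : ℕ) : ℝ) ≤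
              (#{i ∈ A | i ≠ a.1 ∧ k a i = false} : ℕ) + 1 := by exact_mod_cast h4
          simp only [if_true]
          have h6 : ((#{i ∈ A | k a i = false} : ℕ) : ℝ) ≤ (#A : ℝ) + 1 - (#A : ℝ) / 2 := by
            linarith [not_lt.1 h3]
          nlinarith [mul_le_mul_of_nonneg_left h6 hq0]
        · simp [h0 a hf]
    rw [sum_sub_distrib, ← sum_mul, ← sum_mul, hq.2] at h2
    have h3 : ∑ b : (J × S) × Bool, (if b.2 = true then q b else 0) = ∑ a, q (a, true) := by
      rw [Fintype.sum_prod_type]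
      simp
    rw [h3] at h2
    rw [h1]
    nlinarith

/-- One round: the number of live columns shrinks in expectation. -/
theorem qm_round (kil : (ι → Bool) → J × S → J → Bool) (dec : J → (ι → Bool) → S → ℝ)
    {d T0 M r D : ℕ} (hkil : ∀ a i, Dep (fun x => kil x a i) d) (hdec : ∀ j, QSim T0 (dec j))
    (hM1 : 2 * Fintype.card J ≤ M ^ 2)
    (hr : (Fintype.card J : ℝ) * Fintype.card S * (15 / 16) ^ r ≤ 1 / 16)
    (K : J → (ι → Bool) → Bool) (hK : ∀ i, Dep (K i) D) :
    ∃ P : (ι → Bool) → (J × S) × Bool → ℝ, QSim ((2 * M + 1) * (T0 + r * (D + d))) P ∧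
      ∀ x j s, K j x = false → (∀ i, i ≠ j → kil x (j, s) i = true) → 3 / 4 ≤ dec j x s →
        ∑ b, P x b * (#{i | (K i x || kil x b.1 i) = false} : ℕ) ≤
          31 / 32 * (#{i | K i x = false} : ℕ) + 1 := by
  have hc : (0 : ℝ) < Fintype.card J := by exact_mod_cast Fintype.card_pos
  have hM0 : 0 < M := by
    rcases Nat.eq_zero_or_pos M with h | h
    · subst h
      simp at hM1
    · exact h
  obtain ⟨Ps, hPs, es⟩ := qm_sample K hK (M := M) (by omega)
  have hpi := QSim.pi (κ := Fin r) (P := fun _ => Ps) fun _ => hPs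
  rw [Fintype.card_fin] at hpi
  have hfl : ∀ (v : Fin r → J × Bool) (a : J × S), Dep (fun x =>
      decide (∀ t, (v t).2 = true → (v t).1 = a.1 ∨ kil x a (v t).1 = true)) (r * d) :=
    fun v a => (Dep.piFin (g := fun t x => kil x a (v t).1) fun t => hkil a (v t).1).map
      fun w => decide (∀ t, (v t).2 = true → (v t).1 = a.1 ∨ w t = true)
  choose Q hQ eQ using fun v : Fin r → J × Bool => qm_search (qm_base hdec) _ (hfl v) M hM0
  refine ⟨_, (hpi.bind hQ).mono (le_of_eq (by ring)), fun x j s hj hk hd => ?_⟩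
  obtain ⟨γ, hγ, e1, e2⟩ := es x
  have h8 := e2 ⟨j, hj⟩
  set A : Finset J := {i | K i x = false} with hA
  have hN : ∀ a : J × S, #{i | (K i x || kil x a i) = false} = #{i ∈ A | kil x a i = false} := by
    intro a
    rw [hA, filter_filter]
    simp
  have hfit := qm_fit (Ps x) (hPs.isD x) A γ hγ (fun i => by rw [e1 i]; simp [hA]) h8
    (kil x) r hr
  have hW := hpi.isD x
  simp only [sum_mul, mul_assoc, hN]
  rw [sum_comm]
  simp only [← mul_sum]
  have hstep : ∀ v : Fin r → J × Bool, (∏ t, Ps x (v t)) *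
      ∑ b, Q v x b * (#{i ∈ A | kil x b.1 i = false} : ℕ) ≤ (∏ t, Ps x (v t)) *
      ((#A : ℝ) + 1 - (#A : ℝ) / 16 * (1 - ∑ a : J × S,
        (if (#A : ℝ) < 2 * (#{i ∈ A | i ≠ a.1 ∧ kil x a i = false} : ℕ) ∧
          ∀ t, (v t).2 = true → (v t).1 = a.1 ∨ kil x a (v t).1 = true then 1 else 0))) := by
    intro v
    refine mul_le_mul_of_nonneg_left ?_ (hW.1 v)
    obtain ⟨γ', hγ', f1, f2⟩ := eQ v x
    refine qm_step (Q v x) ((hQ v).isD x) A (kil x)
      (fun a => ∀ t, (v t).2 = true → (v t).1 = a.1 ∨ kil x a (v t).1 = true) (fun a ha => ?_) ?_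
    · rw [f1 a, if_neg]
      simpa using ha
    · have hb : dec j x s / Fintype.card J ≤ ∑ a : J × S, (if decide (∀ t, (v t).2 = true →
          (v t).1 = a.1 ∨ kil x a (v t).1 = true) = true then
          dec a.1 x a.2 / Fintype.card J else 0) := by
        refine le_trans ?_ (single_le_sum (f := fun a : J × S => if decide (∀ t, (v t).2 = true →
          (v t).1 = a.1 ∨ kil x a (v t).1 = true) = true then
          dec a.1 x a.2 / Fintype.card J else 0) (fun a _ => ?_) (mem_univ (j, s)))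
        · rw [if_pos]
          refine decide_eq_true fun t _ => ?_
          by_cases h : (v t).1 = j
          · exact Or.inl h
          · exact Or.inr (hk _ h)
        · have := ((hdec a.1).isD x).1 a.2
          split_ifs <;> positivity
      have hMr : 2 * (Fintype.card J : ℝ) ≤ (M : ℝ) ^ 2 := by exact_mod_cast hM1
      have h9 := f2 (by
        refine le_trans ?_ (mul_le_mul_of_nonneg_left hb (by positivity))
        rw [← mul_div_assoc, le_div_iff₀ hc]
        nlinarith)
      refine h9.trans (le_of_eq ?_)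
      rw [mul_sum]
      refine sum_congr rfl fun a _ => ?_
      rw [f1 a]
      split_ifs <;> simp
  refine (sum_le_sum fun v _ => hstep v).trans ?_
  have hA0 : (0 : ℝ) ≤ (#A : ℝ) := Nat.cast_nonneg _
  have hx : ∀ w y : ℝ, w * ((#A : ℝ) + 1 - (#A : ℝ) / 16 * (1 - y)) =
      w * ((#A : ℝ) + 1 - (#A : ℝ) / 16) + (#A : ℝ) / 16 * (w * y) := fun w y => by ring
  simp only [hx]
  rw [sum_add_distrib, ← sum_mul, ← mul_sum, hW.2]
  nlinarith [mul_le_mul_of_nonneg_left hfit hA0]

/-- Several rounds followed by one sample find the live column. -/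
theorem qm_rounds (kil : (ι → Bool) → J × S → J → Bool) (dec : J → (ι → Bool) → S → ℝ)
    {d T0 M r D0 : ℕ} (hkil : ∀ a i, Dep (fun x => kil x a i) d) (hdec : ∀ j, QSim T0 (dec j))
    (hM1 : 2 * Fintype.card J ≤ M ^ 2)
    (hr : (Fintype.card J : ℝ) * Fintype.card S * (15 / 16) ^ r ≤ 1 / 16) (n : ℕ) :
    ∀ (D : ℕ) (K : J → (ι → Bool) → Bool), (∀ i, Dep (K i) D) → D + n * d ≤ D0 →
    ∃ P : (ι → Bool) → J × Bool → ℝ,
      QSim (n * ((2 * M + 1) * (T0 + r * D0)) + (2 * M + 1) * D0) P ∧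
      ∀ x j s, K j x = false → (∀ a, kil x a j = false) →
        (∀ i, i ≠ j → kil x (j, s) i = true) → 3 / 4 ≤ dec j x s →
        (2 / 33 - (32 + (31 / 32) ^ n * ((#{i | K i x = false} : ℕ) - 32)) / 33 ^ 2) / 8 ≤
          P x (j, true) := by
  induction n with
  | zero =>
    intro D K hK hD
    obtain ⟨Ps, hPs, es⟩ := qm_sample K hK (M := M) (by omega)
    refine ⟨Ps, hPs.mono ?_, fun x j s hj _ _ _ => ?_⟩
    · rw [Nat.zero_mul, Nat.zero_add]
      exact Nat.mul_le_mul_left _ (by omega)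
    · obtain ⟨γ, hγ, e1, e2⟩ := es x
      have h8 := e2 ⟨j, hj⟩
      rw [e1 j, if_pos hj]
      have hpos : (1 : ℝ) ≤ (#{i | K i x = false} : ℕ) := by
        exact_mod_cast card_pos.2 ⟨j, by simpa using hj⟩
      generalize ((#{i | K i x = false} : ℕ) : ℝ) = y at h8 hpos
      have h2 : y * ((2 / 33 - (32 + (31 / 32) ^ 0 * (y - 32)) / 33 ^ 2) / 8) ≤ y * γ := by
        nlinarith [sq_nonneg (y - 33)]
      exact le_of_mul_le_mul_left h2 (by linarith)
  | succ n ih =>
    intro D K hK hD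
    obtain ⟨P, hP, eP⟩ := qm_round kil dec hkil hdec hM1 hr K hK
    have hD' : D + d + n * d ≤ D0 := by rw [Nat.succ_mul] at hD; omega
    choose Q hQ eQ using fun b : (J × S) × Bool => ih (D + d) (fun i x => K i x || kil x b.1 i)
      (fun i => ((hK i).pair (hkil b.1 i)).map fun p => p.1 || p.2) hD'
    refine ⟨_, (hP.bind hQ).mono ?_, fun x j s hj ha hk hd => ?_⟩
    · have : (2 * M + 1) * (T0 + r * (D + d)) ≤ (2 * M + 1) * (T0 + r * D0) :=
        Nat.mul_le_mul_left _ (Nat.add_le_add_left (Nat.mul_le_mul_left _ (by omega)) _)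
      rw [Nat.succ_mul n]
      omega
    · have h1 := eP x j s hj hk hd
      have hD := hP.isD x
      refine le_trans ?_ (sum_le_sum fun b _ => mul_le_mul_of_nonneg_left
        (eQ b x j s (by simp [hj, ha]) ha hk hd) (hD.1 b))
      have hx : ∀ w y : ℝ, w * ((2 / 33 - (32 + (31 / 32) ^ n * (y - 32)) / 33 ^ 2) / 8) =
          w * ((2 / 33 - (32 - (31 / 32) ^ n * 32) / 33 ^ 2) / 8) -
            (31 / 32) ^ n / 33 ^ 2 / 8 * (w * y) := fun w y => by ring
      simp only [hx]
      rw [sum_sub_distrib, ← sum_mul, ← mul_sum, hD.2, pow_succ]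
      have hq : (0 : ℝ) ≤ (31 / 32) ^ n / 33 ^ 2 / 8 := by positivity
      nlinarith [mul_le_mul_of_nonneg_left h1 hq]

end Main

theorem qmain {ι J S Con : Type} [Fintype J] [DecidableEq J] [Nonempty J] [Fintype S]
    [DecidableEq S] [Fintype Con] [DecidableEq Con] [Nonempty Con]
    (f : (ι → Bool) → Bool) (kil : (ι → Bool) → J × S → J → Bool)
    (chk : (ι → Bool) → J × S → Con → Bool) (dec : J → (ι → Bool) → S → ℝ) (d T0 M R r : ℕ)
    (hf : ∀ x, f x = true ↔ ∃ a, ∀ c, chk x a c = true)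
    (hkil : ∀ a i, Dep (fun x => kil x a i) d) (hchk : ∀ a c, Dep (fun x => chk x a c) d)
    (hdec : ∀ j, QSim T0 (dec j))
    (h1 : ∀ x j s, (∀ c, chk x (j, s) c = true) →
      (∀ a, kil x a j = false) ∧ (∀ i, i ≠ j → kil x (j, s) i = true) ∧ 3 / 4 ≤ dec j x s)
    (hM1 : 2 * Fintype.card J ≤ M ^ 2) (hM2 : Fintype.card Con ≤ M ^ 2)
    (hR : (31 / 32 : ℝ) ^ R * Fintype.card J ≤ 1)
    (hr : (Fintype.card J : ℝ) * Fintype.card S * (15 / 16) ^ r ≤ 1 / 16) :
    ∃ P : (ι → Bool) → Bool → ℝ,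
      QSim (704 * ((2 * M + 1) * ((R + 1) * (T0 + (r + 1) * ((R + 1) * d)) + 60 * d))) P ∧
        ∀ x, 2 / 3 ≤ P x (f x) := by
  obtain ⟨P1, hP1, e1⟩ := qm_rounds (D0 := R * d) kil dec hkil hdec hM1 hr R 0 (fun _ _ => false)
    (fun _ => Dep.const false 0) (by omega)
  choose V hV eV using fun a : J × S => qm_verify (fun c x => chk x a c) (hchk a) hM2 60
  have hT := hP1.bind (fun b : J × Bool => (hdec b.1).bind fun s => hV (b.1, s))
  obtain ⟨P, hP, eP⟩ := qm_or hT 704
  refine ⟨P, hP.mono (Nat.mul_le_mul_left _ ?_), fun x => ?_⟩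
  · have : (2 * M + 1) * ((R + 1) * (T0 + (r + 1) * ((R + 1) * d)) + 60 * d) =
        R * ((2 * M + 1) * (T0 + r * (R * d))) + (2 * M + 1) * (R * d) +
          (T0 + 60 * ((2 * M + 1) * d)) +
          (2 * M * T0 + (2 * M + 1) * (r * (2 * R + 1) * d + (R * R + R + 1) * d)) := by ring
    omega
  · obtain ⟨b0, b1, b2⟩ := qm_bool hT x
    obtain ⟨c0, c1, c2⟩ := qm_bool hP x
    have hD1 := hP1.isD x
    have hnn : ∀ b : J × Bool, ∀ s, 0 ≤ dec b.1 x s * V (b.1, s) x true := fun b s =>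
      mul_nonneg (((hdec b.1).isD x).1 s) (qm_bool (hV (b.1, s)) x).1
    rw [eP x] at c2
    cases hx : f x
    · have hall : ∀ a, ∃ c, chk x a c = false := fun a => by
        by_contra hn
        have : f x = true := (hf x).2 ⟨a, fun c => by
          by_contra hc
          exact hn ⟨c, by simpa using hc⟩⟩
        simp [hx] at this
      have hle : ∑ b, P1 x b * ∑ s, dec b.1 x s * V (b.1, s) x true ≤ (7 / 8 : ℝ) ^ 60 := by
        calc _ ≤ ∑ b, P1 x b * (7 / 8 : ℝ) ^ 60 := by
              refine sum_le_sum fun b _ => mul_le_mul_of_nonneg_left ?_ (hD1.1 b)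
              calc _ ≤ ∑ s, dec b.1 x s * (7 / 8 : ℝ) ^ 60 :=
                    sum_le_sum fun s _ => mul_le_mul_of_nonneg_left
                      ((eV (b.1, s) x).2 (hall _)) (((hdec b.1).isD x).1 s)
                _ = _ := by rw [← sum_mul, ((hdec b.1).isD x).2, one_mul]
          _ = _ := by rw [← sum_mul, hD1.2, one_mul]
      rw [eP x]
      have h78 : (7 / 8 : ℝ) ^ 60 ≤ 1 / 2200 := by norm_num
      generalize (∑ b, P1 x b * ∑ s, dec b.1 x s * V (b.1, s) x true) = p at hle b0 b2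
      generalize (∑ b, P1 x b * ∑ s, dec b.1 x s * V (b.1, s) x false) = p' at b1 b2
      have hB := one_add_mul_le_pow (a := -p) (by linarith) 704
      have : p' = 1 + -p := by linarith
      rw [this]
      refine le_trans ?_ hB
      push_cast
      linarith
    · obtain ⟨⟨j, s⟩, hjs⟩ := (hf x).1 hx
      obtain ⟨g1, g2, g3⟩ := h1 x j s hjs
      have h2 := e1 x j s rfl g1 g2 g3
      have h3 : 1 / 264 ≤ P1 x (j, true) := by
        refine le_trans ?_ h2
        have hq : (0 : ℝ) ≤ (31 / 32) ^ R := by positivity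
        simp only [filter_true, card_univ]
        nlinarith
      have h4 : 3 / 4 ≤ ∑ s, dec j x s * V (j, s) x true := by
        refine le_trans ?_ (single_le_sum (fun s _ => hnn (j, true) s) (mem_univ s))
        rw [(eV (j, s) x).1 hjs, mul_one]
        exact g3
      have h5 : 1 / 352 ≤ ∑ b, P1 x b * ∑ s, dec b.1 x s * V (b.1, s) x true := by
        refine le_trans ?_ (single_le_sum (f := fun b : J × Bool =>
          P1 x b * ∑ s, dec b.1 x s * V (b.1, s) x true)
          (fun b _ => mul_nonneg (hD1.1 b) (sum_nonneg fun s _ => hnn b s)) (mem_univ (j, true)))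
        nlinarith [mul_le_mul h3 h4 (by norm_num) (hD1.1 _)]
      generalize (∑ b, P1 x b * ∑ s, dec b.1 x s * V (b.1, s) x true) = p at h5 b0 b2
      generalize (∑ b, P1 x b * ∑ s, dec b.1 x s * V (b.1, s) x false) = p' at b1 b2 c2
      have h6 : p' ^ 704 ≤ (351 / 352 : ℝ) ^ 704 := pow_le_pow_left₀ b1 (by linarith) _
      have hB := one_add_mul_le_pow (a := (1 / 352 : ℝ)) (by norm_num) 704
      have h7 : (351 / 352 : ℝ) ^ 704 * (1 + 1 / 352) ^ 704 ≤ 1 := by
        rw [← mul_pow]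
        exact pow_le_one₀ (by norm_num) (by norm_num)
      have h8 : (0 : ℝ) ≤ (351 / 352 : ℝ) ^ 704 := by positivity
      generalize (351 / 352 : ℝ) ^ 704 = y at h6 h7 h8
      generalize (1 + 1 / 352 : ℝ) ^ 704 = z at hB h7
      push_cast at hB
      nlinarith

end Vale.Agent.P362
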